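import Vale.Agent.P196.Pres.Atoms

/-!
P196, module B: two algebras all of whose atoms are separated lie in an algebra on pairs of atoms.
-/

namespace Vale.Agent.P196.Pres

open scoped Classical commutatorElement
open Equiv Simple

noncomputable section

variable {α : Type*} [Fintype α] [DecidableEq α] {E : Type*} [Group E] {W : World α E}
variable {P Q : Type*} [Fintype P] [DecidableEq P] [Fintype Q] [DecidableEq Q]
variable {T : Finset P → Perm α → E} {U : Finset Q → Perm α → E}

/-- The group of one component. -/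
def comp (W : World α E) (T : Finset P → Perm α → E) (p : P) : Subgroup E :=
  Subgroup.closure {x | Half W T {p} x}

lemma Half.mem_comp {p : P} {x : E} (h : Half W T {p} x) : x ∈ comp W T p :=
  Subgroup.subset_closure h

lemma comp_commute (hT : Alg W T) {p p' : P} (hne : p ≠ p') {x y : E} (hx : x ∈ comp W T p)
    (hy : y ∈ comp W T p') : Commute x y := by
  have h1 : ∀ z, Half W T {p'} z → comp W T p ≤ Subgroup.centralizer {z} := by
    intro z hz
    rw [comp, Subgroup.closure_le]
    intro x hx
    rw [SetLike.mem_coe, Subgroup.mem_centralizer_singleton_iff]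
    exact (hT.key hx (hT.half_mono hz (by simpa using hne))).eq
  have h2 : comp W T p' ≤ Subgroup.centralizer {x} := by
    rw [comp, Subgroup.closure_le]
    intro z hz
    rw [SetLike.mem_coe, Subgroup.mem_centralizer_singleton_iff]
    exact (Subgroup.mem_centralizer_singleton_iff.1 (h1 z hz hx)).symm
  exact (Subgroup.mem_centralizer_singleton_iff.1 (h2 hy)).symm

/-- The product of the components. -/
def prodHom (hT : Alg W T) : ((p : P) → comp W T p) →* E :=
  MonoidHom.noncommPiCoprod (fun p => (comp W T p).subtype)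
    fun _ _ hne x y => comp_commute hT hne x.2 y.2

lemma prodHom_single (hT : Alg W T) (p : P) (x : comp W T p) :
    prodHom hT (Pi.mulSingle p x) = x :=
  MonoidHom.noncommPiCoprod_mulSingle _ _ _

/-- A vector whose product commutes with every component is central componentwise. -/
lemma central_of_commute (hT : Alg W T) {f : (p : P) → comp W T p}
    (h : ∀ p x, Half W T {p} x → Commute (prodHom hT f) x) (p : P) :
    f p ∈ Subgroup.center (comp W T p) := by
  have hle : comp W T p ≤ Subgroup.centralizer {prodHom hT f} := by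
    rw [comp, Subgroup.closure_le]
    intro x hx
    rw [SetLike.mem_coe, Subgroup.mem_centralizer_singleton_iff]
    exact (h p x hx).symm.eq
  rw [Subgroup.mem_center_iff]
  intro g
  have hg : Commute (g : E) (prodHom hT f) := Subgroup.mem_centralizer_singleton_iff.1 (hle g.2)
  have e : ⁅(Pi.mulSingle p g : (p : P) → comp W T p), f⁆ = Pi.mulSingle p ⁅g, f p⁆ := by
    funext i
    by_cases hi : i = p
    · subst hi; simp [commutatorElement_def]
    · simp [commutatorElement_def, hi]
  have h1 : prodHom hT ⁅(Pi.mulSingle p g : (p : P) → comp W T p), f⁆ = 1 := by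
    rw [map_commutatorElement, prodHom_single]
    exact commutatorElement_eq_one_iff_commute.2 hg
  rw [e, prodHom_single, OneMemClass.coe_eq_one, commutatorElement_eq_one_iff_commute] at h1
  exact h1.eq

lemma central_of_eq (hT : Alg W T) {f g : (p : P) → comp W T p}
    (h : prodHom hT f = prodHom hT g) (p : P) : (f p)⁻¹ * g p ∈ Subgroup.center (comp W T p) :=
  central_of_commute hT (f := f⁻¹ * g) (fun q x _ => by
    rw [map_mul, map_inv, h, inv_mul_cancel]; exact Commute.one_left x) p

/-- A commutator of five-point cycles differs from its three-cycle by an element commuting with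
local elements. -/
lemma Alg.commutator_central (hT : Alg W T) (p : Finset P) (v : Fin 5 ↪ α) {x : E}
    {F : Finset α} (hF : F.card ≤ 5) (hx : x ∈ W.Loc F) :
    Commute ((T p (qc v))⁻¹ * ⁅T p (ql v), T p (qr v)⁆) x := by
  have h := hT.family p
  have hn := W.card
  have hm : ∀ {σ : Perm α}, σ.IsThreeCycle → (T p σ, σ) ∈ words (T p) Finset.univ :=
    fun hσ => Family.pair_mem hσ (Finset.subset_univ _)
  have hmem := mul_mem (inv_mem (hm (qc_three v))) (mul_mem (mul_mem (mul_mem (hm (ql_three v))
    (hm (qr_three v))) (inv_mem (hm (ql_three v)))) (inv_mem (hm (qr_three v))))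
  have hk := h.words_kernel _ _ hmem (by
    simp only [Prod.snd_mul, Prod.snd_inv, qc_eq, commutatorElement_def]; group)
  have hcl : Subgroup.closure (epsSet (T p)) ≤ Subgroup.centralizer {x} := by
    rw [Subgroup.closure_le]
    rintro _ ⟨a, b, c, d, h1, h2, h3, h4, h5, h6, rfl⟩
    rw [SetLike.mem_coe, Subgroup.mem_centralizer_singleton_iff]
    exact (hT.eps_central p h1 h2 h3 h4 h5 h6 hF hx).eq
  exact Subgroup.mem_centralizer_singleton_iff.1 (hcl (by simpa [commutatorElement_def] using hk))

/-- Two algebras with separated atoms lie in a common algebra. -/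
theorem join (hT : Alg W T) (hU : Alg W U) (hsep : ∀ p d, Sep T U {p} {d}) :
    ∃ V : Finset (P × Q) → Perm α → E, Alg W V ∧
      (∀ (s : Finset P) {σ : Perm α}, σ.IsThreeCycle → V (s ×ˢ Finset.univ) σ = T s σ) ∧
      (∀ (s : Finset Q) {σ : Perm α}, σ.IsThreeCycle → V (Finset.univ ×ˢ s) σ = U s σ) := by
  have hn := W.card
  let φ := prodHom hT
  let Tv : Finset P → Perm α → (p : P) → comp W T p := fun s σ p =>
    if h : σ.IsThreeCycle ∧ p ∈ s then ⟨T {p} σ, (hT.half subset_rfl h.1).mem_comp⟩ else 1
  have hTv : ∀ (s : Finset P) {σ : Perm α}, σ.IsThreeCycle → φ (Tv s σ) = T s σ := by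
    intro s σ hσ
    induction s using Finset.induction_on with
    | empty =>
      rw [hT.empty hσ, show Tv ∅ σ = 1 from funext fun p => dif_neg (by simp), map_one]
    | insert a s ha ih =>
      have e : Tv (insert a s) σ =
          Pi.mulSingle a ⟨T {a} σ, (hT.half subset_rfl hσ).mem_comp⟩ * Tv s σ := by
        funext p
        by_cases hp : p = a
        · subst hp; simp [Tv, hσ, ha]
        · by_cases hps : p ∈ s <;> simp [Tv, hσ, hp, hps]
      rw [e, map_mul, prodHom_single, ih, Finset.insert_eq,
        hT.union hσ (Finset.disjoint_singleton_left.2 ha)]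
  let w : Q → (Fin 5 ↪ α) → (p : P) → comp W T p := fun d v p =>
    ⟨⁅T {p} (ql v), U {d} (qr v)⁆, ((hsep p d).half hT hU v).mem_comp⟩
  have hexp : ∀ d v, φ (w d v ^ 4) = U {d} (qc v) := by
    intro d v
    have key : ∀ s : Finset P, ⁅T s (ql v), U {d} (qr v)⁆ =
        φ (fun p => if p ∈ s then w d v p else 1) := by
      intro s
      induction s using Finset.induction_on with
      | empty =>
        rw [hT.empty (ql_three v), show (fun p => if p ∈ (∅ : Finset P) then w d v p else 1) = 1
          from funext fun p => by simp, map_one, commutatorElement_one_left]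
      | insert a s ha ih =>
        set A : comp W T a := ⟨T {a} (ql v), (hT.half subset_rfl (ql_three v)).mem_comp⟩
        have e : (fun p => if p ∈ insert a s then w d v p else 1) =
            Pi.mulSingle a A * (fun p => if p ∈ s then w d v p else 1) * (Pi.mulSingle a A)⁻¹ *
              Pi.mulSingle a (w d v a) := by
          funext p
          by_cases hp : p = a
          · subst hp; simp [ha]
          · by_cases hps : p ∈ s <;> simp [hp, hps]
        rw [Finset.insert_eq, hT.union (ql_three v) (Finset.disjoint_singleton_left.2 ha),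
          ← Finset.insert_eq, e, map_mul, map_mul, map_mul, map_inv, prodHom_single,
          prodHom_single, ← ih]
        simp only [A, w, commutatorElement_def]
        group
    have h4 := hU.commutator_pow Finset.univ {d} v
    rw [Finset.inter_univ, hU.univ (ql_three v), ← hT.univ (ql_three v), key] at h4
    simp only [Finset.mem_univ, if_true] at h4
    rw [map_pow]; exact h4
  let ℓ : Q → Perm α → (p : P) → comp W T p := fun d σ =>
    if h : ∃ v : Fin 5 ↪ α, qc v = σ then w d h.choose ^ 4 else 1
  have hrep : ∀ {σ : Perm α}, σ.IsThreeCycle → ∃ v : Fin 5 ↪ α, qc v = σ := fun hσ =>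
    (exists_quint hσ (Finset.subset_univ _) (by rw [Finset.card_univ]; omega)).imp fun _ h => h.1
  have hℓ : ∀ d {σ : Perm α}, σ.IsThreeCycle → φ (ℓ d σ) = U {d} σ := by
    intro d σ hσ
    simp only [ℓ, dif_pos (hrep hσ)]
    rw [hexp, Exists.choose_spec (hrep hσ)]
  have hlift : ∀ d p, ∃ t : Perm α → comp W T p, Family t ∧
      (∀ {σ : Perm α}, σ.IsThreeCycle → (ℓ d σ p)⁻¹ * t σ ∈ Subgroup.center _) ∧
      ∀ v : Fin 5 ↪ α, t (qc v) = ⁅ℓ d (ql v) p, ℓ d (qr v) p⁆ ^ 4 := by
    intro d p
    refine exists_lift (by omega) _ (fun {σ τ} hσ hτ => ?_) (fun {σ} hσ => ?_) fun v => ?_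
    · refine central_of_eq hT (f := ℓ d (σ * τ * σ⁻¹)) (g := ℓ d σ * ℓ d τ * (ℓ d σ)⁻¹) ?_ p
      rw [map_mul, map_mul, map_inv, hℓ d hσ, hℓ d hτ, hℓ d (isThreeCycle_conj hτ σ),
        (hU.family {d}).conj hσ hτ]
    · refine central_of_commute hT (f := ℓ d σ ^ 3) (fun q x _ => ?_) p
      rw [map_pow, hℓ d hσ, hU.cube _ hσ]
      exact Commute.one_left x
    · refine central_of_commute hT (f := (ℓ d (qc v))⁻¹ * ⁅ℓ d (ql v), ℓ d (qr v)⁆)
        (fun q x hx => ?_) p
      obtain ⟨F, hF, hm, -⟩ := hx
      rw [map_mul, map_inv, map_commutatorElement, hℓ d (ql_three v), hℓ d (qr_three v),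
        hℓ d (qc_three v)]
      exact hU.commutator_central {d} v hF.le hm
  choose N hNfam hNcong hNquint using hlift
  let t : P × Q → Perm α → E := fun r σ => N r.2 r.1 σ
  have hsame : ∀ p {d d' : Q}, d ≠ d' → ∀ {σ τ : Perm α}, σ.IsThreeCycle → τ.IsThreeCycle →
      Commute (N d p σ) (N d' p τ) := by
    intro p d d' hne σ τ hσ hτ
    obtain ⟨v, rfl⟩ := hrep hσ
    obtain ⟨u, rfl⟩ := hrep hτ
    have hc : ∀ {a b : Perm α}, a.IsThreeCycle → b.IsThreeCycle →
        ⁅ℓ d a p, ℓ d' b p⁆ ∈ Subgroup.center _ := by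
      intro a b ha hb
      refine central_of_commute hT (f := ⁅ℓ d a, ℓ d' b⁆) (fun q x _ => ?_) p
      rw [map_commutatorElement, hℓ d ha, hℓ d' hb, commutatorElement_eq_one_iff_commute.2
        (hU.commute ha hb (Finset.disjoint_singleton.2 hne))]
      exact Commute.one_left x
    rw [hNquint, hNquint]
    have h1 : ∀ {b : Perm α}, b.IsThreeCycle →
        Commute ⁅ℓ d (ql v) p, ℓ d (qr v) p⁆ (ℓ d' b p) := fun hb =>
      commute_commutator (hc (ql_three v) hb) (hc (qr_three v) hb)
    have h2 : Commute ⁅ℓ d (ql v) p, ℓ d (qr v) p⁆ ⁅ℓ d' (ql u) p, ℓ d' (qr u) p⁆ := by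
      rw [commutatorElement_def (ℓ d' (ql u) p)]
      exact (((h1 (ql_three u)).mul_right (h1 (qr_three u))).mul_right
        (h1 (ql_three u)).inv_right).mul_right (h1 (qr_three u)).inv_right
    exact h2.pow_pow _ _
  have hc : AtomsCommute t := by
    rintro ⟨p, d⟩ ⟨p', d'⟩ hne σ τ hσ hτ
    by_cases hp : p = p'
    · subst hp
      exact (hsame p (fun e => hne (Prod.ext rfl e)) hσ hτ).map (comp W T p).subtype
    · exact comp_commute hT hp (N d p σ).2 (N d' p' τ).2
  have hfam : ∀ r, Family (t r) := fun r =>
    { conj := fun hσ hτ => congrArg Subtype.val ((hNfam r.2 r.1).conj hσ hτ)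
      inv := fun hσ => congrArg Subtype.val ((hNfam r.2 r.1).inv hσ)
      cube := fun hσ => congrArg Subtype.val ((hNfam r.2 r.1).cube hσ) }
  let V := ofAtoms t hc
  have hcol : ∀ d {σ : Perm α}, σ.IsThreeCycle → ∀ s : Finset P,
      V (s ×ˢ {d}) σ = φ (fun p => if p ∈ s then N d p σ else 1) := by
    intro d σ hσ s
    induction s using Finset.induction_on with
    | empty =>
      rw [Finset.empty_product, show (fun p => if p ∈ (∅ : Finset P) then N d p σ else 1) = 1
        from funext fun p => by simp, map_one]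
      exact ofAtoms_empty σ
    | insert a s ha ih =>
      have e : insert a s ×ˢ ({d} : Finset Q) = insert (a, d) (s ×ˢ {d}) := by
        ext ⟨x, y⟩; aesop
      have e' : (fun p => if p ∈ insert a s then N d p σ else 1) =
          Pi.mulSingle a (N d a σ) * fun p => if p ∈ s then N d p σ else 1 := by
        funext p
        by_cases hp : p = a
        · subst hp; simp [ha]
        · by_cases hps : p ∈ s <;> simp [hp, hps]
      rw [e, e', map_mul, prodHom_single, ← ih]
      exact ofAtoms_insert (by simp [ha]) hσ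
  have hd : ∀ d {σ : Perm α}, σ.IsThreeCycle → V (Finset.univ ×ˢ {d}) σ = U {d} σ := by
    intro d σ hσ
    obtain ⟨v, rfl⟩ := hrep hσ
    have h4 := hU.commutator_pow {d} {d} v
    rw [Finset.inter_self, ← hℓ d (ql_three v), ← hℓ d (qr_three v), ← map_commutatorElement,
      ← map_pow] at h4
    rw [hcol d hσ, ← h4]
    simp only [Finset.mem_univ, if_true]
    congr 1
    funext p
    rw [hNquint]
    simp [commutatorElement_def]
  have hpside : ∀ p {σ : Perm α}, σ.IsThreeCycle → V ({p} ×ˢ Finset.univ) σ = T {p} σ := by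
    intro p σ hσ
    have hcong : ∀ {σ : Perm α}, σ.IsThreeCycle → ∃ g : comp W T p,
        (g : E) = V ({p} ×ˢ Finset.univ) σ ∧
          (Tv Finset.univ σ p)⁻¹ * g ∈ Subgroup.center _ := by
      intro σ hσ
      have main : ∀ s : Finset Q, ∃ f : (p : P) → comp W T p, φ f = U s σ ∧
          ∃ g : comp W T p, (g : E) = V ({p} ×ˢ s) σ ∧ (f p)⁻¹ * g ∈ Subgroup.center _ := by
        intro s
        induction s using Finset.induction_on with
        | empty =>
          refine ⟨1, by rw [map_one, hU.empty hσ], 1, ?_, by simp⟩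
          rw [Finset.product_empty]
          exact (ofAtoms_empty σ).symm
        | insert a s ha ih =>
          obtain ⟨f, hf, g, hg, hfg⟩ := ih
          refine ⟨ℓ a σ * f, ?_, N a p σ * g, ?_, ?_⟩
          · rw [map_mul, hℓ a hσ, hf, Finset.insert_eq,
              hU.union hσ (Finset.disjoint_singleton_left.2 ha)]
          · have e : ({p} : Finset P) ×ˢ insert a s = insert (p, a) ({p} ×ˢ s) := by
              ext ⟨x, y⟩; aesop
            rw [e, Subgroup.coe_mul, hg]
            exact (ofAtoms_insert (t := t) (hc := hc)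
              (show (p, a) ∉ ({p} : Finset P) ×ˢ s by simp [ha]) hσ).symm
          · have e : ((ℓ a σ * f) p)⁻¹ * (N a p σ * g) =
                (f p)⁻¹ * ((ℓ a σ p)⁻¹ * N a p σ) * g := by
              rw [Pi.mul_apply]; group
            rw [e, mul_assoc, ← Subgroup.mem_center_iff.1 (hNcong a p hσ) g, ← mul_assoc]
            exact mul_mem hfg (hNcong a p hσ)
      obtain ⟨f, hf, g, hg, hfg⟩ := main Finset.univ
      refine ⟨g, hg, inv_mul_trans (central_of_eq hT ?_ p) hfg⟩
      rw [hTv _ hσ, hf, hU.univ hσ, hT.univ hσ]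
    obtain ⟨v, rfl⟩ := hrep hσ
    obtain ⟨g, hg, hgc⟩ := hcong (ql_three v)
    obtain ⟨g', hg', hgc'⟩ := hcong (qr_three v)
    have h4 := hT.commutator_pow {p} {p} v
    rw [Finset.inter_self] at h4
    rw [← h4]
    show ofAtoms t hc _ _ = _
    simp only [V] at hg hg'
    rw [ofAtoms_quint hfam (by omega) v, ← hg, ← hg']
    have e : ⁅g, g'⁆ = ⁅Tv Finset.univ (ql v) p, Tv Finset.univ (qr v) p⁆ :=
      commutator_congr_center hgc hgc'
    have := congrArg Subtype.val e
    simp only [Tv, ql_three v, qr_three v, Finset.mem_univ, and_self, dif_pos,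
      commutatorElement_def, Subgroup.coe_mul, Subgroup.coe_inv] at this
    simp only [commutatorElement_def, this]
  have hrows : ∀ (s : Finset P) {σ : Perm α}, σ.IsThreeCycle →
      V (s ×ˢ Finset.univ) σ = T s σ := by
    intro s σ hσ
    induction s using Finset.induction_on with
    | empty => rw [Finset.empty_product, hT.empty hσ]; exact ofAtoms_empty σ
    | insert a s ha ih =>
      have hdj : Disjoint (({a} : Finset P) ×ˢ (Finset.univ : Finset Q)) (s ×ˢ Finset.univ) :=
        Finset.disjoint_product.2 (Or.inl (Finset.disjoint_singleton_left.2 ha))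
      rw [Finset.insert_eq, Finset.union_product,
        hT.union hσ (Finset.disjoint_singleton_left.2 ha), ← ih, ← hpside a hσ]
      simp only [V, ofAtoms, dif_pos hσ]
      exact Finset.noncommProd_union_of_disjoint hdj _ _
  have hV : Alg W V := Alg.of_atoms hfam
    (fun {σ} hσ => by
      rw [← Finset.univ_product_univ, ← hT.univ hσ]
      exact hrows Finset.univ hσ)
    fun r σ F hσ hF h5 => by
      obtain ⟨v, rfl, hv⟩ := exists_quint hσ hF h5
      obtain ⟨-, hlF, hrF⟩ := support_q_subset v hv
      have hrepF : ∀ {τ : Perm α}, τ.IsThreeCycle → τ.support ⊆ F →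
          ∃ g : comp W T r.1, (g : E) ∈ W.Loc F ∧ (ℓ r.2 τ r.1)⁻¹ * g ∈ Subgroup.center _ := by
        intro τ hτ hτF
        obtain ⟨u, rfl, hu⟩ := exists_quint hτ hτF h5
        obtain ⟨-, hlu, hru⟩ := support_q_subset u hu
        refine ⟨(w r.2 u ^ 4) r.1, ?_, central_of_eq hT (by rw [hℓ r.2 hτ, hexp]) r.1⟩
        simp only [Pi.pow_apply, SubmonoidClass.coe_pow, w, commutatorElement_def]
        have mT := hT.loc {r.1} (ql_three u) hlu h5
        have mU := hU.loc {r.2} (qr_three u) hru h5
        exact pow_mem (mul_mem (mul_mem (mul_mem mT mU) (inv_mem mT)) (inv_mem mU)) 4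
      obtain ⟨g, hgF, hg⟩ := hrepF (ql_three v) hlF
      obtain ⟨g', hgF', hg'⟩ := hrepF (qr_three v) hrF
      show (N r.2 r.1 (qc v) : E) ∈ W.Loc F
      rw [hNquint, ← commutator_congr_center hg hg']
      simp only [commutatorElement_def, SubmonoidClass.coe_pow, Subgroup.coe_mul, Subgroup.coe_inv]
      exact pow_mem (mul_mem (mul_mem (mul_mem hgF hgF') (inv_mem hgF)) (inv_mem hgF')) 4
  refine ⟨V, hV, hrows, fun s σ hσ => ?_⟩
  induction s using Finset.induction_on with
  | empty => rw [Finset.product_empty, hV.empty hσ, hU.empty hσ]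
  | insert a s ha ih =>
    rw [Finset.insert_eq, Finset.product_union, hV.union hσ
      (Finset.disjoint_product.2 (Or.inr (Finset.disjoint_singleton_left.2 ha))), hd a hσ, ih,
      hU.union hσ (Finset.disjoint_singleton_left.2 ha)]

end

end Vale.Agent.P196.Pres
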