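import Vale.Agent.P196.Pres.Exact

/-!
P196, module B: the presented group is a cover.
-/

namespace Vale.Agent.P196.Pres

open scoped Classical
open Equiv Simple

noncomputable section

variable {S : SFT} {k : ℕ} (hk : 12 ≤ k) (hr : S.Rigid) (hco : S.CoinvariantsModTwoTrivial)

/-- The homomorphism of a clopen set. -/
def phi (s : Set S.X) : alternatingGroup (Fin k) →* Cov S k :=
  if h : IsEv s then (exists_phi hk hr hco h).choose else 1

lemma phi_three {s : Set S.X} (hs : IsEv s) {σ : Perm (Fin k)} (hσ : σ.IsThreeCycle) :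
    phi hk hr hco s ⟨σ, hσ.mem_alternatingGroup⟩ = TX hk hr s σ := by
  rw [phi, dif_pos hs]
  exact (exists_phi hk hr hco hs).choose_spec σ hσ

omit hr hco in
lemma alt_induction {Φ : alternatingGroup (Fin k) → Prop} (one : Φ 1)
    (mul : ∀ a b, Φ a → Φ b → Φ (a * b)) (inv : ∀ a, Φ a → Φ a⁻¹)
    (three : ∀ (σ : Perm (Fin k)) (hσ : σ.IsThreeCycle), Φ ⟨σ, hσ.mem_alternatingGroup⟩)
    (a : alternatingGroup (Fin k)) : Φ a := by
  have ha : a ∈ Subgroup.closure {g : alternatingGroup (Fin k) | (g : Perm (Fin k)).IsThreeCycle} :=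
    by rw [alternatingGroup.closure_isThreeCycles_eq_top]; trivial
  induction ha using Subgroup.closure_induction with
  | mem g hg => exact three g hg
  | one => exact one
  | mul x y _ _ hx hy => exact mul x y hx hy
  | inv x _ hx => exact inv x hx

lemma phi_commute {s t : Set S.X} (hs : IsEv s) (ht : IsEv t) (hd : Disjoint s t)
    (a b : alternatingGroup (Fin k)) : Commute (phi hk hr hco s a) (phi hk hr hco t b) := by
  induction a using alt_induction with
  | one => rw [map_one]; exact Commute.one_left _
  | mul x y hx hy => rw [map_mul]; exact hx.mul_left hy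
  | inv x hx => rw [map_inv]; exact hx.inv_left
  | three σ hσ =>
    induction b using alt_induction with
    | one => rw [map_one]; exact Commute.one_right _
    | mul x y hx hy => rw [map_mul]; exact hx.mul_right hy
    | inv x hx => rw [map_inv]; exact hx.inv_right
    | three τ hτ =>
      rw [phi_three hk hr hco hs hσ, phi_three hk hr hco ht hτ]
      exact TX_commute hk hr hs ht hd hσ hτ

lemma phi_union {s t : Set S.X} (hs : IsEv s) (ht : IsEv t) (hd : Disjoint s t)
    (a : alternatingGroup (Fin k)) :
    phi hk hr hco (s ∪ t) a = phi hk hr hco s a * phi hk hr hco t a := by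
  induction a using alt_induction with
  | one => simp
  | mul x y hx hy =>
    rw [map_mul, hx, hy, map_mul, map_mul, mul_assoc, ← mul_assoc (phi hk hr hco t x),
      ← (phi_commute hk hr hco hs ht hd y x).eq]
    group
  | inv x hx =>
    rw [map_inv, hx, map_inv, map_inv, (phi_commute hk hr hco hs ht hd x x).eq, mul_inv_rev]
  | three σ hσ =>
    have hu := isEv_of_isClopen (hs.isClopen.union ht.isClopen)
    rw [phi_three hk hr hco hu hσ, phi_three hk hr hco hs hσ, phi_three hk hr hco ht hσ,
      TX_union hk hr hs ht hd hσ]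

lemma phi_empty (a : alternatingGroup (Fin k)) : phi hk hr hco (∅ : Set S.X) a = 1 := by
  have he : IsEv (∅ : Set S.X) := isEv_of_isClopen isClopen_empty
  have h := phi_union hk hr hco he he (Set.disjoint_empty ∅) a
  rw [Set.union_empty] at h
  exact left_eq_mul.1 h

lemma proj_phi {s : Set S.X} (hs : IsEv s) (a : alternatingGroup (Fin k)) :
    proj S k (phi hk hr hco s a) = ind S k s a := by
  induction a using alt_induction with
  | one =>
    rw [map_one, map_one]
    exact Equiv.ext fun ⟨i, x⟩ => by simp [ind_mul_apply]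
  | mul x y hx hy => rw [map_mul, map_mul, hx, hy, Subgroup.coe_mul, ind_eq_mul]
  | inv x hx => rw [map_inv, map_inv, hx, ind_inv, InvMemClass.coe_inv]
  | three σ hσ => rw [phi_three hk hr hco hs hσ, proj_TX hk hr hs hσ]

/-! ### Finite partitions -/

section Partition

variable {ι : Type} [Fintype ι]

omit [Fintype ι] in
lemma isEv_fibre (c : LocallyConstant S.X ι) (i : ι) : IsEv (c ⁻¹' {i}) :=
  isEv_of_isClopen (c.isLocallyConstant.isClopen_fiber i)

omit [Fintype ι] in
lemma theta_comm (c : LocallyConstant S.X ι) :
    Pairwise fun i j => ∀ (a b : alternatingGroup (Fin k)),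
      Commute (phi hk hr hco (c ⁻¹' {i}) a) (phi hk hr hco (c ⁻¹' {j}) b) :=
  fun _ _ hij a b => phi_commute hk hr hco (isEv_fibre c _) (isEv_fibre c _)
    ((Set.disjoint_singleton.2 hij).preimage c) a b

/-- Colourings constant on the parts of a partition. -/
def theta (c : LocallyConstant S.X ι) : (ι → alternatingGroup (Fin k)) →* Cov S k :=
  MonoidHom.noncommPiCoprod (fun i => phi hk hr hco (c ⁻¹' {i})) (theta_comm hk hr hco c)

lemma theta_single [DecidableEq ι] (c : LocallyConstant S.X ι) (i : ι) (a : alternatingGroup (Fin k)) :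
    theta hk hr hco c (Pi.mulSingle i a) = phi hk hr hco (c ⁻¹' {i}) a :=
  MonoidHom.noncommPiCoprod_mulSingle _ _ _

lemma theta_comp {ι' : Type} [Fintype ι'] (c : LocallyConstant S.X ι') (j : ι' → ι)
    (g : ι → alternatingGroup (Fin k)) :
    theta hk hr hco (c.map j) g = theta hk hr hco c (g ∘ j) := by
  let R : (ι → alternatingGroup (Fin k)) →* Cov S k :=
    (theta hk hr hco c).comp
      { toFun := fun g => g ∘ j
        map_one' := rfl
        map_mul' := fun _ _ => rfl }
  suffices theta hk hr hco (c.map j) = R from DFunLike.congr_fun this g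
  refine MonoidHom.pi_ext fun i a => ?_
  rw [theta_single]
  show _ = theta hk hr hco c (Pi.mulSingle i a ∘ j)
  have key : ∀ T : Finset ι', theta hk hr hco c (fun x => if x ∈ T then a else 1) =
      phi hk hr hco (c ⁻¹' (↑T : Set ι')) a := by
    intro T
    induction T using Finset.induction_on with
    | empty =>
      rw [Finset.coe_empty, Set.preimage_empty, phi_empty,
        show (fun x : ι' => if x ∈ (∅ : Finset ι') then a else 1) = 1 from funext fun x => by simp,
        map_one]
    | insert b T hb ih =>
      have e : (fun x : ι' => if x ∈ insert b T then a else 1) =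
          Pi.mulSingle b a * fun x => if x ∈ T then a else 1 := by
        funext x
        by_cases hx : x = b
        · subst hx; simp [hb]
        · by_cases hxT : x ∈ T <;> simp [hx, hxT]
      rw [e, map_mul, theta_single, ih, Finset.coe_insert, Set.insert_eq, Set.preimage_union]
      refine (phi_union hk hr hco (isEv_fibre c b)
        (isEv_of_isClopen ⟨⟨?_⟩, c.isLocallyConstant _⟩) ?_ a).symm
      · rw [← Set.preimage_compl]
        exact c.isLocallyConstant _
      exact (Set.disjoint_singleton_left.2 (by simpa using hb)).preimage c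
  have hsingle : Pi.mulSingle i a ∘ j =
      fun x => if x ∈ Finset.univ.filter (fun x => j x = i) then a else 1 := by
    funext x
    by_cases hx : j x = i <;> simp [hx]
  rw [hsingle, key]
  congr 2
  ext x
  simp [LocallyConstant.map]

/-- The permutation of a partition colouring. -/
lemma proj_theta (c : LocallyConstant S.X ι) (g : ι → alternatingGroup (Fin k)) :
    proj S k (theta hk hr hco c g) = S.colouring fun x => (g (c x) : Perm (Fin k)) := by
  let R : (ι → alternatingGroup (Fin k)) →* Perm (Fin k × S.X) :=
    { toFun := fun g => S.colouring fun x => (g (c x) : Perm (Fin k))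
      map_one' := Equiv.ext fun _ => rfl
      map_mul' := fun _ _ => Equiv.ext fun _ => rfl }
  suffices (proj S k).comp (theta hk hr hco c) = R from DFunLike.congr_fun this g
  refine MonoidHom.pi_ext fun i a => ?_
  show proj S k (theta hk hr hco c (Pi.mulSingle i a)) = _
  rw [theta_single, proj_phi hk hr hco (isEv_fibre c i)]
  refine Equiv.ext fun ⟨l, x⟩ => ?_
  show _ = ((((Pi.mulSingle i a : ι → alternatingGroup (Fin k)) (c x) :
    alternatingGroup (Fin k)) : Perm (Fin k)) l, x)
  rw [ind_mul_apply]
  by_cases hx : c x = i <;> simp [hx]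

end Partition

/-- The colourings. -/
def colE : B.Colour S k →* Cov S k where
  toFun f := theta hk hr hco f id
  map_one' := by
    show theta hk hr hco ((LocallyConstant.const S.X ()).map
      fun _ => (1 : alternatingGroup (Fin k))) id = 1
    rw [theta_comp]
    exact map_one _
  map_mul' f g := by
    let P : LocallyConstant S.X (alternatingGroup (Fin k) × alternatingGroup (Fin k)) :=
      ⟨fun x => (f x, g x), f.isLocallyConstant.prodMk g.isLocallyConstant⟩
    show theta hk hr hco (P.map fun p => p.1 * p.2) id =
      theta hk hr hco (P.map Prod.fst) id * theta hk hr hco (P.map Prod.snd) id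
    rw [theta_comp, theta_comp, theta_comp, ← map_mul]
    rfl

lemma colE_map {ι : Type} [Fintype ι] (c : LocallyConstant S.X ι)
    (g : ι → alternatingGroup (Fin k)) :
    colE hk hr hco (c.map g) = theta hk hr hco c g :=
  theta_comp hk hr hco c g id

lemma colE_const {σ : Perm (Fin k)} (hσ : σ.IsThreeCycle) :
    colE hk hr hco (LocallyConstant.const S.X ⟨σ, hσ.mem_alternatingGroup⟩) =
      ε Finset.univ σ := by
  have h := colE_map hk hr hco (LocallyConstant.const S.X ())
    fun _ => (⟨σ, hσ.mem_alternatingGroup⟩ : alternatingGroup (Fin k))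
  rw [show (fun _ : Unit => (⟨σ, hσ.mem_alternatingGroup⟩ : alternatingGroup (Fin k))) =
    Pi.mulSingle () ⟨σ, hσ.mem_alternatingGroup⟩ from funext fun _ => by simp, theta_single,
    phi_three hk hr hco (isEv_fibre _ _) hσ] at h
  rw [← TX_univ hk hr hσ]
  refine Eq.trans ?_ (h.trans ?_)
  · congr 1
  · congr 1
    ext x
    simp

omit hr hco in
/-- An even permutation supported in `M` is a product of three-cycles supported in `M`. -/
lemma mem_closure_supported {M : Finset (Fin k)} {a : alternatingGroup (Fin k)}
    (ha : (a : Perm (Fin k)).support ⊆ M) :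
    a ∈ Subgroup.closure {g : alternatingGroup (Fin k) |
      (g : Perm (Fin k)).IsThreeCycle ∧ (g : Perm (Fin k)).support ⊆ M} := by
  set a' : Perm (Fin k) := (a : Perm (Fin k))
  have h1 : ∀ x, a' x ∈ M ↔ x ∈ M := fun x => by
    by_cases hx : a' x = x
    · rw [hx]
    · exact iff_of_true (ha (Perm.apply_mem_support.2 (Perm.mem_support.2 hx)))
        (ha (Perm.mem_support.2 hx))
  have h2 : ∀ x, a' x ≠ x → x ∈ M := fun x hx => ha (Perm.mem_support.2 hx)
  let ρ : Perm {x // x ∈ M} := Perm.subtypePerm a' h1
  have hρ : ρ ∈ alternatingGroup {x // x ∈ M} := by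
    rw [Perm.mem_alternatingGroup]
    show Perm.sign (Perm.subtypePerm a' h1) = 1
    rw [Subsingleton.elim (Finset.Subtype.fintype M) (Subtype.fintype _)]
    exact (Perm.sign_subtypePerm a' h1 h2).trans (Perm.mem_alternatingGroup.1 a.2)
  rw [← Perm.closure_three_cycles_eq_alternating] at hρ
  have key : ∀ τ ∈ Subgroup.closure {σ : Perm {x // x ∈ M} | σ.IsThreeCycle},
      ∃ b : alternatingGroup (Fin k), (b : Perm (Fin k)) = Perm.ofSubtype τ ∧
        b ∈ Subgroup.closure {g : alternatingGroup (Fin k) |
          (g : Perm (Fin k)).IsThreeCycle ∧ (g : Perm (Fin k)).support ⊆ M} := by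
    intro τ hτ
    induction hτ using Subgroup.closure_induction with
    | mem τ hτ =>
      have h3 : (Perm.ofSubtype τ : Perm (Fin k)).IsThreeCycle := by
        rw [← card_support_eq_three_iff, Perm.support_ofSubtype, Finset.card_map]
        rw [Subsingleton.elim (Subtype.fintype fun x => x ∈ M) (Finset.Subtype.fintype M)]
        exact hτ.card_support
      refine ⟨⟨_, h3.mem_alternatingGroup⟩, rfl, Subgroup.subset_closure ⟨h3, ?_⟩⟩
      show (Perm.ofSubtype τ : Perm (Fin k)).support ⊆ M
      rw [Perm.support_ofSubtype]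
      intro x hx
      obtain ⟨y, -, rfl⟩ := Finset.mem_map.1 hx
      exact y.2
    | one => exact ⟨1, by simp, one_mem _⟩
    | mul x y _ _ hx hy =>
      obtain ⟨b, hb, hb'⟩ := hx
      obtain ⟨c, hc, hc'⟩ := hy
      exact ⟨b * c, by rw [Subgroup.coe_mul, hb, hc, map_mul], mul_mem hb' hc'⟩
    | inv x _ hx =>
      obtain ⟨b, hb, hb'⟩ := hx
      exact ⟨b⁻¹, by rw [InvMemClass.coe_inv, hb, map_inv], inv_mem hb'⟩
  obtain ⟨b, hb, hb'⟩ := key ρ hρ
  rw [show a = b from Subtype.ext (by rw [hb, Perm.ofSubtype_subtypePerm h1 h2])]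
  exact hb'

lemma colE_covariant (f : B.Colour S k) (t : Fin k → V) (e : V) (ht : ∑ i, t i = 0)
    (hM : ∀ i, (∃ x, (f x : Perm (Fin k)) i ≠ i) → t i = e) :
    tr hk t * colE hk hr hco f * (tr hk t)⁻¹ = colE hk hr hco (f.shift e) := by
  let M : Finset (Fin k) := Finset.univ.filter fun i => ∃ x, (f x : Perm (Fin k)) i ≠ i
  have hM' : ∀ i ∈ M, t i = e := fun i hi => hM i (Finset.mem_filter.1 hi).2
  let g : alternatingGroup (Fin k) → alternatingGroup (Fin k) := fun a =>
    if (a : Perm (Fin k)).support ⊆ M then a else 1
  have hsupp : ∀ x, (f x : Perm (Fin k)).support ⊆ M := fun x i hi =>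
    Finset.mem_filter.2 ⟨Finset.mem_univ i, x, Perm.mem_support.1 hi⟩
  have e1 : f.map g = f := LocallyConstant.ext fun x => if_pos (hsupp x)
  have e2 : (f.shift e).map g = f.shift e := LocallyConstant.ext fun x => if_pos (hsupp _)
  rw [← e1, show B.Colour.shift (f.map g) e = (f.shift e).map g from rfl, colE_map, colE_map]
  have hphi : ∀ {s : Set S.X}, IsEv s → ∀ a : alternatingGroup (Fin k),
      (a : Perm (Fin k)).support ⊆ M →
      tr hk t * phi hk hr hco s a * (tr hk t)⁻¹ = phi hk hr hco (shiftSet e s) a := by
    intro s hs a ha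
    have h := mem_closure_supported ha
    clear ha
    induction h using Subgroup.closure_induction with
    | mem b hb =>
      obtain ⟨b, hb0⟩ := b
      rw [phi_three hk hr hco hs hb.1, phi_three hk hr hco (isEv_shiftSet hs) hb.1,
        tr_conj_TX hk hr hs hb.1 ht fun i hi => hM' i (hb.2 hi)]
    | one => simp
    | mul x y _ _ hx hy =>
      rw [map_mul, map_mul, ← hx, ← hy]
      group
    | inv x _ hx =>
      rw [map_inv, map_inv, ← hx]
      group
  let H : Subgroup (alternatingGroup (Fin k) → alternatingGroup (Fin k)) :=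
    ((MulAut.conj (tr hk t)).toMonoidHom.comp (theta hk hr hco f)).eqLocus
      (theta hk hr hco (f.shift e))
  suffices g ∈ H from this
  rw [← Finset.noncommProd_mulSingle g]
  refine Subgroup.noncommProd_mem _ _ fun a _ => ?_
  show tr hk t * theta hk hr hco f (Pi.mulSingle a (g a)) * (tr hk t)⁻¹ =
    theta hk hr hco (f.shift e) (Pi.mulSingle a (g a))
  rw [theta_single, theta_single]
  have hga : (g a : Perm (Fin k)).support ⊆ M := by
    simp only [g]
    split_ifs with h
    · exact h
    · simp
  rw [hphi (isEv_fibre f a) _ hga]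
  rfl

lemma colE_const_tr (σ : alternatingGroup (Fin k)) (t : Fin k → V) (ht : ∑ i, t i = 0) :
    colE hk hr hco (LocallyConstant.const S.X σ) * tr hk t *
        (colE hk hr hco (LocallyConstant.const S.X σ))⁻¹ =
      tr hk fun i => t ((σ : Perm (Fin k)).symm i) := by
  let c : alternatingGroup (Fin k) →* Cov S k :=
    (colE hk hr hco).comp
      { toFun := LocallyConstant.const S.X
        map_one' := rfl
        map_mul' := fun _ _ => rfl }
  show c σ * tr hk t * (c σ)⁻¹ = _
  induction σ using alt_induction generalizing t with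
  | one => simp; rfl
  | mul x y hx hy =>
    rw [map_mul, show c x * c y * tr hk t * (c x * c y)⁻¹ =
      c x * (c y * tr hk t * (c y)⁻¹) * (c x)⁻¹ by group, hy t ht, hx _ ?_]
    · rfl
    · exact (Equiv.sum_comp (y : Perm (Fin k)).symm t).trans ht
  | inv x hx =>
    have h := hx (fun i => t ((x : Perm (Fin k)) i)) ((Equiv.sum_comp (x : Perm (Fin k)) t).trans ht)
    simp only [Equiv.apply_symm_apply] at h
    rw [map_inv, ← h]
    show (c x)⁻¹ * (c x * tr hk (fun i => t ((x : Perm (Fin k)) i)) * (c x)⁻¹) * (c x)⁻¹⁻¹ = _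
    group
    rfl
  | three σ hσ =>
    rw [show c ⟨σ, hσ.mem_alternatingGroup⟩ = ε Finset.univ σ from colE_const hk hr hco hσ]
    show ε Finset.univ σ * tr hk t * (ε Finset.univ σ)⁻¹ = tr hk fun i => t (σ.symm i)
    let H : AddSubgroup (Fin k → V) :=
      { carrier := {u | ε (S := S) Finset.univ σ * tr hk u * (ε Finset.univ σ)⁻¹ =
          tr hk fun i => u (σ.symm i)}
        zero_mem' := by
          simp only [Set.mem_ofPred_eq, tr_zero, mul_one, mul_inv_cancel, Pi.zero_apply]
          exact (tr_zero hk).symm
        add_mem' := fun {a b} ha hb => by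
          simp only [Set.mem_ofPred_eq] at ha hb ⊢
          rw [show (fun i => (a + b) (σ.symm i)) =
            (fun i => a (σ.symm i)) + fun i => b (σ.symm i) from rfl, tr_add, tr_add, ← ha, ← hb]
          group
        neg_mem' := fun {a} ha => by
          simp only [Set.mem_ofPred_eq] at ha ⊢
          rw [show (fun i => (-a) (σ.symm i)) = -fun i => a (σ.symm i) from rfl, tr_neg, tr_neg,
            ← ha]
          group }
    refine tr_induction (F := ∅) H (fun a b _ _ i => ?_) ht (by simp)
    show ε Finset.univ σ * tr hk _ * (ε Finset.univ σ)⁻¹ = tr hk _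
    have e : (fun j => (Pi.single a (unit i) - Pi.single b (unit i) : Fin k → V) (σ.symm j)) =
        (Pi.single (σ a) (unit i) - Pi.single (σ b) (unit i) : Fin k → V) := by
      funext j
      simp only [Pi.sub_apply, Pi.single_apply, Equiv.symm_apply_eq]
    rw [e, ← tau_eq, ← tau_eq]
    refine Short.eq (((short_of _).mul (short_of _)).mul (short_of _).inv) (short_of _)
      (by norm_num) ?_
    show proj S k (ε Finset.univ σ * tau a b i * (ε Finset.univ σ)⁻¹) = proj S k (tau (σ a) (σ b) i)
    rw [map_mul, map_mul, map_inv, proj_ε _ hσ, proj_tau, proj_tau, evSet_univ, ind_inv, ← e]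
    refine Equiv.ext fun ⟨l, x⟩ => ?_
    simp only [Perm.mul_apply, ind_mul_apply, translation_apply, Set.mem_univ, if_true]
    simp [Perm.inv_def]

/-- The cover. -/
def cover : B.Cover S k where
  E := Cov S k
  proj := proj S k
  col := colE hk hr hco
  tr := tr hk
  tr_add s t _ _ := tr_add hk s t
  proj_col f := by
    show proj S k (theta hk hr hco f id) = _
    rw [proj_theta]
    rfl
  proj_tr _ ht := proj_tr hk ht
  generated := by
    rw [eq_top_iff, ← PresentedGroup.closure_range_of (rels S k), Subgroup.closure_le]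
    rintro _ ⟨⟨P, σ⟩ | ⟨a, b, i⟩, rfl⟩
    · by_cases hσ : σ.IsThreeCycle
      · have hev : IsEv (evSet P) := ⟨_, P, rfl⟩
        have e1 : ε P σ = TX hk hr (evSet P) σ := by
          rw [TX_ev hk hr P hσ,
            show algC hk hr (win S 0) P σ = Tw hk 0 P σ from
              (isCtx _).unique (isCtx_Tw 0) P hσ]
          unfold Tw pull
          rw [Xv_zero hk _ hσ]
          refine Short.eq (short_of _) (short_of _) (by norm_num) ?_
          show proj S k (ε P σ) = proj S k (ε _ σ)
          rw [proj_ε _ hσ, proj_ε _ hσ]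
          refine congrArg (fun s => ind S k s σ) (Set.ext fun x => ?_)
          rw [mem_evSet, mem_evSet, Finset.mem_filter]
          have := moveWin_patX (S := S) 0 x
          rw [act_zero] at this
          simp [this]
        show ε P σ ∈ _
        rw [e1, ← phi_three hk hr hco hev hσ]
        refine Subgroup.subset_closure (Or.inl ?_)
        let c : LocallyConstant S.X Bool := ⟨fun x => decide (x ∈ evSet P),
          isLocallyConstant_of_ev hev⟩
        refine ⟨c.map (Pi.mulSingle true ⟨σ, hσ.mem_alternatingGroup⟩), ?_⟩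
        rw [colE_map, theta_single]
        congr 2
        ext x
        simp [c]
      · have e : (PresentedGroup.of (Sum.inl (P, σ)) : Cov S k) = 1 :=
          Short.eq (short_of _) short_one (by norm_num) (by
            rw [proj_of, map_one, val, if_neg hσ])
        rw [SetLike.mem_coe, e]
        exact one_mem _
    · show tau a b i ∈ _
      rw [tau_eq hk]
      exact Subgroup.subset_closure (Or.inr ⟨_, by simp [Finset.sum_sub_distrib], rfl⟩)
  const_tr σ t ht := colE_const_tr hk hr hco σ t ht
  covariant f t e ht h := colE_covariant hk hr hco f t e ht h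
where
  isLocallyConstant_of_ev {s : Set S.X} (hs : IsEv s) :
      IsLocallyConstant fun x : S.X => decide (x ∈ s) := by
    refine (IsLocallyConstant.iff_exists_open _).2 fun x => ?_
    by_cases hx : x ∈ s
    · exact ⟨s, hs.isClopen.isOpen, hx, fun y hy => by simp [hx, hy]⟩
    · exact ⟨sᶜ, hs.isClopen.compl.isOpen, hx, fun y hy => by simp [hx, show y ∉ s from hy]⟩

/-- Module B, first half. -/
theorem coverStatement : B.CoverStatement :=
  fun S _ hr hco k hk => ⟨cover hk hr hco,
    show Group.IsFinitelyPresented (PresentedGroup (rels S k)) from inferInstance⟩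

end

end Vale.Agent.P196.Pres
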