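import Vale.Agent.P196.Pres.Context

/-!
P196, module B: algebras built from their atoms, and passing to a subset of atoms.
-/

namespace Vale.Agent.P196.Pres

open scoped Classical commutatorElement
open Equiv Simple

noncomputable section

variable {α : Type*} [Fintype α] [DecidableEq α] {E : Type*} [Group E]
variable {P R : Type*} [Fintype P] [DecidableEq P] [Fintype R] [DecidableEq R]

/-- Atomwise commutation. -/
def AtomsCommute (t : R → Perm α → E) : Prop :=
  ∀ r r' : R, r ≠ r' → ∀ {σ τ : Perm α}, σ.IsThreeCycle → τ.IsThreeCycle →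
    Commute (t r σ) (t r' τ)

/-- The product over the atoms of an event. -/
def ofAtoms (t : R → Perm α → E) (hc : AtomsCommute t) (s : Finset R) (σ : Perm α) : E :=
  if hσ : σ.IsThreeCycle then s.noncommProd (fun r => t r σ) (fun a _ b _ h => hc a b h hσ hσ)
  else 1

section

variable {t : R → Perm α → E} {hc : AtomsCommute t}

omit [Fintype R] [DecidableEq R] in
lemma ofAtoms_empty (σ : Perm α) : ofAtoms t hc ∅ σ = 1 := by
  unfold ofAtoms
  split_ifs
  · exact Finset.noncommProd_empty _ _
  · rfl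

omit [Fintype R] in
lemma ofAtoms_insert {s : Finset R} {r : R} (hr : r ∉ s) {σ : Perm α} (hσ : σ.IsThreeCycle) :
    ofAtoms t hc (insert r s) σ = t r σ * ofAtoms t hc s σ := by
  simp only [ofAtoms, dif_pos hσ]
  exact Finset.noncommProd_insert_of_notMem s r _ _ hr

omit [Fintype R] [DecidableEq R] in
lemma ofAtoms_singleton (r : R) {σ : Perm α} (hσ : σ.IsThreeCycle) :
    ofAtoms t hc {r} σ = t r σ := by
  simp [ofAtoms, hσ]

omit [Fintype R] [DecidableEq R] in
lemma ofAtoms_commute (s : Finset R) {σ τ : Perm α} (hσ : σ.IsThreeCycle) (hτ : τ.IsThreeCycle)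
    {r : R} (hr : r ∉ s) : Commute (t r τ) (ofAtoms t hc s σ) := by
  simp only [ofAtoms, dif_pos hσ]
  exact Finset.noncommProd_commute s _ _ _ fun a ha =>
    hc r a (fun e => hr (e ▸ ha)) hτ hσ

omit [Fintype R] [DecidableEq R] in
lemma ofAtoms_mem (s : Finset R) {σ : Perm α} (hσ : σ.IsThreeCycle) {H : Subgroup E}
    (h : ∀ r ∈ s, t r σ ∈ H) : ofAtoms t hc s σ ∈ H := by
  simp only [ofAtoms, dif_pos hσ]
  exact Subgroup.noncommProd_mem _ _ h

variable {W : World α E}

omit [Fintype R] in
lemma ofAtoms_quint (hfam : ∀ r, Family (t r)) (hn : 6 ≤ Fintype.card α) (v : Fin 5 ↪ α)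
    (s : Finset R) :
    ofAtoms t hc s (qc v) = ⁅ofAtoms t hc s (ql v), ofAtoms t hc s (qr v)⁆ ^ 4 := by
  have hl := ql_three v
  have hr' := qr_three v
  induction s using Finset.induction_on with
  | empty => simp [ofAtoms_empty]
  | insert r s hr ih =>
    have hq : ⁅t r (ql v), t r (qr v)⁆ ^ 4 = t r (qc v) := by
      rw [commutatorElement_def, (hfam r).conj hl hr']
      exact (hfam r).quint_pow hn v
    rw [ofAtoms_insert hr (qc_three v), ofAtoms_insert hr hl, ofAtoms_insert hr hr', ih, ← hq]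
    have k : ∀ {σ τ : Perm α}, σ.IsThreeCycle → τ.IsThreeCycle →
        Commute (t r τ) (ofAtoms t hc s σ) := fun hσ hτ => ofAtoms_commute s hσ hτ hr
    set a := t r (ql v)
    set a' := t r (qr v)
    set b := ofAtoms t hc s (ql v)
    set b' := ofAtoms t hc s (qr v)
    have k1 : Commute a b := k hl hl
    have k2 : Commute a b' := k hr' hl
    have k3 : Commute a' b := k hl hr'
    have k4 : Commute a' b' := k hr' hr'
    have e : ⁅a * b, a' * b'⁆ = ⁅a, a'⁆ * ⁅b, b'⁆ := by
      simp only [commutatorElement_def]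
      calc a * b * (a' * b') * (a * b)⁻¹ * (a' * b')⁻¹
          = a * (b * a') * (b' * b⁻¹ * a⁻¹) * (b'⁻¹ * a'⁻¹) := by group
        _ = a * a' * (b * (b' * b⁻¹) * a⁻¹) * (a'⁻¹ * b'⁻¹) := by
            rw [← k3.eq, k4.inv_inv.eq]; group
        _ = a * a' * (a⁻¹ * (b * (b' * b⁻¹))) * (a'⁻¹ * b'⁻¹) := by
            rw [((k1.mul_right (k2.mul_right k1.inv_right)).inv_left).eq]
        _ = a * a' * a⁻¹ * ((b * (b' * b⁻¹)) * a'⁻¹) * b'⁻¹ := by group
        _ = a * a' * a⁻¹ * (a'⁻¹ * (b * (b' * b⁻¹))) * b'⁻¹ := by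
            rw [((k3.mul_right (k4.mul_right k3.inv_right)).inv_left).eq]
        _ = a * a' * a⁻¹ * a'⁻¹ * (b * b' * b⁻¹ * b'⁻¹) := by group
    rw [e, Commute.mul_pow]
    simp only [commutatorElement_def]
    exact ((((k1.mul_right k2).mul_right k1.inv_right).mul_right k2.inv_right).mul_left
      (((k3.mul_right k4).mul_right k3.inv_right).mul_right k4.inv_right)).mul_left
      (((k1.mul_right k2).mul_right k1.inv_right).mul_right k2.inv_right).inv_left |>.mul_left
      (((k3.mul_right k4).mul_right k3.inv_right).mul_right k4.inv_right).inv_left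

/-- The algebra built from atom families. -/
theorem Alg.of_atoms (hfam : ∀ r, Family (t r))
    (huniv : ∀ {σ : Perm α}, σ.IsThreeCycle → ofAtoms t hc Finset.univ σ = W.K σ)
    (hloc : ∀ r {σ : Perm α} {F : Finset α}, σ.IsThreeCycle → σ.support ⊆ F → 5 ≤ F.card →
      t r σ ∈ W.Loc F) : Alg W (ofAtoms t hc) where
  univ := huniv
  loc p σ F hσ hF h5 := ofAtoms_mem p hσ fun r _ => hloc r hσ hF h5
  inv p σ hσ := by
    induction p using Finset.induction_on with
    | empty => simp [ofAtoms_empty]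
    | insert r s hr ih =>
      rw [ofAtoms_insert hr hσ.inv, ofAtoms_insert hr hσ, ih, (hfam r).inv hσ,
        (ofAtoms_commute s hσ hσ hr).eq, mul_inv_rev]
  cube p σ hσ := by
    induction p using Finset.induction_on with
    | empty => simp [ofAtoms_empty]
    | insert r s hr ih =>
      rw [ofAtoms_insert hr hσ, (ofAtoms_commute s hσ hσ hr).mul_pow, ih, (hfam r).cube hσ,
        mul_one]
  union {p q σ} hσ hd := by
    simp only [ofAtoms, dif_pos hσ]
    exact Finset.noncommProd_union_of_disjoint hd _ _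
  conj p q σ τ hσ hτ := by
    have hστ := isThreeCycle_conj hτ σ
    induction q using Finset.induction_on with
    | empty => simp [ofAtoms_empty]
    | insert r s hr ih =>
      have e : ofAtoms t hc p σ * (t r τ * ofAtoms t hc s τ) * (ofAtoms t hc p σ)⁻¹ =
          (ofAtoms t hc p σ * t r τ * (ofAtoms t hc p σ)⁻¹) *
            (ofAtoms t hc p σ * ofAtoms t hc s τ * (ofAtoms t hc p σ)⁻¹) := by group
      rw [ofAtoms_insert hr hτ, e, ih]
      by_cases hrp : r ∈ p
      · have hp : ofAtoms t hc p σ = t r σ * ofAtoms t hc (p.erase r) σ := by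
          rw [← ofAtoms_insert (Finset.notMem_erase r p) hσ, Finset.insert_erase hrp]
        have hx : ofAtoms t hc p σ * t r τ * (ofAtoms t hc p σ)⁻¹ = t r (σ * τ * σ⁻¹) := by
          rw [← (hfam r).conj hσ hτ, hp, mul_assoc (t r σ),
            ← (ofAtoms_commute (p.erase r) hσ hτ (Finset.notMem_erase r p)).eq]
          group
        rw [hx, Finset.insert_inter_of_mem hrp, Finset.insert_sdiff_of_mem _ hrp,
          ofAtoms_insert (fun h => hr (Finset.mem_inter.1 h).1) hστ]
        exact (mul_assoc _ _ _).symm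
      · have hx : ofAtoms t hc p σ * t r τ * (ofAtoms t hc p σ)⁻¹ = t r τ := by
          rw [← (ofAtoms_commute p hσ hτ hrp).eq, mul_inv_cancel_right]
        rw [hx, Finset.insert_inter_of_notMem hrp, Finset.insert_sdiff_of_notMem _ hrp,
          ofAtoms_insert (fun h => hr (Finset.mem_sdiff.1 h).1) hτ, ← mul_assoc,
          (ofAtoms_commute (s ∩ p) hστ hτ fun h => hr (Finset.mem_inter.1 h).1).eq, mul_assoc]

end

variable {W : World α E} {V : Finset P → Perm α → E}

/-- An event killed by commutators kills each of its atoms. -/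
lemma Alg.zero_of_commutator (h : Alg W V) {a : P} {p q : Finset P} (ha : a ∈ p ∩ q)
    (hz : ∀ v : Fin 5 ↪ α, ⁅V p (ql v), V q (qr v)⁆ = 1) {σ : Perm α} (hσ : σ.IsThreeCycle) :
    V {a} σ = 1 := by
  have hz' : ∀ {τ : Perm α}, τ.IsThreeCycle → V (q ∩ p) τ = 1 := by
    intro τ hτ
    obtain ⟨v, rfl, -⟩ := exists_quint hτ (Finset.subset_univ _)
      (by rw [Finset.card_univ]; have := W.card; omega)
    rw [← h.commutator_pow p q v, hz v, one_pow]
  obtain ⟨v, rfl, -⟩ := exists_quint hσ (Finset.subset_univ _)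
    (by rw [Finset.card_univ]; have := W.card; omega)
  have e := h.commutator_pow {a} (q ∩ p) v
  rw [hz' (qr_three v), Finset.inter_singleton_of_mem
    (by rwa [Finset.inter_comm] at ha)] at e
  rw [← e]; simp

/-- The algebra on a subset of atoms outside which it vanishes. -/
def restrict (f : R ↪ P) (V : Finset P → Perm α → E) : Finset R → Perm α → E :=
  fun s => V (s.map f)

omit [DecidableEq R] in
lemma Alg.map_univ (h : Alg W V) (f : R ↪ P)
    (hz : ∀ a, a ∉ Set.range f → ∀ {σ : Perm α}, σ.IsThreeCycle → V {a} σ = 1)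
    {σ : Perm α} (hσ : σ.IsThreeCycle) : V (Finset.univ.map f) σ = W.K σ := by
  have hs : ∀ s : Finset P, Disjoint s (Finset.univ.map f) → V s σ = 1 := by
    intro s
    induction s using Finset.induction_on with
    | empty => exact fun _ => h.empty hσ
    | insert a t ha ih =>
      intro hd
      rw [Finset.disjoint_insert_left] at hd
      rw [Finset.insert_eq, h.union hσ (Finset.disjoint_singleton_left.2 ha), ih hd.2, mul_one]
      exact hz a (fun ⟨r, hr⟩ => hd.1 (Finset.mem_map.2 ⟨r, Finset.mem_univ r, hr⟩)) hσ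
  rw [h.split_univ (Finset.univ.map f) hσ, hs _ disjoint_compl_left, mul_one]

theorem Alg.restrict (h : Alg W V) (f : R ↪ P)
    (hz : ∀ a, a ∉ Set.range f → ∀ {σ : Perm α}, σ.IsThreeCycle → V {a} σ = 1) :
    Alg W (restrict f V) where
  univ hσ := h.map_univ f hz hσ
  loc p := h.loc _
  inv p := h.inv _
  cube p := h.cube _
  union {p q σ} hσ hd := by
    unfold Pres.restrict
    rw [Finset.map_union]
    exact h.union hσ ((Finset.disjoint_map f).2 hd)
  conj p q σ τ hσ hτ := by
    unfold Pres.restrict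
    rw [h.conj _ _ hσ hτ, Finset.map_inter]
    congr 2
    ext x
    simp only [Finset.mem_sdiff, Finset.mem_map]
    constructor
    · rintro ⟨⟨a, ha, rfl⟩, hne⟩
      exact ⟨a, ⟨ha, fun hp => hne ⟨a, hp, rfl⟩⟩, rfl⟩
    · rintro ⟨a, ⟨ha, hne⟩, rfl⟩
      exact ⟨⟨a, ha, rfl⟩, fun ⟨b, hb, e⟩ => hne (f.injective e ▸ hb)⟩

end

end Vale.Agent.P196.Pres
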