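import Vale.Agent.P196.Pres.Lift

/-!
P196, module B: algebras of events carrying families of three-cycles, and separation of events of
two such algebras.
-/

namespace Vale.Agent.P196.Pres

open scoped Classical commutatorElement
open Equiv Simple

noncomputable section

variable {α : Type*} [Fintype α] [DecidableEq α]

lemma Family.closure_eps {Γ : Type*} [Group Γ] {t : Perm α → Γ} (h : Family t)
    (hn : 6 ≤ Fintype.card α) {z : Γ} (hz : z ∈ Subgroup.closure (epsSet t)) :
    z ^ 2 = 1 ∧ ∀ {σ : Perm α}, σ.IsThreeCycle → Commute z (t σ) := by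
  have heq : ∀ e ∈ epsSet t, ∀ e' ∈ epsSet t, e = e' := by
    rintro _ ⟨a, b, c, d, h1, h2, h3, h4, h5, h6, rfl⟩ _
      ⟨a', b', c', d', g1, g2, g3, g4, g5, g6, rfl⟩
    have mk : ∀ {a b c d : α}, a ≠ b → a ≠ c → a ≠ d → b ≠ c → b ≠ d → c ≠ d →
        Function.Injective (![a, b, c, d] : Fin 4 → α) := by
      intro a b c d _ _ _ _ _ _ i j hij
      fin_cases i <;> fin_cases j <;> simp at hij ⊢ <;> grind
    exact h.eps_eq hn (q := ⟨_, mk h1 h2 h3 h4 h5 h6⟩) (q' := ⟨_, mk g1 g2 g3 g4 g5 g6⟩)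
  by_cases hne : (epsSet t).Nonempty
  · obtain ⟨e, he⟩ := hne
    have hset : epsSet t = {e} :=
      Set.eq_singleton_iff_unique_mem.2 ⟨he, fun e' he' => heq e' he' e he⟩
    rw [hset, ← Subgroup.zpowers_eq_closure] at hz
    obtain ⟨n, rfl⟩ := Subgroup.mem_zpowers_iff.1 hz
    obtain ⟨a, b, c, d, h1, h2, h3, h4, h5, h6, rfl⟩ := he
    refine ⟨?_, fun hσ => (h.eps_commute h1 h2 h3 h4 h5 h6 hσ).zpow_left n⟩
    rw [← zpow_natCast, ← zpow_mul, mul_comm, zpow_mul, zpow_natCast,
      h.eps_sq h1 h2 h3 h4 h5 h6, one_zpow]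
  · rw [Set.not_nonempty_iff_eq_empty] at hne
    rw [hne, Subgroup.closure_empty, Subgroup.mem_bot] at hz
    subst hz
    exact ⟨one_pow _, fun _ => Commute.one_left _⟩

/-- A family is recovered from fourth powers of commutators. -/
lemma Family.quint_pow {Γ : Type*} [Group Γ] {t : Perm α → Γ} (h : Family t)
    (hn : 6 ≤ Fintype.card α) (q : Fin 5 ↪ α) :
    (t (ql q * qr q * (ql q)⁻¹) * (t (qr q))⁻¹) ^ 4 = t (qc q) := by
  have h1 := qc_three q
  have h2 := qr_three q
  have h3 := isThreeCycle_conj h2 (ql q)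
  set x := t (ql q * qr q * (ql q)⁻¹) * (t (qr q))⁻¹
  have hx : (x * (t (qc q))⁻¹, (1 : Perm α)) ∈ words t Finset.univ := by
    have hm : ∀ {σ : Perm α}, σ.IsThreeCycle → (t σ, σ) ∈ words t Finset.univ :=
      fun hσ => Family.pair_mem hσ (Finset.subset_univ _)
    have := mul_mem (mul_mem (hm h3) (inv_mem (hm h2))) (inv_mem (hm h1))
    simpa [x, qc_eq, commutatorElement_def] using this
  obtain ⟨hsq, hcomm⟩ := h.closure_eps hn (h.words_kernel _ _ hx rfl)
  have e : x = x * (t (qc q))⁻¹ * t (qc q) := (inv_mul_cancel_right _ _).symm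
  simp only at hsq hcomm
  rw [e, (hcomm h1).mul_pow, show (4 : ℕ) = 2 * 2 from rfl, pow_mul, hsq, one_pow, one_mul,
    show 2 * 2 = 3 + 1 from rfl, pow_add, h.cube h1, pow_one, one_mul]

/-- Subgroups of local elements, and constants. -/
structure World (α : Type*) [Fintype α] [DecidableEq α] (E : Type*) [Group E] where
  K : Perm α → E
  Loc : Finset α → Subgroup E
  mono : ∀ {F G : Finset α}, F ⊆ G → Loc F ≤ Loc G
  comm : ∀ {F G : Finset α}, Disjoint F G → ∀ x ∈ Loc F, ∀ y ∈ Loc G, Commute x y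
  conj : ∀ {σ : Perm α} {F : Finset α} {x : E}, σ.IsThreeCycle → x ∈ Loc F →
    K σ * x * (K σ)⁻¹ ∈ Loc (F.map σ.toEmbedding)
  card : 12 ≤ Fintype.card α

variable {E : Type*} [Group E] (W : World α E)
variable {P Q : Type*} [Fintype P] [DecidableEq P] [Fintype Q] [DecidableEq Q]

/-- A finite algebra of events carrying a family of three-cycles on each event. -/
structure Alg (T : Finset P → Perm α → E) : Prop where
  conj : ∀ (p q : Finset P) {σ τ : Perm α}, σ.IsThreeCycle → τ.IsThreeCycle →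
    T p σ * T q τ * (T p σ)⁻¹ = T (q ∩ p) (σ * τ * σ⁻¹) * T (q \ p) τ
  inv : ∀ (p : Finset P) {σ : Perm α}, σ.IsThreeCycle → T p σ⁻¹ = (T p σ)⁻¹
  cube : ∀ (p : Finset P) {σ : Perm α}, σ.IsThreeCycle → T p σ ^ 3 = 1
  union : ∀ {p q : Finset P} {σ : Perm α}, σ.IsThreeCycle → Disjoint p q →
    T (p ∪ q) σ = T p σ * T q σ
  univ : ∀ {σ : Perm α}, σ.IsThreeCycle → T Finset.univ σ = W.K σ
  loc : ∀ (p : Finset P) {σ : Perm α} {F : Finset α}, σ.IsThreeCycle → σ.support ⊆ F →
    5 ≤ F.card → T p σ ∈ W.Loc F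

namespace Alg

variable {W} {T : Finset P → Perm α → E} (h : Alg W T)

include h

lemma empty {σ : Perm α} (hσ : σ.IsThreeCycle) : T ∅ σ = 1 := by
  have := h.union hσ (Finset.disjoint_empty_left ∅)
  rw [Finset.empty_union] at this
  exact right_eq_mul.1 this

lemma commute {p q : Finset P} {σ τ : Perm α} (hσ : σ.IsThreeCycle) (hτ : τ.IsThreeCycle)
    (hd : Disjoint p q) : Commute (T p σ) (T q τ) := by
  have := h.conj p q hσ hτ
  rw [Finset.disjoint_iff_inter_eq_empty.1 hd.symm, h.empty (isThreeCycle_conj hτ _), one_mul,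
    Finset.sdiff_eq_self_of_disjoint hd.symm] at this
  exact mul_inv_eq_iff_eq_mul.1 this

lemma family (p : Finset P) : Family (T p) where
  conj {σ τ} hσ hτ := by
    rw [h.conj p p hσ hτ, Finset.inter_self, Finset.sdiff_self, h.empty hτ, mul_one]
  inv := h.inv p
  cube := h.cube p

lemma split_univ (p : Finset P) {σ : Perm α} (hσ : σ.IsThreeCycle) :
    W.K σ = T p σ * T pᶜ σ := by
  rw [← h.univ hσ, ← h.union hσ disjoint_compl_right, Finset.union_compl]

lemma conj_univ (p : Finset P) {σ τ : Perm α} (hσ : σ.IsThreeCycle) (hτ : τ.IsThreeCycle) :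
    W.K σ * T p τ * (W.K σ)⁻¹ = T p (σ * τ * σ⁻¹) := by
  rw [← h.univ hσ, h.conj _ p hσ hτ, Finset.inter_univ, show p \ Finset.univ = ∅ by simp,
    h.empty hτ, mul_one]

lemma commutator_pow (p q : Finset P) (v : Fin 5 ↪ α) :
    ⁅T p (ql v), T q (qr v)⁆ ^ 4 = T (q ∩ p) (qc v) := by
  have hτ := qr_three v
  have e : T q (qr v) = T (q ∩ p) (qr v) * T (q \ p) (qr v) := by
    rw [← h.union hτ (Finset.disjoint_left.2 fun x hx hx' =>
      (Finset.mem_sdiff.1 hx').2 (Finset.mem_inter.1 hx).2)]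
    congr 1
    ext x
    simp only [Finset.mem_union, Finset.mem_inter, Finset.mem_sdiff]
    tauto
  rw [commutatorElement_def, h.conj p q (ql_three v) hτ, e, mul_inv_rev, mul_assoc,
    mul_inv_cancel_left]
  exact (h.family _).quint_pow (by have := W.card; omega) v

/-- `eps` commutes with every local element. -/
lemma eps_central (p : Finset P) {a b c d : α} (hab : a ≠ b) (hac : a ≠ c) (had : a ≠ d)
    (hbc : b ≠ c) (hbd : b ≠ d) (hcd : c ≠ d) {F : Finset α} (hF : F.card ≤ 5) {x : E}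
    (hx : x ∈ W.Loc F) : Commute (eps (T p) a b c d) x := by
  have hn := W.card
  have hG : 7 ≤ Fᶜ.card := by rw [Finset.card_compl]; omega
  obtain ⟨s, hs, hs4⟩ := Finset.exists_subset_card_eq (show 4 ≤ Fᶜ.card by omega)
  let q' : Fin 4 ↪ α := (s.equivFinOfCardEq hs4).symm.toEmbedding.trans
    (Function.Embedding.subtype _)
  have hq' : ∀ i, q' i ∈ Fᶜ := fun i => hs ((s.equivFinOfCardEq hs4).symm i).2
  have hinj : Function.Injective (![a, b, c, d] : Fin 4 → α) := by
    intro i j hij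
    fin_cases i <;> fin_cases j <;> simp at hij ⊢ <;> grind
  have e := (h.family p).eps_eq (by omega) (q := ⟨_, hinj⟩) (q' := q')
  change eps (T p) a b c d = _ at e
  rw [e]
  have hm : eps (T p) (q' 0) (q' 1) (q' 2) (q' 3) ∈ W.Loc Fᶜ := by
    refine pow_mem (mul_mem ?_ ?_) 2 <;>
      refine h.loc p (cyc_three (q'.injective.ne (by decide)) (q'.injective.ne (by decide))
        (q'.injective.ne (by decide))) (Family.support_cyc_subset (q'.injective.ne (by decide))
        (q'.injective.ne (by decide)) (q'.injective.ne (by decide)) (hq' _) (hq' _) (hq' _))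
        (by omega)
  exact W.comm disjoint_compl_left _ hm _ hx

end Alg

variable {W}

/-- Local elements commuting with everything below the complement of `p`. -/
def Half (W : World α E) (T : Finset P → Perm α → E) (p : Finset P) (x : E) : Prop :=
  ∃ F : Finset α, F.card = 5 ∧ x ∈ W.Loc F ∧
    ∀ {γ : Perm α}, γ.IsThreeCycle → Commute x (T pᶜ γ)

lemma Half.pow {T : Finset P → Perm α → E} {p : Finset P} {x : E} (hx : Half W T p x) (n : ℕ) :
    Half W T p (x ^ n) := by
  obtain ⟨F, hF, hm, hc⟩ := hx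
  exact ⟨F, hF, pow_mem hm n, fun hγ => (hc hγ).pow_left n⟩

section

variable {T : Finset P → Perm α → E} {U : Finset Q → Perm α → E}

lemma Alg.half (h : Alg W T) {r p : Finset P} (hr : r ⊆ p) {σ : Perm α} (hσ : σ.IsThreeCycle) :
    Half W T p (T r σ) := by
  obtain ⟨F, hsub, hF⟩ := Finset.exists_superset_card_eq (s := σ.support) (n := 5)
    (by rw [hσ.card_support]; omega) (by have := W.card; omega)
  exact ⟨F, hF, h.loc r hσ hsub hF.ge, fun hγ =>
    h.commute hσ hγ ((disjoint_compl_right).mono_left hr)⟩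

/-- Elements of the two halves commute. -/
lemma Alg.key (h : Alg W T) {p : Finset P} {x y : E} (hx : Half W T p x) (hy : Half W T pᶜ y) :
    Commute x y := by
  obtain ⟨F, hF, hxm, hxc⟩ := hx
  obtain ⟨G, hG, hym, hyc⟩ := hy
  have move : ∀ π ∈ Subgroup.closure {σ : Perm α | σ.IsThreeCycle}, ∀ (x : E) (F : Finset α),
      x ∈ W.Loc F → (∀ {γ : Perm α}, γ.IsThreeCycle → Commute x (T pᶜ γ)) →
      ∃ g, Commute g y ∧ g * x * g⁻¹ ∈ W.Loc (F.map π.toEmbedding) ∧
        ∀ {γ : Perm α}, γ.IsThreeCycle → Commute (g * x * g⁻¹) (T pᶜ γ) := by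
    have mem : ∀ σ : Perm α, σ.IsThreeCycle → ∀ (x : E) (F : Finset α),
      x ∈ W.Loc F → (∀ {γ : Perm α}, γ.IsThreeCycle → Commute x (T pᶜ γ)) →
      ∃ g, Commute g y ∧ g * x * g⁻¹ ∈ W.Loc (F.map σ.toEmbedding) ∧
        ∀ {γ : Perm α}, γ.IsThreeCycle → Commute (g * x * g⁻¹) (T pᶜ γ) := by
      intro σ hσ x F hx hc
      refine ⟨T p σ, ?_, ?_, fun {γ} hγ => ?_⟩
      · have := hyc hσ
        rw [compl_compl] at this
        exact this.symm
      · have e : T p σ * x * (T p σ)⁻¹ = W.K σ * x * (W.K σ)⁻¹ := by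
          rw [h.split_univ p hσ, mul_assoc (T p σ) (T pᶜ σ), (hc hσ).symm.eq]
          group
        rw [e]
        exact W.conj hσ hx
      · have hcm := h.commute hσ hγ (disjoint_compl_right (a := p))
        have := (hc hγ).map (MulAut.conj (T p σ)).toMonoidHom
        simpa [hcm.eq] using this
    intro π hπ
    refine Subgroup.closure_induction'' (p := fun π _ => ∀ (x : E) (F : Finset α),
      x ∈ W.Loc F → (∀ {γ : Perm α}, γ.IsThreeCycle → Commute x (T pᶜ γ)) →
      ∃ g, Commute g y ∧ g * x * g⁻¹ ∈ W.Loc (F.map π.toEmbedding) ∧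
        ∀ {γ : Perm α}, γ.IsThreeCycle → Commute (g * x * g⁻¹) (T pᶜ γ)) mem
      (fun σ hσ => mem _ (Perm.IsThreeCycle.inv hσ)) ?_ ?_ hπ
    · intro x F hx hc
      refine ⟨1, Commute.one_left _, ?_, fun hγ => by simpa using hc hγ⟩
      have e : F.map (1 : Perm α).toEmbedding = F := by
        ext z
        simp only [Finset.mem_map_equiv]
        rfl
      rw [e]; simpa using hx
    · intro a b _ _ ha hb x F hx hc
      obtain ⟨g, hgy, hgm, hgc⟩ := hb x F hx hc
      obtain ⟨g', hgy', hgm', hgc'⟩ := ha _ _ hgm hgc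
      refine ⟨g' * g, hgy'.mul_left hgy, ?_, fun hγ => ?_⟩
      · have e : F.map (a * b).toEmbedding = (F.map b.toEmbedding).map a.toEmbedding := by
          rw [Finset.map_map]; rfl
        rw [e]
        simpa [mul_assoc] using hgm'
      · simpa [mul_assoc] using hgc' hγ
  have hn := W.card
  obtain ⟨F', hF', hF'5⟩ := Finset.exists_subset_card_eq
    (show 5 ≤ Gᶜ.card by rw [Finset.card_compl]; omega)
  obtain ⟨π, hπ, hπF⟩ := exists_even_map
    ((F.equivFinOfCardEq hF).symm.toEmbedding.trans (Function.Embedding.subtype _))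
    ((F'.equivFinOfCardEq hF'5).symm.toEmbedding.trans (Function.Embedding.subtype _))
    (by omega)
  rw [← Perm.closure_three_cycles_eq_alternating] at hπ
  obtain ⟨g, hgy, hgm, -⟩ := move π hπ x F hxm hxc
  have hd : Disjoint (F.map π.toEmbedding) G := by
    rw [Finset.disjoint_left]
    intro a ha haG
    obtain ⟨b, hb, rfl⟩ := Finset.mem_map.1 ha
    have := hπF (F.equivFinOfCardEq hF ⟨b, hb⟩)
    simp only [Function.Embedding.trans_apply, Equiv.coe_toEmbedding, Equiv.symm_apply_apply,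
      Function.Embedding.coe_subtype] at this
    rw [show π.toEmbedding b = π b from rfl, this] at haG
    exact Finset.mem_compl.1 (hF' (Subtype.coe_prop _)) haG
  have hc := W.comm hd _ hgm _ hym
  have e : x = g⁻¹ * (g * x * g⁻¹) * g := by group
  rw [e]
  exact ((hgy.inv_left).mul_left hc).mul_left hgy

lemma Alg.half_mono (h : Alg W T) {p p' : Finset P} {x : E} (hx : Half W T p x) (hp : p ⊆ p') :
    Half W T p' x := by
  have hk := hx
  obtain ⟨F, hF, hm, hc⟩ := hx
  exact ⟨F, hF, hm, fun hγ => h.key hk (h.half (compl_le_compl hp) hγ)⟩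

lemma Alg.half_commute (h : Alg W T) {r p : Finset P} {y : E} (hy : Half W T p y)
    (hd : Disjoint r p) {σ : Perm α} (hσ : σ.IsThreeCycle) : Commute y (T r σ) :=
  h.key hy (h.half (le_compl_iff_disjoint_right.2 hd) hσ)

/-- Conjugation by three-cycles over `q` keeps what lies below `p` apart from what lies outside. -/
structure Sep (T : Finset P → Perm α → E) (U : Finset Q → Perm α → E) (p : Finset P)
    (q : Finset Q) : Prop where
  comm : ∀ {a b c : Perm α}, a.IsThreeCycle → b.IsThreeCycle → c.IsThreeCycle →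
    Commute (U q b * T p a * (U q b)⁻¹) (T pᶜ c)

lemma Sep.compl (hU : Alg W U) {p : Finset P} {q : Finset Q} (hs : Sep T U p q) :
    Sep T U pᶜ q := by
  constructor
  intro a b c ha hb hc
  have := (hs.comm hc hb.inv ha).map (MulAut.conj (U q b)).toMonoidHom
  rw [compl_compl]
  refine Commute.symm ?_
  rw [hU.inv q hb] at this
  simpa [mul_assoc] using this

lemma Sep.compl_right (hT : Alg W T) (hU : Alg W U) {p : Finset P} {q : Finset Q}
    (hs : Sep T U p q) : Sep T U p qᶜ := by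
  constructor
  intro a b c ha hb hc
  have e : U qᶜ b = U q b⁻¹ * W.K b := by
    rw [hU.inv q hb, hU.split_univ q hb, inv_mul_cancel_left]
  have := hs.comm (isThreeCycle_conj ha b) hb.inv hc
  rw [← hT.conj_univ p hb ha] at this
  rw [e]
  simpa [mul_assoc] using this

lemma Sep.half (hT : Alg W T) (hU : Alg W U) {p : Finset P} {q : Finset Q} (hs : Sep T U p q)
    (v : Fin 5 ↪ α) : Half W T p ⁅T p (ql v), U q (qr v)⁆ := by
  obtain ⟨-, hl, hr⟩ := support_q_subset v (F := Finset.univ.map v)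
    fun i => Finset.mem_map.2 ⟨i, Finset.mem_univ _, rfl⟩
  have h5 : (Finset.univ.map v).card = 5 := by simp
  have mT := hT.loc p (ql_three v) hl h5.ge
  have mU := hU.loc q (qr_three v) hr h5.ge
  refine ⟨_, h5, ?_, fun {γ} hγ => ?_⟩
  · rw [commutatorElement_def]
    exact mul_mem (mul_mem (mul_mem mT mU) (inv_mem mT)) (inv_mem mU)
  · have e : ⁅T p (ql v), U q (qr v)⁆ =
        T p (ql v) * (U q (qr v) * T p (ql v)⁻¹ * (U q (qr v))⁻¹) := by
      rw [hT.inv p (ql_three v), commutatorElement_def]; group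
    rw [e]
    exact (hT.commute (ql_three v) hγ disjoint_compl_right).mul_left
      (hs.comm (ql_three v).inv (qr_three v) hγ)

lemma Sep.split_quint (hT : Alg W T) (hU : Alg W U) {p : Finset P} {q : Finset Q}
    (hs : Sep T U p q) (v : Fin 5 ↪ α) :
    U q (qc v) = ⁅T p (ql v), U q (qr v)⁆ ^ 4 * ⁅T pᶜ (ql v), U q (qr v)⁆ ^ 4 := by
  have hq := hU.commutator_pow Finset.univ q v
  rw [Finset.inter_univ, hU.univ (ql_three v), hT.split_univ p (ql_three v)] at hq
  have hw := hs.half hT hU v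
  have hw' := (hs.compl hU).half hT hU v
  have hc := hT.key hw hw'
  have e : ⁅T p (ql v) * T pᶜ (ql v), U q (qr v)⁆ =
      ⁅T p (ql v), U q (qr v)⁆ * ⁅T pᶜ (ql v), U q (qr v)⁆ := by
    have hk := (hT.key (hT.half (Finset.Subset.refl p) (ql_three v)) hw').eq
    rw [hc.eq]
    simp only [commutatorElement_def] at hk ⊢
    rw [← mul_inv_eq_iff_eq_mul] at hk
    conv_rhs => rw [← hk]
    group
  rw [e, hc.mul_pow] at hq
  exact hq.symm

lemma Sep.split (hT : Alg W T) (hU : Alg W U) {p : Finset P} {q : Finset Q} (hs : Sep T U p q)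
    {σ : Perm α} (hσ : σ.IsThreeCycle) :
    ∃ x y, Half W T p x ∧ Half W T pᶜ y ∧ U q σ = x * y := by
  obtain ⟨v, rfl, -⟩ := exists_quint hσ (Finset.subset_univ _)
    (by rw [Finset.card_univ]; have := W.card; omega)
  exact ⟨_, _, (hs.half hT hU v).pow 4, ((hs.compl hU).half hT hU v).pow 4,
    hs.split_quint hT hU v⟩

lemma Sep.mono (hT : Alg W T) (hU : Alg W U) {p r r' : Finset P} {q : Finset Q}
    (hs : Sep T U p q) (hr : r ⊆ p) (hr' : r' ⊆ pᶜ) {a b c : Perm α} (ha : a.IsThreeCycle)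
    (hb : b.IsThreeCycle) (hc : c.IsThreeCycle) :
    Commute (U q b * T r a * (U q b)⁻¹) (T r' c) := by
  obtain ⟨x, y, hx, hy, e⟩ := hs.split hT hU hb
  have hy' := (hT.key (hT.half hr ha) hy).eq
  have e' : U q b * T r a * (U q b)⁻¹ = x * T r a * x⁻¹ := by
    rw [e, mul_assoc x y, ← hy']; group
  have hx' := hT.key hx (hT.half hr' hc)
  rw [e']
  exact (hx'.mul_left (hT.commute ha hc
    (disjoint_compl_right.mono hr hr'))).mul_left hx'.inv_left

lemma Sep.inter (hT : Alg W T) (hU : Alg W U) {p p' : Finset P} {q : Finset Q}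
    (hs : Sep T U p q) (hs' : Sep T U p' q) : Sep T U (p ∩ p') q := by
  constructor
  intro a b c ha hb hc
  have e : (p ∩ p')ᶜ = pᶜ ∪ (p \ p') := by ext; simp; tauto
  rw [e, hT.union hc (Finset.disjoint_left.2 fun x hx hx' =>
    Finset.mem_compl.1 hx (Finset.mem_sdiff.1 hx').1)]
  exact (hs.mono hT hU Finset.inter_subset_left subset_rfl ha hb hc).mul_right
    (hs'.mono hT hU Finset.inter_subset_right
      (fun x hx => Finset.mem_compl.2 (Finset.mem_sdiff.1 hx).2) ha hb hc)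

omit [Fintype Q] [DecidableEq Q] in
lemma Sep.univ (hT : Alg W T) (q : Finset Q) : Sep T U Finset.univ q := by
  constructor
  intro a b c _ _ hc
  rw [Finset.compl_univ, hT.empty hc]
  exact Commute.one_right _

lemma Sep.union (hT : Alg W T) (hU : Alg W U) {p p' : Finset P} {q : Finset Q}
    (hs : Sep T U p q) (hs' : Sep T U p' q) : Sep T U (p ∪ p') q := by
  have := ((hs.compl hU).inter hT hU (hs'.compl hU)).compl hU
  rwa [Finset.compl_inter, compl_compl, compl_compl] at this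

/-- Elements commuting with both halves. -/
def Both (W : World α E) (T : Finset P → Perm α → E) (p : Finset P) (z : E) : Prop :=
  ∀ w, Half W T p w ∨ Half W T pᶜ w → Commute z w

/-- Components of commuting elements commute up to elements of `Both`. -/
lemma both_commutator (hT : Alg W T) {p : Finset P} {a b a' b' : E} (ha : Half W T p a)
    (hb : Half W T p b) (ha' : Half W T pᶜ a') (hb' : Half W T pᶜ b')
    (h : Commute (a * a') (b * b')) : Both W T p ⁅b, a⁆ ∧ ⁅b, a⁆ * ⁅b', a'⁆ = 1 := by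
  have ab' := hT.key ha hb'
  have ba' := hT.key hb ha'
  have e : ⁅b, a⁆ * ⁅b', a'⁆ = 1 := by
    have h2 : ⁅b * b', a * a'⁆ = 1 := commutatorElement_eq_one_iff_commute.2 h.symm
    rw [← h2]
    simp only [commutatorElement_def, mul_inv_rev]
    have c1 : Commute (b' : E) a⁻¹ := ab'.symm.inv_right
    have c2 : Commute (b' : E) b⁻¹ := (hT.key hb hb').symm.inv_right
    have c3 : Commute (b' : E) a := ab'.symm
    have c4 : Commute (a' : E) a⁻¹ := (hT.key ha ha').symm.inv_right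
    have c5 : Commute (a' : E) b⁻¹ := ba'.symm.inv_right
    have c6 : Commute (b'⁻¹ : E) a⁻¹ := c1.inv_left
    calc b * a * b⁻¹ * a⁻¹ * (b' * a' * b'⁻¹ * a'⁻¹)
        = b * a * ((b⁻¹ * a⁻¹) * (b' * a' * b'⁻¹)) * a'⁻¹ := by group
      _ = b * a * ((b' * a' * b'⁻¹) * (b⁻¹ * a⁻¹)) * a'⁻¹ := by
          rw [((((c2.mul_right c1)).mul_left (c5.mul_right c4)).mul_left
            ((c2.inv_left).mul_right c6)).eq]
      _ = b * (a * b') * a' * b'⁻¹ * b⁻¹ * (a⁻¹ * a'⁻¹) := by group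
      _ = b * (b' * a) * a' * b'⁻¹ * b⁻¹ * (a'⁻¹ * a⁻¹) := by rw [ab'.eq, c4.inv_left.eq]
      _ = b * b' * (a * a') * (b'⁻¹ * b⁻¹) * (a'⁻¹ * a⁻¹) := by group
  refine ⟨?_, e⟩
  rintro w (hw | hw)
  · rw [eq_inv_of_mul_eq_one_left e]
    refine Commute.inv_left ?_
    rw [commutatorElement_def]
    have hA := (hT.key hw ha').symm
    have hB := (hT.key hw hb').symm
    exact ((hB.mul_left hA).mul_left hB.inv_left).mul_left hA.inv_left
  · rw [commutatorElement_def]
    have hA := hT.key ha hw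
    have hB := hT.key hb hw
    exact ((hB.mul_left hA).mul_left hB.inv_left).mul_left hA.inv_left

/-- Separation is symmetric. -/
lemma Sep.symm (hT : Alg W T) (hU : Alg W U) {p : Finset P} {q : Finset Q} (hs : Sep T U p q) :
    Sep U T q p := by
  constructor
  intro a b c ha hb hc
  obtain ⟨x, y, hx, hy, exy⟩ := hs.split hT hU ha
  obtain ⟨x', y', hx', hy', exy'⟩ := (hs.compl_right hT hU).split hT hU hc
  obtain ⟨x₁, y₁, hx₁, hy₁, e₁⟩ := hs.split hT hU hb
  obtain ⟨x₂, y₂, hx₂, hy₂, e₂⟩ := (hs.compl_right hT hU).split hT hU hb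
  have k := fun {u v : E} (hu : Half W T p u) (hv : Half W T pᶜ v) => hT.key hu hv
  obtain ⟨hE, hEE⟩ := both_commutator hT hx hx' hy hy'
    (exy ▸ exy' ▸ hU.commute ha hc disjoint_compl_right)
  obtain ⟨hC, -⟩ := both_commutator hT hx hx₂ hy hy₂
    (exy ▸ e₂ ▸ hU.commute ha hb disjoint_compl_right)
  obtain ⟨hE₁, -⟩ := both_commutator hT hx₁ hx' hy₁ hy'
    (e₁ ▸ exy' ▸ hU.commute hb hc disjoint_compl_right)
  have hT1 : T p b = x₁ * x₂ * (y₁ * y₂ * (T pᶜ b)⁻¹) := by
    have e := hT.split_univ p hb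
    rw [hU.split_univ q hb, e₁, e₂, mul_assoc, ← mul_assoc y₁, ← (k hx₂ hy₁).eq] at e
    rw [eq_mul_inv_iff_mul_eq.2 e.symm]
    group
  have hd : Both W T p (y₁ * y₂ * (T pᶜ b)⁻¹) := by
    rintro w (hw | hw)
    · exact (((k hw hy₁).mul_right (k hw hy₂)).mul_right
        (k hw (hT.half subset_rfl hb)).inv_right).symm
    · have e : y₁ * y₂ * (T pᶜ b)⁻¹ = (x₁ * x₂)⁻¹ * T p b := by rw [hT1]; group
      rw [e]
      exact (((k hx₁ hw).mul_left (k hx₂ hw)).inv_left).mul_left
        (k (hT.half subset_rfl hb) hw)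
  set d := y₁ * y₂ * (T pᶜ b)⁻¹ with hd'
  rw [exy, exy']
  have step1 : T p b * (x * y) * (T p b)⁻¹ = ⁅x₂, x⁆ * (x₁ * x * x₁⁻¹) * y := by
    have ey : T p b * y * (T p b)⁻¹ = y := by
      rw [(k (hT.half subset_rfl hb) hy).eq, mul_inv_cancel_right]
    have ec : x₁ * ⁅x₂, x⁆ * x * x₁⁻¹ = ⁅x₂, x⁆ * (x₁ * x * x₁⁻¹) := by
      rw [← (hC x₁ (Or.inl hx₁)).eq]; group
    calc T p b * (x * y) * (T p b)⁻¹ = T p b * x * (T p b)⁻¹ * (T p b * y * (T p b)⁻¹) := by group
      _ = x₁ * x₂ * (d * x * d⁻¹) * (x₁ * x₂)⁻¹ * y := by rw [ey, hT1]; group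
      _ = x₁ * ⁅x₂, x⁆ * x * x₁⁻¹ * y := by
          rw [(hd x (Or.inl hx)).eq, mul_inv_cancel_right, commutatorElement_def]; group
      _ = _ := by rw [ec]
  rw [step1]
  refine Commute.symm (mul_inv_eq_iff_eq_mul.1 ?_)
  have g1 : x' * x * x'⁻¹ = ⁅x', x⁆ * x := by rw [commutatorElement_def]; group
  have g2 : x' * x₁ * x'⁻¹ = ⁅x', x₁⁆ * x₁ := by rw [commutatorElement_def]; group
  have g3 : y' * y * y'⁻¹ = ⁅y', y⁆ * y := by rw [commutatorElement_def]; group
  have c0 : Commute y' (⁅x₂, x⁆ * (x₁ * x * x₁⁻¹)) :=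
    (hC y' (Or.inr hy')).symm.mul_right ((((k hx₁ hy').symm).mul_right (k hx hy').symm).mul_right
      (k hx₁ hy').symm.inv_right)
  have cE : Commute ⁅y', y⁆ (x₁ * x * x₁⁻¹) := by
    rw [eq_inv_of_mul_eq_one_right hEE]
    exact (((hE x₁ (Or.inl hx₁)).mul_right (hE x (Or.inl hx))).mul_right
      (hE x₁ (Or.inl hx₁)).inv_right).inv_left
  calc x' * y' * (⁅x₂, x⁆ * (x₁ * x * x₁⁻¹) * y) * (x' * y')⁻¹
      = x' * (y' * (⁅x₂, x⁆ * (x₁ * x * x₁⁻¹)) * y'⁻¹) * x'⁻¹ *
          (x' * (y' * y * y'⁻¹) * x'⁻¹) := by group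
    _ = (x' * ⁅x₂, x⁆ * x'⁻¹) * ((x' * x₁ * x'⁻¹) * (x' * x * x'⁻¹) * (x' * x₁ * x'⁻¹)⁻¹) *
          (y' * y * y'⁻¹) := by
        rw [c0.eq, mul_inv_cancel_right,
          (((k hx' hy').mul_right (k hx' hy)).mul_right (k hx' hy').inv_right).eq,
          mul_inv_cancel_right]
        group
    _ = ⁅x₂, x⁆ * (⁅x', x⁆ * (x₁ * x * x₁⁻¹)) * (⁅y', y⁆ * y) := by
        rw [(hC x' (Or.inl hx')).symm.eq, mul_inv_cancel_right, g1, g2, g3]
        congr 2
        have a1 := (hE x₁ (Or.inl hx₁)).eq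
        have a2 : Commute ⁅x', x₁⁆ (⁅x', x⁆ * (x₁ * x * x₁⁻¹)) := by
          refine Commute.mul_right ?_ (((hE₁ x₁ (Or.inl hx₁)).mul_right
            (hE₁ x (Or.inl hx))).mul_right (hE₁ x₁ (Or.inl hx₁)).inv_right)
          rw [commutatorElement_def x' x]
          exact (((hE₁ x' (Or.inl hx')).mul_right (hE₁ x (Or.inl hx))).mul_right
            (hE₁ x' (Or.inl hx')).inv_right).mul_right (hE₁ x (Or.inl hx)).inv_right
        have a3 : ⁅x', x⁆ * (x₁ * x * x₁⁻¹) = x₁ * (⁅x', x⁆ * x) * x₁⁻¹ := by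
          rw [← mul_assoc x₁, ← a1]; group
        calc ⁅x', x₁⁆ * x₁ * (⁅x', x⁆ * x) * (⁅x', x₁⁆ * x₁)⁻¹
            = ⁅x', x₁⁆ * (x₁ * (⁅x', x⁆ * x) * x₁⁻¹) * ⁅x', x₁⁆⁻¹ := by group
          _ = _ := by rw [← a3, a2.eq, mul_inv_cancel_right]
    _ = ⁅x₂, x⁆ * (x₁ * x * x₁⁻¹) * y := by
        rw [eq_inv_of_mul_eq_one_left hEE]
        calc ⁅x₂, x⁆ * (⁅y', y⁆⁻¹ * (x₁ * x * x₁⁻¹)) * (⁅y', y⁆ * y)
            = ⁅x₂, x⁆ * (⁅y', y⁆⁻¹ * ((x₁ * x * x₁⁻¹) * ⁅y', y⁆)) * y := by group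
          _ = _ := by rw [← cE.eq]; group

/-- Events separated by a third event common to both algebras. -/
lemma Sep.of_exclusive (hT : Alg W T) (hU : Alg W U) {p pc : Finset P} {q qc' : Finset Q}
    (hp : p ⊆ pc) (hq : q ⊆ qc'ᶜ)
    (heq : ∀ {σ : Perm α}, σ.IsThreeCycle → T pc σ = U qc' σ) : Sep T U p q := by
  have hcomm : ∀ {a b : Perm α}, a.IsThreeCycle → b.IsThreeCycle → Commute (T p a) (U q b) := by
    intro a b ha hb
    obtain ⟨F, hF, hm, hc⟩ := hU.half (subset_refl q) hb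
    refine hT.key (hT.half hp ha) ⟨F, hF, hm, fun {γ} hγ => ?_⟩
    rw [compl_compl, heq hγ]
    exact hU.commute hb hγ (disjoint_compl_left.mono_left hq)
  constructor
  intro a b c ha hb hc
  rw [← (hcomm ha hb).eq, mul_inv_cancel_right]
  exact hT.commute ha hc disjoint_compl_right

end

/-- The pullback of an algebra along a map of atoms. -/
def pull {R : Type*} [Fintype R] [DecidableEq R] (f : P → R) (T : Finset P → Perm α → E) :
    Finset R → Perm α → E := fun r => T (Finset.univ.filter fun a => f a ∈ r)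

lemma Alg.pull {R : Type*} [Fintype R] [DecidableEq R] {T : Finset P → Perm α → E}
    (h : Alg W T) (f : P → R) : Alg W (pull f T) where
  conj p q σ τ hσ hτ := by
    unfold Pres.pull
    rw [h.conj _ _ hσ hτ]
    congr 2 <;> (ext; simp)
  inv p := h.inv _
  cube p := h.cube _
  union {p q σ} hσ hd := by
    unfold Pres.pull
    rw [← h.union hσ]
    · congr 1; ext; simp
    · rw [Finset.disjoint_left] at hd ⊢
      simpa using fun a ha => hd ha
  univ hσ := by
    unfold Pres.pull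
    rw [← h.univ hσ]; congr 1; ext; simp
  loc p := h.loc _

/-- Events of one algebra are separated. -/
lemma Sep.of_pull {R R' : Type*} [Fintype R] [DecidableEq R] [Fintype R'] [DecidableEq R']
    {B : Finset P → Perm α → E} (h : Alg W B) (f : P → R) (g : P → R') (p : Finset R)
    (q : Finset R') : Sep (Pres.pull f B) (Pres.pull g B) p q := by
  constructor
  intro a b c ha hb hc
  unfold Pres.pull
  rw [h.conj _ _ hb ha]
  refine (h.commute (isThreeCycle_conj ha _) hc ?_).mul_left (h.commute ha hc ?_) <;>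
    · rw [Finset.disjoint_left]
      simp +contextual

/-- A property of events closed under complement and intersection holds for every event
measurable with respect to events having it. -/
lemma event_induction (Φ : Finset P → Prop) (huniv : Φ Finset.univ)
    (hcompl : ∀ p, Φ p → Φ pᶜ) (hinter : ∀ p p', Φ p → Φ p' → Φ (p ∩ p')) :
    ∀ (L : List (Finset P)), (∀ e ∈ L, Φ e) → ∀ p : Finset P,
      (∀ a b, (∀ e ∈ L, a ∈ e ↔ b ∈ e) → (a ∈ p ↔ b ∈ p)) → Φ p := by
  intro L
  induction L with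
  | nil =>
    intro _ p hp
    rcases p.eq_empty_or_nonempty with rfl | ⟨a, ha⟩
    · simpa using hcompl _ huniv
    · rw [show p = Finset.univ from Finset.eq_univ_of_forall fun b => (hp a b (by simp)).1 ha]
      exact huniv
  | cons e L ih =>
    intro hL p hp
    have hLΦ : ∀ e' ∈ L, Φ e' := fun e' he' => hL e' (List.mem_cons_of_mem _ he')
    have he := hL e List.mem_cons_self
    let sat : Finset P → Finset P := fun e' =>
      Finset.univ.filter fun a => ∃ b ∈ p ∩ e', ∀ d ∈ L, a ∈ d ↔ b ∈ d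
    have hsat : ∀ e', Φ (sat e') := fun e' => ih hLΦ _ fun a b hab => by
      simp only [sat, Finset.mem_filter, Finset.mem_univ, true_and]
      constructor <;> rintro ⟨c, hc, h⟩ <;> refine ⟨c, hc, fun d hd => ?_⟩
      · rw [← hab d hd]; exact h d hd
      · rw [hab d hd]; exact h d hd
    have e1 : p ∩ e = sat e ∩ e := by
      ext a
      simp only [sat, Finset.mem_inter, Finset.mem_filter, Finset.mem_univ, true_and]
      refine ⟨fun h => ⟨⟨a, h, fun _ _ => Iff.rfl⟩, h.2⟩, fun ⟨⟨b, ⟨hb, hbe⟩, h⟩, hae⟩ =>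
        ⟨(hp a b fun d hd => ?_).2 hb, hae⟩⟩
      rcases List.mem_cons.1 hd with rfl | hd
      exacts [iff_of_true hae hbe, h d hd]
    have e2 : p ∩ eᶜ = sat eᶜ ∩ eᶜ := by
      ext a
      simp only [sat, Finset.mem_inter, Finset.mem_filter, Finset.mem_univ, true_and,
        Finset.mem_compl]
      refine ⟨fun h => ⟨⟨a, h, fun _ _ => Iff.rfl⟩, h.2⟩, fun ⟨⟨b, ⟨hb, hbe⟩, h⟩, hae⟩ =>
        ⟨(hp a b fun d hd => ?_).2 hb, hae⟩⟩
      rcases List.mem_cons.1 hd with rfl | hd
      exacts [iff_of_false hae hbe, h d hd]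
    have h1 := hcompl _ (hinter _ _ (hcompl _ (e1 ▸ hinter _ _ (hsat e) he))
      (hcompl _ (e2 ▸ hinter _ _ (hsat eᶜ) (hcompl _ he))))
    rwa [Finset.compl_inter, compl_compl, compl_compl, ← Finset.inter_union_distrib_left,
      Finset.union_compl, Finset.inter_univ] at h1

/-- Two algebras agreeing on separating events are equal. -/
lemma Alg.ext_gen {T T' : Finset P → Perm α → E} (h : Alg W T) (h' : Alg W T')
    (L : List (Finset P)) (hL : ∀ e ∈ L, ∀ {σ : Perm α}, σ.IsThreeCycle → T e σ = T' e σ)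
    (p : Finset P) (hp : ∀ a b, (∀ e ∈ L, a ∈ e ↔ b ∈ e) → (a ∈ p ↔ b ∈ p))
    {σ : Perm α} (hσ : σ.IsThreeCycle) : T p σ = T' p σ := by
  refine event_induction (fun p => ∀ {σ : Perm α}, σ.IsThreeCycle → T p σ = T' p σ) ?_ ?_ ?_
    L hL p hp hσ
  · intro σ hσ; rw [h.univ hσ, h'.univ hσ]
  · intro p hp σ hσ
    have e := h.split_univ p hσ
    rw [h'.split_univ p hσ, hp hσ] at e
    exact (mul_left_cancel e).symm
  · intro p p' hp hp' σ hσ
    obtain ⟨v, rfl, -⟩ := exists_quint hσ (Finset.subset_univ _)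
      (by rw [Finset.card_univ]; have := W.card; omega)
    rw [← h.commutator_pow p' p v, ← h'.commutator_pow p' p v, hp' (ql_three v), hp (qr_three v)]

/-- An event measurable with respect to separated events is separated. -/
lemma Sep.of_measurable {T : Finset P → Perm α → E} {U : Finset Q → Perm α → E} (hT : Alg W T)
    (hU : Alg W U) {q : Finset Q} (L : List (Finset P)) (hL : ∀ e ∈ L, Sep T U e q)
    (p : Finset P) (hp : ∀ a b, (∀ e ∈ L, a ∈ e ↔ b ∈ e) → (a ∈ p ↔ b ∈ p)) : Sep T U p q :=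
  event_induction (fun p => Sep T U p q) (Sep.univ hT q) (fun _ h => h.compl hU)
    (fun _ _ h h' => h.inter hT hU h') L hL p hp

end

end Vale.Agent.P196.Pres
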