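import Vale.Agent.P196.Pres.Good
import Vale.Agent.P196.Simple

/-!
P196, module B: three-cycles over clopen sets in the presented group.
-/

namespace Vale.Agent.P196.Pres

open scoped Classical commutatorElement
open Equiv Simple

noncomputable section

variable {S : SFT} {k : ℕ}

lemma compactSpace_X : CompactSpace S.X :=
  isCompact_iff_compactSpace.1 (Simple.isClosed_carrier S).isCompact

/-- A pattern not occurring in the subshift has no admissible extension to a large set. -/
lemma exists_death {U : Finset V} (p : Pat S U) (hp : ∀ x : S.X, patX U x ≠ p) :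
    ∃ (R : Finset V) (h : U ⊆ R), ∀ q : Pat S R, res h q ≠ p := by
  by_contra! hcon
  let W : ℕ → Finset V := fun n => U ∪ SFT.box n
  let K : ℕ → Set (V → S.A) := fun n =>
    {a | S.Admissible (W n) a ∧ ∀ u : U, a u = p.1 u}
  have hne : ∀ n, (K n).Nonempty := by
    intro n
    obtain ⟨q, hq⟩ := hcon (W n) Finset.subset_union_left
    refine ⟨ext (W n) q, ext_admissible q, fun u => ?_⟩
    rw [← hq]
    exact ext_apply q ⟨u.1, Finset.mem_union_left _ u.2⟩
  have hclosed : ∀ n, IsClosed (K n) := by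
    intro n
    have e : K n = (fun a : V → S.A => fun u : W n => a u) ⁻¹'
        ((fun a : V → S.A => fun u : W n => a u) '' K n) := by
      refine Set.Subset.antisymm (Set.subset_preimage_image _ _) ?_
      rintro a ⟨b, ⟨hb, hbp⟩, hab⟩
      refine ⟨admissible_congr (fun u hu => congrFun hab ⟨u, hu⟩) hb, fun u => ?_⟩
      rw [← hbp u]
      exact (congrFun hab ⟨u.1, Finset.mem_union_left _ u.2⟩).symm
    rw [e]
    exact (isClosed_discrete _).preimage (continuous_pi fun u => continuous_apply _)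
  have hmono : ∀ n, K (n + 1) ⊆ K n := fun n a ha =>
    ⟨admissible_mono (Finset.union_subset_union subset_rfl fun u hu => by
      rw [Simple.mem_box] at hu ⊢; omega) ha.1, ha.2⟩
  obtain ⟨a, ha⟩ := IsCompact.nonempty_iInter_of_sequence_nonempty_isCompact_isClosed K hmono hne
    (hclosed 0).isCompact hclosed
  rw [Set.mem_iInter] at ha
  have hX : a ∈ S.carrier := by
    intro v
    refine (ha (v.1.natAbs + v.2.natAbs + S.w)).1 v fun q => Finset.mem_union_right _ ?_
    have := q.1.2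
    have := q.2.2
    rw [Simple.mem_box]
    simp only
    omega
  exact hp ⟨a, hX⟩ (Subtype.ext (funext fun u => (ha 0).2 u))

variable (hk : 12 ≤ k) (hr : S.Rigid)

/-- The algebra on the patterns of a finite set. -/
abbrev algC (U : Finset V) : Finset (Pat S U) → Perm (Fin k) → Cov S k :=
  ctx (good_all (hk := hk) hr U)

lemma alg_algC (U : Finset V) : Alg (world hk) (algC hk hr U) := (isCtx _).alg

lemma algC_pre {R U : Finset V} (h : R ⊆ U) (p : Finset (Pat S R)) {σ : Perm (Fin k)}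
    (hσ : σ.IsThreeCycle) : algC hk hr U (pre h p) σ = algC hk hr R p σ :=
  ctx_pre h _ _ p hσ

lemma algC_die {U : Finset V} (p : Pat S U) (hp : ∀ x : S.X, patX U x ≠ p)
    {σ : Perm (Fin k)} (hσ : σ.IsThreeCycle) : algC hk hr U {p} σ = 1 := by
  obtain ⟨R, h, hR⟩ := exists_death p hp
  rw [← algC_pre hk hr h {p} hσ, show pre h {p} = (∅ : Finset (Pat S R)) from
    Finset.eq_empty_of_forall_notMem fun q hq => hR q (by simpa using hq)]
  exact (alg_algC hk hr R).empty hσ

lemma algC_congr {U : Finset V} {s s' : Finset (Pat S U)} (he : evSet s = evSet s')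
    {σ : Perm (Fin k)} (hσ : σ.IsThreeCycle) : algC hk hr U s σ = algC hk hr U s' σ := by
  have hA := alg_algC hk hr U
  have kill : ∀ t : Finset (Pat S U), evSet t = ∅ → algC hk hr U t σ = 1 := by
    intro t
    induction t using Finset.induction_on with
    | empty => exact fun _ => hA.empty hσ
    | insert a t ha ih =>
      intro h
      have h' : ∀ x, patX U x ∉ insert a t := fun x hx =>
        (Set.eq_empty_iff_forall_notMem.1 h x) hx
      rw [Finset.insert_eq, hA.union hσ (Finset.disjoint_singleton_left.2 ha),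
        algC_die hk hr a (fun x hx => h' x (hx ▸ Finset.mem_insert_self a t)) hσ,
        ih (Set.eq_empty_iff_forall_notMem.2 fun x hx => h' x (Finset.mem_insert_of_mem hx)),
        one_mul]
  have split : ∀ s s' : Finset (Pat S U), evSet s = evSet s' →
      algC hk hr U s σ = algC hk hr U (s ∩ s') σ := by
    intro s s' he
    have hd : evSet (s \ s') = ∅ := Set.eq_empty_iff_forall_notMem.2 fun x hx => by
      obtain ⟨h1, h2⟩ := Finset.mem_sdiff.1 (mem_evSet.1 hx)
      exact h2 ((Set.ext_iff.1 he x).1 h1)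
    conv_lhs => rw [← Finset.sdiff_union_inter s s']
    rw [hA.union hσ (Finset.disjoint_sdiff_inter s s'), kill _ hd, one_mul]
  rw [split s s' he, split s' s he.symm, Finset.inter_comm]

lemma algC_congr' {U U' : Finset V} {s : Finset (Pat S U)} {s' : Finset (Pat S U')}
    (he : evSet s = evSet s') {σ : Perm (Fin k)} (hσ : σ.IsThreeCycle) :
    algC hk hr U s σ = algC hk hr U' s' σ := by
  rw [← algC_pre hk hr (Finset.subset_union_left (s₂ := U')) s hσ,
    ← algC_pre hk hr (Finset.subset_union_right (s₁ := U)) s' hσ]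
  exact algC_congr hk hr (by rw [evSet_pre, evSet_pre, he]) hσ

/-- A set given by finitely many cells. -/
def IsEv (s : Set S.X) : Prop := ∃ (U : Finset V) (P : Finset (Pat S U)), evSet P = s

lemma isEv_of_isClopen {s : Set S.X} (hs : IsClopen s) : IsEv s := by
  have : CompactSpace S.X := compactSpace_X
  have hloc : IsLocallyConstant (fun x : S.X => decide (x ∈ s)) := by
    refine (IsLocallyConstant.iff_exists_open _).2 fun x => ?_
    by_cases hx : x ∈ s
    · exact ⟨s, hs.isOpen, hx, fun y hy => by simp [hx, hy]⟩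
    · exact ⟨sᶜ, hs.compl.isOpen, hx, fun y hy => by simp [hx, show y ∉ s from hy]⟩
  obtain ⟨r, hr'⟩ := Simple.isLocal_of_isLocallyConstant S hloc
  refine ⟨SFT.box r, Finset.univ.filter fun p => ∃ x, patX (SFT.box r) x = p ∧ x ∈ s, ?_⟩
  ext x
  simp only [mem_evSet, Finset.mem_filter, Finset.mem_univ, true_and]
  refine ⟨fun ⟨y, hy, hys⟩ => ?_, fun hx => ⟨x, rfl, hx⟩⟩
  have := hr' y x fun u hu => congrFun (congrArg Subtype.val hy) ⟨u, hu⟩
  simp only [decide_eq_decide] at this
  exact this.1 hys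

lemma IsEv.isClopen {s : Set S.X} (h : IsEv s) : IsClopen s := by
  obtain ⟨U, P, rfl⟩ := h
  exact isClopen_evSet P

lemma IsEv.common {s t : Set S.X} (hs : IsEv s) (ht : IsEv t) :
    ∃ (U : Finset V) (P Q : Finset (Pat S U)), evSet P = s ∧ evSet Q = t := by
  obtain ⟨U, P, rfl⟩ := hs
  obtain ⟨U', Q, rfl⟩ := ht
  exact ⟨U ∪ U', pre Finset.subset_union_left P, pre Finset.subset_union_right Q,
    evSet_pre _ _, evSet_pre _ _⟩

/-- The three-cycle over a clopen set. -/
def TX (s : Set S.X) (σ : Perm (Fin k)) : Cov S k :=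
  if h : IsEv s ∧ σ.IsThreeCycle then algC hk hr h.1.choose h.1.choose_spec.choose σ else 1

lemma TX_ev {U : Finset V} (P : Finset (Pat S U)) {σ : Perm (Fin k)} (hσ : σ.IsThreeCycle) :
    TX hk hr (evSet P) σ = algC hk hr U P σ := by
  have hs : IsEv (evSet P) := ⟨U, P, rfl⟩
  rw [TX, dif_pos ⟨hs, hσ⟩]
  exact algC_congr' hk hr hs.choose_spec.choose_spec hσ

lemma TX_family {s : Set S.X} (hs : IsEv s) : Family (TX hk hr s) := by
  obtain ⟨U, P, rfl⟩ := hs
  have h := (alg_algC hk hr U).family P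
  exact
    { conj := fun {σ τ} hσ hτ => by
        rw [TX_ev hk hr P hσ, TX_ev hk hr P hτ, TX_ev hk hr P (isThreeCycle_conj hτ σ)]
        exact h.conj hσ hτ
      inv := fun {σ} hσ => by
        rw [TX_ev hk hr P hσ, TX_ev hk hr P hσ.inv]; exact h.inv hσ
      cube := fun {σ} hσ => by rw [TX_ev hk hr P hσ]; exact h.cube hσ }

lemma evSet_univ {U : Finset V} : evSet (Finset.univ : Finset (Pat S U)) = Set.univ := by
  ext; simp

lemma TX_univ {σ : Perm (Fin k)} (hσ : σ.IsThreeCycle) :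
    TX hk hr Set.univ σ = ε Finset.univ σ := by
  rw [← evSet_univ (U := (∅ : Finset V)), TX_ev hk hr _ hσ]
  exact (alg_algC hk hr ∅).univ hσ

lemma TX_union {s t : Set S.X} (hs : IsEv s) (ht : IsEv t) (hd : Disjoint s t)
    {σ : Perm (Fin k)} (hσ : σ.IsThreeCycle) :
    TX hk hr (s ∪ t) σ = TX hk hr s σ * TX hk hr t σ := by
  obtain ⟨U, P, Q, rfl, rfl⟩ := hs.common ht
  have e1 : evSet P ∪ evSet Q = evSet (P ∪ Q) := by ext; simp
  have e2 : evSet Q = evSet (Q \ P) := by
    ext x
    simp only [mem_evSet, Finset.mem_sdiff]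
    exact ⟨fun hq => ⟨hq, fun hp => Set.disjoint_left.1 hd hp hq⟩, fun h => h.1⟩
  rw [e1, TX_ev hk hr _ hσ, TX_ev hk hr _ hσ, e2, TX_ev hk hr _ hσ,
    ← (alg_algC hk hr U).union hσ Finset.disjoint_sdiff, Finset.union_sdiff_self_eq_union]

lemma TX_commute {s t : Set S.X} (hs : IsEv s) (ht : IsEv t) (hd : Disjoint s t)
    {σ τ : Perm (Fin k)} (hσ : σ.IsThreeCycle) (hτ : τ.IsThreeCycle) :
    Commute (TX hk hr s σ) (TX hk hr t τ) := by
  obtain ⟨U, P, Q, rfl, rfl⟩ := hs.common ht
  have e2 : evSet Q = evSet (Q \ P) := by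
    ext x
    simp only [mem_evSet, Finset.mem_sdiff]
    exact ⟨fun hq => ⟨hq, fun hp => Set.disjoint_left.1 hd hp hq⟩, fun h => h.1⟩
  rw [e2, TX_ev hk hr _ hσ, TX_ev hk hr _ hτ]
  exact (alg_algC hk hr U).commute hσ hτ Finset.disjoint_sdiff

lemma TX_compl {s : Set S.X} (hs : IsEv s) {σ : Perm (Fin k)} (hσ : σ.IsThreeCycle) :
    TX hk hr sᶜ σ = (TX hk hr s σ)⁻¹ * ε Finset.univ σ := by
  obtain ⟨U, P, rfl⟩ := hs
  have e : (evSet P)ᶜ = evSet Pᶜ := by ext; simp
  rw [e, TX_ev hk hr _ hσ, TX_ev hk hr _ hσ,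
    show ε Finset.univ σ = (world (S := S) hk).K σ from rfl,
    (alg_algC hk hr U).split_univ P hσ, inv_mul_cancel_left]

lemma TX_inter {s t : Set S.X} (hs : IsEv s) (ht : IsEv t) (v : Fin 5 ↪ Fin k) :
    TX hk hr (t ∩ s) (qc v) = ⁅TX hk hr s (ql v), TX hk hr t (qr v)⁆ ^ 4 := by
  obtain ⟨U, P, Q, rfl, rfl⟩ := hs.common ht
  have e : evSet Q ∩ evSet P = evSet (Q ∩ P) := by ext; simp
  rw [e, TX_ev hk hr _ (qc_three v), TX_ev hk hr _ (ql_three v), TX_ev hk hr _ (qr_three v),
    (alg_algC hk hr U).commutator_pow P Q v]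

lemma TX_mem_loc {s : Set S.X} (hs : IsEv s) {σ : Perm (Fin k)} (hσ : σ.IsThreeCycle)
    {F : Finset (Fin k)} (hF : σ.support ⊆ F) (h5 : 5 ≤ F.card) :
    TX hk hr s σ ∈ (world (S := S) hk).Loc F := by
  obtain ⟨U, P, rfl⟩ := hs
  rw [TX_ev hk hr _ hσ]
  exact (alg_algC hk hr U).loc P hσ hF h5

lemma qc_pow_four (v : Fin 5 ↪ Fin k) : qc v ^ 4 = qc v := by
  have h : qc v ^ 3 = 1 := by rw [← (qc_three v).orderOf]; exact pow_orderOf_eq_one _
  rw [pow_succ, h, one_mul]

lemma exists_quint_univ (hk : 12 ≤ k) {σ : Perm (Fin k)} (hσ : σ.IsThreeCycle) :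
    ∃ v : Fin 5 ↪ Fin k, qc v = σ :=
  (exists_quint hσ (Finset.subset_univ _) (by simp; omega)).imp fun _ h => h.1

/-- The permutation of a three-cycle over a clopen set. -/
lemma proj_TX {s : Set S.X} (hs : IsEv s) {σ : Perm (Fin k)} (hσ : σ.IsThreeCycle) :
    proj S k (TX hk hr s σ) = ind S k s σ := by
  obtain ⟨U, P, rfl⟩ := hs
  rw [TX_ev hk hr P hσ]
  refine event_induction (fun P => ∀ {σ : Perm (Fin k)}, σ.IsThreeCycle →
    proj S k (algC hk hr U P σ) = ind S k (evSet P) σ) ?_ ?_ ?_ (cellEvents U) ?_ P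
    (fun a b h => by rw [eq_of_cellEvents h]) hσ
  · intro σ hσ
    rw [(alg_algC hk hr U).univ hσ, show (world (S := S) hk).K σ = ε Finset.univ σ from rfl,
      proj_ε _ hσ, evSet_univ, evSet_univ]
  · intro P hP σ hσ
    have e := congrArg (proj S k) ((alg_algC hk hr U).split_univ P hσ)
    rw [show (world (S := S) hk).K σ = ε Finset.univ σ from rfl, proj_ε _ hσ, evSet_univ,
      map_mul, hP hσ] at e
    rw [← inv_mul_cancel_left (ind S k (evSet P) σ) (proj S k (algC hk hr U Pᶜ σ)), ← e, ind_inv]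
    refine Equiv.ext fun ⟨i, x⟩ => ?_
    simp only [Perm.mul_apply, ind_mul_apply, mem_evSet, Finset.mem_compl, Set.mem_univ, if_true]
    by_cases hx : patX U x ∈ P <;> simp [hx]
  · intro P Q hP hQ σ hσ
    obtain ⟨v, rfl⟩ := exists_quint_univ hk hσ
    rw [← (alg_algC hk hr U).commutator_pow Q P v, map_pow, map_commutatorElement,
      hQ (ql_three v), hP (qr_three v), commutatorElement_def, ind_inv, ind_inv]
    conv_rhs => rw [← qc_pow_four v, qc_eq, commutatorElement_def]
    have hpt : ∀ (x : S.X) (i : Fin k),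
        (ind S k (evSet Q) (ql v) * ind S k (evSet P) (qr v) * ind S k (evSet Q) (ql v)⁻¹ *
          ind S k (evSet P) (qr v)⁻¹) (i, x) =
          ind S k (evSet (P ∩ Q)) (ql v * qr v * (ql v)⁻¹ * (qr v)⁻¹) (i, x) := by
      intro x i
      simp only [Perm.mul_apply, ind_mul_apply, mem_evSet, Finset.mem_inter]
      by_cases h1 : patX U x ∈ P <;> by_cases h2 : patX U x ∈ Q <;> simp [h1, h2]
    rw [show ind S k (evSet Q) (ql v) * ind S k (evSet P) (qr v) * ind S k (evSet Q) (ql v)⁻¹ *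
        ind S k (evSet P) (qr v)⁻¹ = ind S k (evSet (P ∩ Q)) (ql v * qr v * (ql v)⁻¹ * (qr v)⁻¹)
      from Equiv.ext fun ⟨i, x⟩ => hpt x i]
    simp only [pow_succ, pow_zero, one_mul, ind_eq_mul]
  · intro e he σ hσ
    obtain ⟨⟨u, c⟩, -, rfl⟩ := List.mem_map.1 he
    rw [show algC hk hr U (ev u.1 u.2 c) σ = Pres.cell hk u.1 c σ from (isCtx _).cell u.2 c hσ,
      cell, proj_Tw hk _ _ hσ]
    have e : evSet (ev u.1 (self_mem_win (S := S) u.1) c) = evSet (ev u.1 u.2 c) := by
      ext x; simp only [mem_evSet, mem_ev]; exact Iff.rfl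
    rw [e]

/-- The shifted set. -/
def shiftSet (e : V) (s : Set S.X) : Set S.X := {x | S.act (-e) x ∈ s}

lemma mem_shiftSet {e : V} {s : Set S.X} {x : S.X} :
    x ∈ shiftSet e s ↔ S.act (-e) x ∈ s := Iff.rfl

lemma isEv_shiftSet {e : V} {s : Set S.X} (hs : IsEv s) : IsEv (shiftSet e s) :=
  isEv_of_isClopen (hs.isClopen.preimage (by
    have h : Continuous fun x : S.X => fun u : V => x.1 (u + -e) :=
      continuous_pi fun u => (continuous_apply (u + -e)).comp continuous_subtype_val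
    exact h.subtype_mk _))

lemma tr_conj_five {U : Finset V} (e : V) (P : Finset (Pat S U)) {σ : Perm (Fin k)}
    (hσ : σ.IsThreeCycle) {F : Finset (Fin k)} (hF : σ.support ⊆ F) (h5 : 5 ≤ F.card)
    {t : Fin k → V} (hs : ∑ a, t a = 0) (ht : ∀ a ∈ F, t a = e) :
    tr hk t * algC hk hr U P σ * (tr hk t)⁻¹ = TX hk hr (shiftSet e (evSet P)) σ := by
  refine event_induction (fun P => ∀ {σ : Perm (Fin k)}, σ.IsThreeCycle → σ.support ⊆ F →
    tr hk t * algC hk hr U P σ * (tr hk t)⁻¹ = TX hk hr (shiftSet e (evSet P)) σ) ?_ ?_ ?_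
    (cellEvents U) ?_ P (fun a b h => by rw [eq_of_cellEvents h]) hσ hF
  · intro σ hσ hF
    rw [(alg_algC hk hr U).univ hσ, evSet_univ,
      show shiftSet e (Set.univ : Set S.X) = Set.univ from rfl, TX_univ hk hr hσ,
      show (world (S := S) hk).K σ = ε Finset.univ σ from rfl,
      ← Xv_eq hk hσ hs fun a ha => (ht a (hF ha)).trans (neg_neg e).symm]
    exact Xv_univ hk (-e) hσ
  · intro P hP σ hσ hF
    have e' := (alg_algC hk hr U).split_univ P hσ
    have hK : tr hk t * ε Finset.univ σ * (tr hk t)⁻¹ = ε (S := S) Finset.univ σ := by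
      rw [← Xv_eq hk hσ hs fun a ha => (ht a (hF ha)).trans (neg_neg e).symm]
      exact Xv_univ hk (-e) hσ
    rw [show evSet Pᶜ = (evSet P)ᶜ by ext; simp,
      show shiftSet e (evSet P)ᶜ = (shiftSet e (evSet P))ᶜ from rfl,
      TX_compl hk hr (isEv_shiftSet ⟨U, P, rfl⟩) hσ, ← hP hσ hF]
    rw [show (world (S := S) hk).K σ = ε Finset.univ σ from rfl] at e'
    conv_rhs => rw [← hK, e']
    group
  · intro P Q hP hQ σ hσ hF
    obtain ⟨v, rfl, hv⟩ := exists_quint hσ hF h5
    obtain ⟨-, hl, hr'⟩ := support_q_subset v hv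
    rw [← (alg_algC hk hr U).commutator_pow Q P v, ← conj_pow,
      show shiftSet e (evSet (P ∩ Q)) = shiftSet e (evSet P) ∩ shiftSet e (evSet Q) by
        ext; simp [mem_shiftSet],
      TX_inter hk hr (isEv_shiftSet ⟨U, Q, rfl⟩) (isEv_shiftSet ⟨U, P, rfl⟩) v,
      ← hQ (ql_three v) hl, ← hP (qr_three v) hr']
    simp only [commutatorElement_def]
    group
  · intro e' he σ hσ hF
    obtain ⟨⟨u, c⟩, -, rfl⟩ := List.mem_map.1 he
    rw [show algC hk hr U (ev u.1 u.2 c) σ = Pres.cell hk u.1 c σ from (isCtx _).cell u.2 c hσ]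
    have hev : shiftSet e (evSet (ev u.1 u.2 c)) =
        evSet (ev (u.1 - e) (self_mem_win (S := S) (u.1 - e)) c) := by
      ext x
      simp only [mem_shiftSet, mem_evSet, mem_ev]
      show x.1 (u.1 + -e) = c ↔ x.1 (u.1 - e) = c
      rw [sub_eq_add_neg]
    rw [hev, TX_ev hk hr _ hσ,
      show algC hk hr _ (ev (u.1 - e) (self_mem_win (S := S) (u.1 - e)) c) σ =
        Pres.cell hk (u.1 - e) c σ from (isCtx _).cell _ c hσ]
    obtain ⟨t₀, hs₀, ht₀⟩ := exists_tr σ.support (card_support_lt hk hσ) fun _ => -u.1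
    unfold cell Tw pull
    rw [Xv_eq hk hσ hs₀ ht₀,
      Xv_eq hk hσ (v := u.1 - e) (t := t + t₀) (by simp [Finset.sum_add_distrib, hs, hs₀])
        (fun a ha => by rw [Pi.add_apply, ht a (hF ha), ht₀ a ha]; abel), tr_add]
    have eP : (Finset.univ.filter fun p : Pat S (win S 0) =>
          moveWin u.1 p ∈ ev u.1 (self_mem_win u.1) c) =
        Finset.univ.filter fun p : Pat S (win S 0) =>
          moveWin (u.1 - e) p ∈ ev (u.1 - e) (self_mem_win (u.1 - e)) c := by
      ext p
      rw [Finset.mem_filter, Finset.mem_filter, mem_ev, mem_ev]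
      refine and_congr Iff.rfl (Eq.congr_left (congrArg p.1 (Subtype.ext ?_)))
      show u.1 - u.1 = u.1 - e - (u.1 - e)
      rw [sub_self, sub_self]
    rw [eP]
    group

lemma TX_tr_commute {s : Set S.X} (hs : IsEv s) {σ : Perm (Fin k)} (hσ : σ.IsThreeCycle)
    {t : Fin k → V} (ht : ∑ a, t a = 0) (h0 : ∀ a ∈ σ.support, t a = 0) :
    Commute (tr hk t) (TX hk hr s σ) := by
  obtain ⟨U, P, rfl⟩ := hs
  rw [TX_ev hk hr P hσ]
  let H : AddSubgroup (Fin k → V) :=
    { carrier := {u | Commute (tr (S := S) hk u) (algC hk hr U P σ)}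
      zero_mem' := by simp [tr_zero]
      add_mem' := fun {a b} ha hb => by
        simp only [Set.mem_ofPred_eq] at ha hb ⊢
        rw [tr_add]; exact ha.mul_left hb
      neg_mem' := fun {a} ha => by
        simp only [Set.mem_ofPred_eq] at ha ⊢
        rw [tr_neg]; exact ha.inv_left }
  refine tr_induction H (fun a b ha hb i => ?_) ht h0
  have hF : σ.support ⊆ Finset.univ \ {a, b} := fun x hx => by
    simp only [Finset.mem_sdiff, Finset.mem_univ, Finset.mem_insert, Finset.mem_singleton,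
      true_and, not_or]
    exact ⟨fun e => ha (e ▸ hx), fun e => hb (e ▸ hx)⟩
  have h5 : 5 ≤ (Finset.univ \ {a, b} : Finset (Fin k)).card := by
    have := Finset.le_card_sdiff {a, b} (Finset.univ : Finset (Fin k))
    have : ({a, b} : Finset (Fin k)).card ≤ 2 := Finset.card_le_two
    rw [Finset.card_univ, Fintype.card_fin] at *
    omega
  have h := tr_conj_five hk hr 0 P hσ hF h5
    (t := Pi.single a (unit i) - Pi.single b (unit i)) (by simp [Finset.sum_sub_distrib])
    fun x hx => by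
      simp only [Finset.mem_sdiff, Finset.mem_insert, Finset.mem_singleton, not_or] at hx
      simp [hx.2.1, hx.2.2]
  rw [show shiftSet (0 : V) (evSet P) = evSet P by ext; simp [mem_shiftSet, act_zero],
    TX_ev hk hr P hσ] at h
  exact mul_inv_eq_iff_eq_mul.1 h

/-- Covariance. -/
theorem tr_conj_TX {s : Set S.X} (hs : IsEv s) {σ : Perm (Fin k)} (hσ : σ.IsThreeCycle)
    {t : Fin k → V} {e : V} (ht : ∑ a, t a = 0) (he : ∀ a ∈ σ.support, t a = e) :
    tr hk t * TX hk hr s σ * (tr hk t)⁻¹ = TX hk hr (shiftSet e s) σ := by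
  obtain ⟨F, hF, hF5⟩ := Finset.exists_superset_card_eq (s := σ.support) (n := 5)
    (by rw [hσ.card_support]; omega) (by simp; omega)
  obtain ⟨t₁, ht₁, he₁⟩ := exists_tr F (by omega) fun _ => e
  have hc := TX_tr_commute hk hr hs hσ (t := t - t₁)
    (by simp [Finset.sum_sub_distrib, ht, ht₁])
    fun a ha => by rw [Pi.sub_apply, he a ha, he₁ a (hF ha), sub_self]
  obtain ⟨U, P, rfl⟩ := hs
  rw [TX_ev hk hr P hσ] at hc ⊢
  rw [show t = t₁ + (t - t₁) by abel, tr_add,
    mul_assoc (tr hk t₁) (tr hk (t - t₁)), hc.eq,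
    ← tr_conj_five hk hr e P hσ hF hF5.ge ht₁ he₁]
  group

end

end Vale.Agent.P196.Pres
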