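import Vale.Agent.P196.Pres.Events

/-!
P196, module B: the central classes die, so each clopen set carries a copy of the alternating group.
-/

namespace Vale.Agent.P196.Pres

open scoped Classical commutatorElement
open Equiv Simple

noncomputable section

variable {S : SFT} {k : ℕ} (hk : 12 ≤ k) (hr : S.Rigid)

/-- The central class of a clopen set, read on a given quadruple of colours. -/
def zc (q : Fin 4 ↪ Fin k) (s : Set S.X) : Cov S k :=
  eps (TX hk hr s) (q 0) (q 1) (q 2) (q 3)

lemma zc_indep {s : Set S.X} (hs : IsEv s) (q q' : Fin 4 ↪ Fin k) :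
    zc hk hr q s = zc hk hr q' s :=
  (TX_family hk hr hs).eps_eq (by simp; omega)

lemma zc_parts (q : Fin 4 ↪ Fin k) :
    (cyc (q 0) (q 1) (q 2)).IsThreeCycle ∧ (cyc (q 0) (q 1) (q 3)).IsThreeCycle ∧
      (cyc (q 0) (q 1) (q 2)).support ⊆ Finset.univ.map q ∧
      (cyc (q 0) (q 1) (q 3)).support ⊆ Finset.univ.map q := by
  have h : ∀ i j : Fin 4, i ≠ j → q i ≠ q j := fun i j h => q.injective.ne h
  have hm : ∀ i, q i ∈ Finset.univ.map q := fun i => Finset.mem_map_of_mem q (Finset.mem_univ i)
  exact ⟨cyc_three (h _ _ (by decide)) (h _ _ (by decide)) (h _ _ (by decide)),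
    cyc_three (h _ _ (by decide)) (h _ _ (by decide)) (h _ _ (by decide)),
    Family.support_cyc_subset (h _ _ (by decide)) (h _ _ (by decide)) (h _ _ (by decide))
      (hm _) (hm _) (hm _),
    Family.support_cyc_subset (h _ _ (by decide)) (h _ _ (by decide)) (h _ _ (by decide))
      (hm _) (hm _) (hm _)⟩

lemma zc_sq {s : Set S.X} (hs : IsEv s) (q : Fin 4 ↪ Fin k) : zc hk hr q s ^ 2 = 1 :=
  (TX_family hk hr hs).eps_sq (q.injective.ne (by decide)) (q.injective.ne (by decide))
    (q.injective.ne (by decide)) (q.injective.ne (by decide)) (q.injective.ne (by decide))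
    (q.injective.ne (by decide))

lemma zc_commute {s t : Set S.X} (hs : IsEv s) (ht : IsEv t) (q : Fin 4 ↪ Fin k) :
    Commute (zc hk hr q s) (zc hk hr q t) := by
  obtain ⟨F, hF, hF5⟩ := Finset.exists_superset_card_eq (s := Finset.univ.map q) (n := 5)
    (by simp) (by simp; omega)
  obtain ⟨h1, h2, s1, s2⟩ := zc_parts q
  have hm : zc hk hr q t ∈ (world (S := S) hk).Loc F :=
    pow_mem (mul_mem (TX_mem_loc hk hr ht h1 (s1.trans hF) hF5.ge)
      (TX_mem_loc hk hr ht h2 (s2.trans hF) hF5.ge)) 2
  obtain ⟨U, P, rfl⟩ := hs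
  have e : zc hk hr q (evSet P) = eps (algC hk hr U P) (q 0) (q 1) (q 2) (q 3) := by
    simp only [zc, eps, TX_ev hk hr P h1, TX_ev hk hr P h2]
  rw [e]
  exact (alg_algC hk hr U).eps_central P (q.injective.ne (by decide)) (q.injective.ne (by decide))
    (q.injective.ne (by decide)) (q.injective.ne (by decide)) (q.injective.ne (by decide))
    (q.injective.ne (by decide)) hF5.le hm

lemma zc_union {s t : Set S.X} (hs : IsEv s) (ht : IsEv t) (hd : Disjoint s t)
    (q : Fin 4 ↪ Fin k) : zc hk hr q (s ∪ t) = zc hk hr q s * zc hk hr q t := by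
  obtain ⟨h1, h2, -, -⟩ := zc_parts q
  simp only [zc, eps, TX_union hk hr hs ht hd h1, TX_union hk hr hs ht hd h2]
  have c : ∀ {σ τ : Perm (Fin k)}, σ.IsThreeCycle → τ.IsThreeCycle →
      Commute (TX hk hr s σ) (TX hk hr t τ) := fun hσ hτ => TX_commute hk hr hs ht hd hσ hτ
  set a := TX hk hr s (cyc (q 0) (q 1) (q 2))
  set b := TX hk hr t (cyc (q 0) (q 1) (q 2))
  set a' := TX hk hr s (cyc (q 0) (q 1) (q 3))
  set b' := TX hk hr t (cyc (q 0) (q 1) (q 3))
  have e : a * b * (a' * b') = a * a' * (b * b') := by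
    have hab : Commute a' b := c h2 h1
    rw [mul_assoc a b, ← mul_assoc b a', ← hab.eq]
    group
  rw [e]
  exact (((c h1 h1).mul_right (c h1 h2)).mul_left ((c h2 h1).mul_right (c h2 h2))).mul_pow 2

lemma zc_shift {s : Set S.X} (hs : IsEv s) (e : V) (q : Fin 4 ↪ Fin k) :
    zc hk hr q (shiftSet e s) = zc hk hr q s := by
  obtain ⟨F', hF', hF'4⟩ := Finset.exists_subset_card_eq
    (show 4 ≤ (Finset.univ.map q)ᶜ.card by simp [Finset.card_compl]; omega)
  let q' : Fin 4 ↪ Fin k := (F'.equivFinOfCardEq hF'4).symm.toEmbedding.trans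
    (Function.Embedding.subtype _)
  have hq' : ∀ i, q' i ∈ F' := fun i => ((F'.equivFinOfCardEq hF'4).symm i).2
  obtain ⟨t, ht, hte⟩ := exists_tr (Finset.univ.map q ∪ F')
    (by
      have := Finset.card_union_le (Finset.univ.map q) F'
      simp at this
      omega)
    fun a => if a ∈ F' then 0 else e
  have hqe : ∀ a ∈ Finset.univ.map q, t a = e := fun a ha => by
    rw [hte a (Finset.mem_union_left _ ha),
      if_neg fun h => Finset.mem_compl.1 (hF' h) ha]
  have hqz : ∀ a ∈ Finset.univ.map q', t a = 0 := fun a ha => by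
    obtain ⟨i, -, rfl⟩ := Finset.mem_map.1 ha
    rw [hte _ (Finset.mem_union_right _ (hq' i)), if_pos (hq' i)]
  have key : ∀ (p : Fin 4 ↪ Fin k) (v : V), (∀ a ∈ Finset.univ.map p, t a = v) →
      tr hk t * zc hk hr p s * (tr hk t)⁻¹ = zc hk hr p (shiftSet v s) := by
    intro p v hp
    obtain ⟨h1, h2, s1, s2⟩ := zc_parts p
    simp only [zc, eps]
    rw [← tr_conj_TX hk hr hs h1 ht (fun a ha => hp a (s1 ha)),
      ← tr_conj_TX hk hr hs h2 ht (fun a ha => hp a (s2 ha))]
    simp only [pow_two]
    group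
  rw [← key q e hqe, zc_indep hk hr hs q q', key q' 0 hqz,
    show shiftSet (0 : V) s = s by ext x; simp [mem_shiftSet, act_zero]]

/-- The classes vanish. -/
theorem zc_eq_one (hco : S.CoinvariantsModTwoTrivial) {s : Set S.X} (hs : IsEv s)
    (q : Fin 4 ↪ Fin k) : zc hk hr q s = 1 := by
  let Z : Subgroup (Cov S k) := Subgroup.closure {g | ∃ u, IsEv u ∧ g = zc hk hr q u}
  have hcomm : ∀ a ∈ Z, ∀ b ∈ Z, a * b = b * a := by
    have h1 : Z ≤ Subgroup.centralizer {g | ∃ u, IsEv u ∧ g = zc hk hr q u} := by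
      rw [Subgroup.closure_le]
      rintro _ ⟨u, hu, rfl⟩
      rw [SetLike.mem_coe, Subgroup.mem_centralizer_iff]
      rintro _ ⟨u', hu', rfl⟩
      exact (zc_commute hk hr hu' hu q).eq
    intro a ha b hb
    have h2 : Z ≤ Subgroup.centralizer {a} := by
      rw [Subgroup.closure_le]
      intro g hg
      rw [SetLike.mem_coe, Subgroup.mem_centralizer_singleton_iff]
      exact Subgroup.mem_centralizer_iff.1 (h1 ha) g hg
    exact (Subgroup.mem_centralizer_singleton_iff.1 (h2 hb)).symm
  have hsq : ∀ a ∈ Z, a ^ 2 = 1 := by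
    intro a ha
    induction ha using Subgroup.closure_induction with
    | mem g hg =>
      obtain ⟨u, hu, rfl⟩ := hg
      exact zc_sq hk hr hu q
    | one => exact one_pow _
    | mul x y hx hy ihx ihy =>
      rw [Commute.mul_pow (hcomm x hx y hy), ihx, ihy, one_mul]
    | inv x _ ih => rw [inv_pow, ih, inv_one]
  let _ : CommGroup Z :=
    { (inferInstance : Group Z) with mul_comm := fun a b => Subtype.ext (hcomm a a.2 b b.2) }
  let _ : Module (ZMod 2) (Additive Z) := AddCommGroup.zmodModule fun x => by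
    apply Additive.toMul.injective
    rw [toMul_nsmul, toMul_zero]
    exact Subtype.ext (by simpa using hsq _ (Additive.toMul x).2)
  let zz : {u : Set S.X // IsEv u} → Additive Z := fun u =>
    Additive.ofMul ⟨zc hk hr q u.1, Subgroup.subset_closure ⟨u.1, u.2, rfl⟩⟩
  have key : zz ⟨s, hs⟩ = 0 := by
    refine (Module.forall_dual_apply_eq_zero_iff (ZMod 2) _).1 fun ψ => ?_
    let z : Set S.X → ZMod 2 := fun u => if h : IsEv u then ψ (zz ⟨u, h⟩) else 0
    have hz : z s = 0 := by
      refine hco z (fun U W hU hW hd => ?_) (fun v U hU => ?_) s hs.isClopen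
      · have hU' := isEv_of_isClopen hU
        have hW' := isEv_of_isClopen hW
        have hUW := isEv_of_isClopen (hU.union hW)
        simp only [z, dif_pos hU', dif_pos hW', dif_pos hUW]
        rw [← map_add]
        congr 1
        apply Additive.toMul.injective
        rw [toMul_add]
        exact Subtype.ext (zc_union hk hr hU' hW' hd q)
      · have hU' := isEv_of_isClopen hU
        have e : S.act v '' U = shiftSet v U := by
          ext x
          refine ⟨fun ⟨y, hy, hyx⟩ => ?_, fun hx => ⟨S.act (-v) x, hx, ?_⟩⟩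
          · rw [mem_shiftSet, ← hyx, ← act_add, neg_add_cancel, act_zero]
            exact hy
          · rw [← act_add, add_neg_cancel, act_zero]
        rw [e]
        simp only [z, dif_pos hU', dif_pos (isEv_shiftSet (e := v) hU')]
        congr 1
        apply Additive.toMul.injective
        exact Subtype.ext (zc_shift hk hr hU' v q)
    simpa [z, dif_pos hs] using hz
  have := congrArg (fun x => ((Additive.toMul x : Z) : Cov S k)) key
  simpa [zz] using this

/-- The copy of the alternating group over a clopen set. -/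
lemma exists_phi (hco : S.CoinvariantsModTwoTrivial) {s : Set S.X} (hs : IsEv s) :
    ∃ φ : alternatingGroup (Fin k) →* Cov S k, ∀ (σ : Perm (Fin k)) (hσ : σ.IsThreeCycle),
      φ ⟨σ, hσ.mem_alternatingGroup⟩ = TX hk hr s σ := by
  refine (TX_family hk hr hs).exists_hom fun a b c d h1 h2 h3 h4 h5 h6 => ?_
  have hinj : Function.Injective (![a, b, c, d] : Fin 4 → Fin k) := by
    intro i j hij
    fin_cases i <;> fin_cases j <;> simp at hij ⊢ <;> grind
  exact zc_eq_one hk hr hco hs ⟨_, hinj⟩

end

end Vale.Agent.P196.Pres
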