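import Vale.Agent.P196.Simple.Cycles

/-!
P196, module B: families indexed by the three-cycles, equivariant under conjugation.

In such a family the products of value one form a group generated by the elements
`(t (a b c) * t (a b d))²`, and lifts of three-cycles in a central extension can be normalised to a
family.
-/

namespace Vale.Agent.P196.Pres

open scoped Classical commutatorElement
open Equiv Simple

noncomputable section

variable {α : Type*} [Fintype α] [DecidableEq α] {Γ : Type*} [Group Γ]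

/-! ### Permutations -/

omit [Fintype α] in
lemma cyc_conj (π : Perm α) (a b c : α) : π * cyc a b c * π⁻¹ = cyc (π a) (π b) (π c) := by
  rw [cyc, cyc, swap_apply_apply, swap_apply_apply]
  group

omit [Fintype α] in
lemma cyc_inv (a b c : α) : (cyc a b c)⁻¹ = cyc c b a := by
  simp [cyc, swap_comm]

omit [Fintype α] in
lemma cyc_rot {a b c : α} (hab : a ≠ b) (hbc : b ≠ c) (hac : a ≠ c) :
    cyc a b c = cyc b c a := by
  obtain ⟨h1, h2, h3, h4⟩ := cyc_apply hab hbc hac
  obtain ⟨g1, g2, g3, g4⟩ := cyc_apply hbc hac.symm hab.symm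
  ext d
  by_cases e1 : d = a <;> by_cases e2 : d = b <;> by_cases e3 : d = c <;> grind

lemma cyc_three {a b c : α} (hab : a ≠ b) (hbc : b ≠ c) (hac : a ≠ c) :
    (cyc a b c).IsThreeCycle := by
  rw [cyc, swap_comm a b]
  exact Perm.isThreeCycle_swap_mul_swap_same hab.symm hbc hac

lemma isThreeCycle_conj {σ : Perm α} (h : σ.IsThreeCycle) (π : Perm α) :
    (π * σ * π⁻¹).IsThreeCycle := by
  obtain ⟨a, b, c, hab, hbc, hac, rfl⟩ := exists_cyc h
  rw [cyc_conj]
  exact cyc_three (π.injective.ne hab) (π.injective.ne hbc) (π.injective.ne hac)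

omit [Fintype α] in
lemma cyc_eq_cases {a b c a' b' c' : α} (hab : a ≠ b) (hbc : b ≠ c) (hac : a ≠ c) (hab' : a' ≠ b')
    (hbc' : b' ≠ c') (hac' : a' ≠ c') (h : cyc a b c = cyc a' b' c') :
    (a' = a ∧ b' = b ∧ c' = c) ∨ (a' = b ∧ b' = c ∧ c' = a) ∨ (a' = c ∧ b' = a ∧ c' = b) := by
  obtain ⟨h1, h2, h3, h4⟩ := cyc_apply hab hbc hac
  obtain ⟨g1, g2, g3, g4⟩ := cyc_apply hab' hbc' hac'
  rw [← h] at g1 g2 g3
  have ha : a' = a ∨ a' = b ∨ a' = c := by
    by_cases e1 : a' = a <;> by_cases e2 : a' = b <;> by_cases e3 : a' = c <;> grind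
  rcases ha with rfl | rfl | rfl <;> grind

/-- Rotate a three-cycle so that a given moved point comes first. -/
lemma exists_cyc_at {σ : Perm α} (hσ : σ.IsThreeCycle) {o : α} (ho : σ o ≠ o) :
    ∃ u v, o ≠ u ∧ u ≠ v ∧ o ≠ v ∧ σ = cyc o u v := by
  obtain ⟨a, b, c, hab, hbc, hac, rfl⟩ := exists_cyc hσ
  obtain ⟨h1, h2, h3, h4⟩ := cyc_apply hab hbc hac
  by_cases e1 : o = a
  · exact ⟨b, c, e1 ▸ hab, hbc, e1 ▸ hac, by rw [e1]⟩
  by_cases e2 : o = b
  · exact ⟨c, a, e2 ▸ hbc, hac.symm, e2 ▸ hab.symm, by rw [e2]; exact cyc_rot hab hbc hac⟩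
  by_cases e3 : o = c
  · exact ⟨a, b, e3 ▸ hac.symm, hab, e3 ▸ hbc.symm, by
      rw [e3, cyc_rot hab hbc hac, cyc_rot hbc hac.symm hab.symm]⟩
  exact absurd (h4 o e1 e2 e3) ho

omit [Fintype α] in
lemma sq_cyc_mul {a b c d : α} (hab : a ≠ b) (hac : a ≠ c) (had : a ≠ d) (hbc : b ≠ c)
    (hbd : b ≠ d) (hcd : c ≠ d) : (cyc a b c * cyc a b d) ^ 2 = 1 := by
  obtain ⟨h1, h2, h3, h4⟩ := cyc_apply hab hbc hac
  obtain ⟨g1, g2, g3, g4⟩ := cyc_apply hab hbd had
  ext x
  simp only [pow_two, Perm.mul_apply, Perm.one_apply]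
  by_cases e1 : x = a <;> by_cases e2 : x = b <;> by_cases e3 : x = c <;> by_cases e4 : x = d <;>
    grind

omit [Fintype α] in
lemma cyc_mul_cyc {a b c d : α} (hab : a ≠ b) (hac : a ≠ c) (had : a ≠ d) (hbc : b ≠ c)
    (hbd : b ≠ d) (hcd : c ≠ d) : cyc a b d * cyc b c d = cyc a b c := by
  obtain ⟨h1, h2, h3, h4⟩ := cyc_apply hab hbc hac
  obtain ⟨g1, g2, g3, g4⟩ := cyc_apply hab hbd had
  obtain ⟨k1, k2, k3, k4⟩ := cyc_apply hbc hcd hbd
  ext x
  simp only [Perm.mul_apply]
  by_cases e1 : x = a <;> by_cases e2 : x = b <;> by_cases e3 : x = c <;> by_cases e4 : x = d <;>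
    grind

/-- An even permutation extending a given bijection, when two points are to spare. -/
lemma exists_even_map {m : ℕ} (f g : Fin m ↪ α) (hm : m + 2 ≤ Fintype.card α) :
    ∃ π ∈ alternatingGroup α, ∀ i, π (f i) = g i := by
  let π₀ : Perm α := (f.toEquivRange.symm.trans g.toEquivRange).extendSubtype
  have h0 : ∀ i, π₀ (f i) = g i := fun i => by
    simp only [π₀]
    rw [Equiv.extendSubtype_apply_of_mem _ _ ⟨i, rfl⟩]
    have : (⟨f i, i, rfl⟩ : Set.range f) = f.toEquivRange i := Subtype.ext (by simp)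
    rw [Equiv.trans_apply, this, Equiv.symm_apply_apply]
    simp
  rcases Int.units_eq_one_or (Perm.sign π₀) with h | h
  · exact ⟨π₀, Perm.mem_alternatingGroup.2 h, h0⟩
  have hc : 2 ≤ (Finset.univ \ Finset.univ.map g).card := by
    rw [Finset.card_sdiff_of_subset (Finset.subset_univ _), Finset.card_map, Finset.card_univ,
      Finset.card_univ, Fintype.card_fin]
    omega
  obtain ⟨u, hu, v, hv, huv⟩ := Finset.one_lt_card.1 hc
  simp only [Finset.mem_sdiff, Finset.mem_univ, Finset.mem_map, true_and, not_exists] at hu hv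
  exact ⟨swap u v * π₀, Perm.mem_alternatingGroup.2 (by simp [Perm.sign_swap huv, h]), fun i => by
    rw [Perm.mul_apply, h0, swap_apply_of_ne_of_ne (hu i) (hv i)]⟩

/-! ### Commutators and central elements -/

lemma commute_commutator {x y a : Γ} (hx : ⁅x, a⁆ ∈ Subgroup.center Γ)
    (hy : ⁅y, a⁆ ∈ Subgroup.center Γ) : Commute ⁅x, y⁆ a := by
  set Z := Subgroup.center Γ
  have hcomm : ∀ c ∈ Z, ∀ g : Γ, g * c = c * g := fun c hc g => Subgroup.mem_center_iff.1 hc g
  have step : ∀ {g g' z z' : Γ}, z' ∈ Z → g * a * g⁻¹ = z * a → g' * a * g'⁻¹ = z' * a →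
      g * g' * a * (g * g')⁻¹ = z' * z * a := by
    intro g g' z z' hz' e e'
    calc g * g' * a * (g * g')⁻¹ = g * (g' * a * g'⁻¹) * g⁻¹ := by group
      _ = g * z' * a * g⁻¹ := by rw [e']; group
      _ = z' * (g * a * g⁻¹) := by rw [hcomm z' hz']; group
      _ = z' * z * a := by rw [e, mul_assoc]
  have sinv : ∀ {g z : Γ}, z ∈ Z → g * a * g⁻¹ = z * a → g⁻¹ * a * g⁻¹⁻¹ = z⁻¹ * a := by
    intro g z hz e
    calc g⁻¹ * a * g⁻¹⁻¹ = g⁻¹ * (z⁻¹ * (z * a)) * g := by group
      _ = (g⁻¹ * z⁻¹) * (g * a * g⁻¹ * g) := by rw [← e]; group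
      _ = z⁻¹ * a := by rw [hcomm _ (inv_mem hz)]; group
  have ex : x * a * x⁻¹ = ⁅x, a⁆ * a := by simp [commutatorElement_def]
  have ey : y * a * y⁻¹ = ⁅y, a⁆ * a := by simp [commutatorElement_def]
  have h := step (inv_mem hy) (step (inv_mem hx) (step hy ex ey) (sinv hx ex)) (sinv hy ey)
  rw [hcomm _ hx ⁅y, a⁆] at h
  have h1 : ⁅y, a⁆⁻¹ * (⁅x, a⁆⁻¹ * (⁅x, a⁆ * ⁅y, a⁆)) * a = a := by group
  rw [h1] at h
  exact mul_inv_eq_iff_eq_mul.1 h

lemma commutator_congr_center {x y x' y' : Γ} (hx : x⁻¹ * x' ∈ Subgroup.center Γ)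
    (hy : y⁻¹ * y' ∈ Subgroup.center Γ) : ⁅x', y'⁆ = ⁅x, y⁆ := by
  obtain ⟨c, hc, rfl⟩ : ∃ c ∈ Subgroup.center Γ, x' = x * c := ⟨_, hx, by simp⟩
  obtain ⟨e, he, rfl⟩ : ∃ e ∈ Subgroup.center Γ, y' = y * e := ⟨_, hy, by simp⟩
  have hc' := fun g : Γ => Subgroup.mem_center_iff.1 hc g
  have he' := fun g : Γ => Subgroup.mem_center_iff.1 he g
  simp only [commutatorElement_def, mul_inv_rev]
  calc x * c * (y * e) * (c⁻¹ * x⁻¹) * (e⁻¹ * y⁻¹)
      = x * (c * y) * (e * (c⁻¹ * x⁻¹)) * (e⁻¹ * y⁻¹) := by group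
    _ = x * (y * c) * ((c⁻¹ * x⁻¹) * e) * (e⁻¹ * y⁻¹) := by rw [← hc', ← he']
    _ = x * y * x⁻¹ * y⁻¹ := by group

/-! ### Families -/

/-- Elements indexed by the three-cycles, compatible with conjugation and inversion. -/
structure Family (t : Perm α → Γ) : Prop where
  conj : ∀ {σ τ : Perm α}, σ.IsThreeCycle → τ.IsThreeCycle →
    t σ * t τ * (t σ)⁻¹ = t (σ * τ * σ⁻¹)
  inv : ∀ {σ : Perm α}, σ.IsThreeCycle → t σ⁻¹ = (t σ)⁻¹
  cube : ∀ {σ : Perm α}, σ.IsThreeCycle → t σ ^ 3 = 1

/-- The element `(t (a b c) * t (a b d))²`. -/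
def eps (t : Perm α → Γ) (a b c d : α) : Γ := (t (cyc a b c) * t (cyc a b d)) ^ 2

/-- The values of `eps`. -/
def epsSet (t : Perm α → Γ) : Set Γ :=
  {e | ∃ a b c d, a ≠ b ∧ a ≠ c ∧ a ≠ d ∧ b ≠ c ∧ b ≠ d ∧ c ≠ d ∧ e = eps t a b c d}

/-- Products supported in `S`, recorded with their values, and the `eps` elements. -/
def words (t : Perm α → Γ) (S : Finset α) : Subgroup (Γ × Perm α) :=
  Subgroup.closure ({p | ∃ σ : Perm α, σ.IsThreeCycle ∧ σ.support ⊆ S ∧ p = (t σ, σ)} ∪
    {p | ∃ e ∈ epsSet t, p = (e, 1)})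

namespace Family

variable {t : Perm α → Γ} (h : Family t)

include h in
lemma conj_list {l : List (Perm α)} (hl : ∀ σ ∈ l, σ.IsThreeCycle) {τ : Perm α}
    (hτ : τ.IsThreeCycle) :
    (l.map t).prod * t τ * (l.map t).prod⁻¹ = t (l.prod * τ * l.prod⁻¹) := by
  induction l with
  | nil => simp
  | cons σ l ih =>
    have hl' : ∀ ρ ∈ l, ρ.IsThreeCycle := fun ρ hρ => hl ρ (List.mem_cons_of_mem _ hρ)
    have e : σ * l.prod * τ * (σ * l.prod)⁻¹ = σ * (l.prod * τ * l.prod⁻¹) * σ⁻¹ := by group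
    simp only [List.map_cons, List.prod_cons]
    rw [e, ← h.conj (hl σ (List.mem_cons_self)) (isThreeCycle_conj hτ _), ← ih hl']
    group

include h in
lemma eps_commute {a b c d : α} (hab : a ≠ b) (hac : a ≠ c) (had : a ≠ d) (hbc : b ≠ c)
    (hbd : b ≠ d) (hcd : c ≠ d) {τ : Perm α} (hτ : τ.IsThreeCycle) :
    Commute (eps t a b c d) (t τ) := by
  have hp := sq_cyc_mul hab hac had hbc hbd hcd
  have := h.conj_list (l := [cyc a b c, cyc a b d, cyc a b c, cyc a b d]) (τ := τ) (by
    intro σ hσ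
    simp only [List.mem_cons, List.not_mem_nil, or_false] at hσ
    rcases hσ with rfl | rfl | rfl | rfl
    exacts [cyc_three hab hbc hac, cyc_three hab hbd had, cyc_three hab hbc hac,
      cyc_three hab hbd had]) hτ
  have e : [cyc a b c, cyc a b d, cyc a b c, cyc a b d].prod = 1 := by
    rw [← hp]; simp [pow_two, mul_assoc]
  rw [e, one_mul, inv_one, mul_one] at this
  simp only [List.map_cons, List.map_nil, List.prod_cons, List.prod_nil, mul_one] at this
  have e' : t (cyc a b c) * (t (cyc a b d) * (t (cyc a b c) * t (cyc a b d))) = eps t a b c d := by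
    simp [eps, pow_two, mul_assoc]
  rw [e'] at this
  exact mul_inv_eq_iff_eq_mul.1 this

include h in
lemma mul_eq {a b c d : α} (hab : a ≠ b) (hac : a ≠ c) (had : a ≠ d) (hbc : b ≠ c)
    (hbd : b ≠ d) (hcd : c ≠ d) :
    t (cyc a b d) * t (cyc b c d) = eps t a b c d * t (cyc a b c) := by
  have hc := cyc_three hab hbc hac
  have hd := cyc_three hab hbd had
  obtain ⟨h1, h2, -, h4⟩ := cyc_apply hab hbc hac
  have e : cyc a b c * cyc a b d * (cyc a b c)⁻¹ = cyc b c d := by
    rw [cyc_conj, h1, h2, h4 d had.symm hbd.symm hcd.symm]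
  have hconj := h.conj hc hd
  rw [e] at hconj
  have hcube := h.cube hc
  have hv := (h.eps_commute hab hac had hbc hbd hcd hd).eq
  set u := t (cyc a b c)
  set v := t (cyc a b d)
  rw [← hconj]
  have hu : u⁻¹ * u⁻¹ = u := by
    rw [pow_succ, pow_two] at hcube
    rw [← mul_inv_rev, eq_comm, ← mul_eq_one_iff_eq_inv, ← mul_assoc, hcube]
  calc v * (u * v * u⁻¹) = v * eps t a b c d * (v⁻¹ * (u⁻¹ * u⁻¹)) := by
        simp only [eps, pow_two, u, v]; group
    _ = eps t a b c d * v * (v⁻¹ * u) := by rw [hu, hv]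
    _ = eps t a b c d * u := by group

omit h in
lemma words_fix {S : Finset α} {p : Γ × Perm α} (hp : p ∈ words t S) {x : α} (hx : x ∉ S) :
    p.2 x = x := by
  induction hp using Subgroup.closure_induction with
  | mem p hp =>
    rcases hp with ⟨σ, -, hS, rfl⟩ | ⟨e, -, rfl⟩
    · exact Perm.notMem_support.1 fun h' => hx (hS h')
    · rfl
  | one => rfl
  | mul p q _ _ hp hq => simp [hq, hp]
  | inv p _ hp =>
    rw [Prod.snd_inv, Perm.inv_eq_iff_eq]
    exact hp.symm

omit h in
lemma pair_mem {S : Finset α} {σ : Perm α} (hσ : σ.IsThreeCycle) (hS : σ.support ⊆ S) :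
    (t σ, σ) ∈ words t S :=
  Subgroup.subset_closure (Or.inl ⟨σ, hσ, hS, rfl⟩)

omit h in
lemma support_cyc_subset {S : Finset α} {a b c : α} (hab : a ≠ b) (hbc : b ≠ c) (hac : a ≠ c)
    (ha : a ∈ S) (hb : b ∈ S) (hc : c ∈ S) : (cyc a b c).support ⊆ S := by
  intro x hx
  obtain ⟨-, -, -, h4⟩ := cyc_apply hab hbc hac
  by_contra hxS
  exact Perm.mem_support.1 hx (h4 x (fun e => hxS (e ▸ ha)) (fun e => hxS (e ▸ hb))
    (fun e => hxS (e ▸ hc)))

include h in
/-- A product of value one is a product of `eps` elements. -/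
lemma words_kernel : ∀ (S : Finset α) (p : Γ × Perm α), p ∈ words t S → p.2 = 1 →
    p.1 ∈ Subgroup.closure (epsSet t) := by
  intro S
  induction S using Finset.induction_on with
  | empty =>
    intro p hp hp1
    clear hp1
    induction hp using Subgroup.closure_induction with
    | mem p hp =>
      rcases hp with ⟨σ, hσ, hS, rfl⟩ | ⟨e, he, rfl⟩
      · exact absurd (Finset.subset_empty.1 hS) (fun e => hσ.ne_one (Perm.support_eq_empty_iff.1 e))
      · exact Subgroup.subset_closure he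
    | one => exact one_mem _
    | mul p q _ _ hp hq => exact mul_mem hp hq
    | inv p _ hp => exact inv_mem hp
  | insert o S ho ih =>
    let c : α → α → Γ × Perm α := fun x y => (t (cyc o x y), cyc o x y)
    let M : Set (Γ × Perm α) := {p | p ∈ words t S ∨
      ∃ x ∈ S, ∃ y ∈ S, x ≠ y ∧ ∃ w ∈ words t S, p = c x y * w}
    have hne : ∀ {x}, x ∈ S → o ≠ x := fun hx e => ho (e ▸ hx)
    have change : ∀ {x y y'}, x ∈ S → y ∈ S → y' ∈ S → x ≠ y → x ≠ y' →
        ∃ w ∈ words t S, c x y = c x y' * w := by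
      intro x y y' hx hy hy' hxy hxy'
      by_cases hyy : y = y'
      · exact ⟨1, one_mem _, by rw [hyy, mul_one]⟩
      have he : ∀ {τ : Perm α}, τ.IsThreeCycle → Commute (eps t o x y y') (t τ) := fun hτ =>
        h.eps_commute (hne hx) (hne hy) (hne hy') hxy hxy' hyy hτ
      refine ⟨(t (cyc x y y'), cyc x y y') * (eps t o x y y', 1)⁻¹, mul_mem
        (pair_mem (cyc_three hxy hyy hxy') (support_cyc_subset hxy hyy hxy' hx hy hy'))
        (inv_mem (Subgroup.subset_closure (Or.inr ⟨_, ⟨o, x, y, y', hne hx, hne hy, hne hy', hxy,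
          hxy', hyy, rfl⟩, rfl⟩))), Prod.ext ?_ ?_⟩
      · show t (cyc o x y) = t (cyc o x y') * (t (cyc x y y') * (eps t o x y y')⁻¹)
        rw [← mul_assoc, h.mul_eq (hne hx) (hne hy) (hne hy') hxy hxy' hyy,
          (he (cyc_three (hne hx) hxy (hne hy))).eq, mul_inv_cancel_right]
      · simp [c, cyc_mul_cyc (hne hx) (hne hy) (hne hy') hxy hxy' hyy]
    have conjc : ∀ {σ τ : Perm α}, σ.IsThreeCycle → τ.IsThreeCycle →
        ((t σ, σ) : Γ × Perm α) * (t τ, τ) = (t (σ * τ * σ⁻¹), σ * τ * σ⁻¹) * (t σ, σ) := by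
      intro σ τ hσ hτ
      refine Prod.ext ?_ ?_
      · show t σ * t τ = t (σ * τ * σ⁻¹) * t σ
        rw [← h.conj hσ hτ, inv_mul_cancel_right]
      · simp [mul_assoc]
    have hgen : ∀ g : Γ × Perm α,
        ((∃ σ : Perm α, σ.IsThreeCycle ∧ σ.support ⊆ insert o S ∧ g = (t σ, σ)) ∨
          ∃ e ∈ epsSet t, g = (e, 1)) → ∀ p ∈ M, g * p ∈ M := by
      rintro g (⟨σ, hσ, hS, rfl⟩ | ⟨e, he, rfl⟩) p hp
      · by_cases hoσ : σ o = o
        · have hσS : σ.support ⊆ S := fun x hx => (Finset.mem_insert.1 (hS hx)).resolve_left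
            fun e => Perm.mem_support.1 hx (e ▸ hoσ)
          rcases hp with hp | ⟨x, hx, y, hy, hxy, w, hw, rfl⟩
          · exact Or.inl (mul_mem (pair_mem hσ hσS) hp)
          · have hσx : ∀ {x}, x ∈ S → σ x ∈ S := fun {x} hx => by
              by_cases hfix : σ x = x
              · rwa [hfix]
              · exact hσS (Perm.apply_mem_support.2 (Perm.mem_support.2 hfix))
            refine Or.inr ⟨σ x, hσx hx, σ y, hσx hy, σ.injective.ne hxy, _,
              mul_mem (pair_mem hσ hσS) hw, ?_⟩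
            rw [← mul_assoc, conjc hσ (cyc_three (hne hx) hxy (hne hy)), cyc_conj, hoσ, mul_assoc]
        · obtain ⟨u, v, hou, huv, hov, rfl⟩ := exists_cyc_at hσ hoσ
          obtain ⟨g1, g2, g3, g4⟩ := cyc_apply hou huv hov
          have hu : u ∈ S := (Finset.mem_insert.1
            (hS (Perm.mem_support.2 (g2.symm ▸ huv.symm)))).resolve_left hou.symm
          have hv : v ∈ S := (Finset.mem_insert.1
            (hS (Perm.mem_support.2 (g3.symm ▸ hov)))).resolve_left hov.symm
          rcases hp with hp | ⟨x, hx, y, hy, hxy, w, hw, rfl⟩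
          · exact Or.inr ⟨u, hu, v, hv, huv, p, hp, rfl⟩
          rw [← mul_assoc]
          change c u v * c x y * w ∈ M
          by_cases hxv : x = v
          · subst hxv
            obtain ⟨w', hw', e⟩ := change hx hy hu hxy huv.symm
            rw [e, ← mul_assoc (c u x), mul_assoc _ w']
            have : c u x * c x u = 1 := by
              have ei : cyc o x u = (cyc o u x)⁻¹ := by
                rw [cyc_inv]
                exact cyc_rot hov huv.symm hou
              refine Prod.ext ?_ ?_ <;> simp [c, ei, h.inv hσ]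
            rw [this, one_mul]
            exact Or.inl (mul_mem hw' hw)
          by_cases hxu : x = u
          · subst hxu
            obtain ⟨w', hw', e⟩ := change hx hy hv hxy huv
            rw [e, ← mul_assoc (c x v), mul_assoc _ w']
            have : c x v * c x v = c v x := by
              have ei : cyc o v x = (cyc o x v)⁻¹ := by
                rw [cyc_inv, cyc_rot huv.symm hou.symm hov.symm]
                rw [cyc_rot hou.symm hov huv]
              refine Prod.ext ?_ ?_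
              · show t (cyc o x v) * t (cyc o x v) = t (cyc o v x)
                rw [ei, h.inv hσ, ← mul_eq_one_iff_eq_inv]
                rw [← pow_two, ← pow_succ]; exact h.cube hσ
              · show cyc o x v * cyc o x v = cyc o v x
                rw [ei, ← mul_eq_one_iff_eq_inv, ← pow_two, ← pow_succ]
                show cyc o x v ^ 3 = 1
                rw [← hσ.orderOf]; exact pow_orderOf_eq_one _
            rw [this]
            exact Or.inr ⟨v, hv, x, hx, huv.symm, _, mul_mem hw' hw, rfl⟩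
          obtain ⟨w', hw', e⟩ := change hx hy hu hxy hxu
          rw [e, ← mul_assoc (c u v), mul_assoc _ w']
          have hτ := cyc_three (hne hx) hxu hou
          have hρ := cyc_three (Ne.symm hxu) hxv huv
          have : c u v * c x u = c x u * (t (cyc u x v), cyc u x v) := by
            obtain ⟨k1, k2, k3, k4⟩ := cyc_apply (Ne.symm hxu) hxv huv
            have e1 := conjc hσ hτ
            rw [cyc_conj, g1, g4 x (hne hx).symm hxu hxv, g2] at e1
            have e2 := conjc hρ hσ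
            rw [cyc_conj, k4 o hou (hne hx) hov, k1, k3] at e2
            exact e1.trans e2
          rw [this, mul_assoc]
          exact Or.inr ⟨x, hx, u, hu, hxu, _, mul_mem (pair_mem hρ
            (support_cyc_subset (Ne.symm hxu) hxv huv hu hx hv)) (mul_mem hw' hw), rfl⟩
      · rcases hp with hp | ⟨x, hx, y, hy, hxy, w, hw, rfl⟩
        · exact Or.inl (mul_mem (Subgroup.subset_closure (Or.inr ⟨e, he, rfl⟩)) hp)
        · refine Or.inr ⟨x, hx, y, hy, hxy, (e, 1) * w,
            mul_mem (Subgroup.subset_closure (Or.inr ⟨e, he, rfl⟩)) hw, ?_⟩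
          rw [← mul_assoc, ← mul_assoc]
          congr 1
          obtain ⟨a, b, c', d, q1, q2, q3, q4, q5, q6, rfl⟩ := he
          refine Prod.ext ?_ (by simp [c])
          exact (h.eps_commute q1 q2 q3 q4 q5 q6 (cyc_three (hne hx) hxy (hne hy))).eq
    intro p hp hp1
    have hM : p ∈ M := by
      clear hp1
      induction hp using Subgroup.closure_induction_left with
      | one => exact Or.inl (one_mem _)
      | mul_left g hg q _ hq => exact hgen g hg q hq
      | inv_mul_cancel g hg q _ hq =>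
        rcases hg with ⟨σ, hσ, hS, rfl⟩ | ⟨e, he, rfl⟩
        · refine hgen _ (Or.inl ⟨σ⁻¹, hσ.inv, by rwa [Perm.support_inv], ?_⟩) q hq
          simp [h.inv hσ]
        · obtain ⟨a, b, c', d, q1, q2, q3, q4, q5, q6, rfl⟩ := he
          refine hgen _ (Or.inr ⟨_, ⟨b, a, d, c', q1.symm, q5, q4, q3, q2, q6.symm, rfl⟩, ?_⟩) q hq
          refine Prod.ext ?_ (by simp)
          simp only [Prod.inv_mk, eps, ← inv_pow, mul_inv_rev]
          rw [← h.inv (cyc_three q1 q5 q3), ← h.inv (cyc_three q1 q4 q2), cyc_inv, cyc_inv,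
            cyc_rot q5.symm q1.symm q3.symm, cyc_rot q4.symm q1.symm q2.symm]
    rcases hM with hM | ⟨x, hx, y, hy, hxy, w, hw, rfl⟩
    · exact ih p hM hp1
    · exfalso
      have := congrArg (fun π : Perm α => π o) hp1
      simp only [Prod.snd_mul, Perm.mul_apply, words_fix hw ho, Perm.one_apply, c,
        (cyc_apply (hne hx) hxy (hne hy)).1] at this
      exact hne hx this.symm

omit h in
lemma exists_word {π : Perm α} (hπ : π ∈ alternatingGroup α) :
    ∃ x : Γ, (x, π) ∈ words t Finset.univ := by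
  rw [← Perm.closure_three_cycles_eq_alternating] at hπ
  induction hπ using Subgroup.closure_induction with
  | mem σ hσ => exact ⟨t σ, pair_mem hσ (Finset.subset_univ _)⟩
  | one => exact ⟨1, one_mem _⟩
  | mul p q _ _ hp hq =>
    obtain ⟨x, hx⟩ := hp
    obtain ⟨y, hy⟩ := hq
    exact ⟨x * y, mul_mem hx hy⟩
  | inv p _ hp =>
    obtain ⟨x, hx⟩ := hp
    exact ⟨x⁻¹, inv_mem hx⟩

include h in
/-- With trivial `eps`, a family comes from a homomorphism of the alternating group. -/
theorem exists_hom (heps : ∀ a b c d, a ≠ b → a ≠ c → a ≠ d → b ≠ c → b ≠ d → c ≠ d →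
    eps t a b c d = 1) :
    ∃ φ : alternatingGroup α →* Γ, ∀ (σ : Perm α) (hσ : σ.IsThreeCycle),
      φ ⟨σ, hσ.mem_alternatingGroup⟩ = t σ := by
  have huniq : ∀ {x y : Γ} {π : Perm α}, (x, π) ∈ words t Finset.univ →
      (y, π) ∈ words t Finset.univ → x = y := by
    intro x y π hx hy
    have := h.words_kernel _ _ (mul_mem hx (inv_mem hy)) (by simp)
    have hbot : Subgroup.closure (epsSet t) = ⊥ := by
      rw [Subgroup.closure_eq_bot_iff]
      rintro _ ⟨a, b, c, d, q1, q2, q3, q4, q5, q6, rfl⟩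
      exact heps a b c d q1 q2 q3 q4 q5 q6
    rw [hbot, Subgroup.mem_bot] at this
    exact mul_inv_eq_one.1 this
  choose f hf using fun π : alternatingGroup α => exists_word (t := t) π.2
  refine ⟨MonoidHom.mk' f fun π ρ => huniq (hf _) (mul_mem (hf π) (hf ρ)), fun σ hσ => ?_⟩
  exact huniq (hf _) (pair_mem hσ (Finset.subset_univ _))

include h in
/-- The values of `eps` are fixed by even permutations. -/
lemma eps_map {π : Perm α} (hπ : π ∈ alternatingGroup α) {a b c d : α} (hab : a ≠ b) (hac : a ≠ c)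
    (had : a ≠ d) (hbc : b ≠ c) (hbd : b ≠ d) (hcd : c ≠ d) :
    eps t (π a) (π b) (π c) (π d) = eps t a b c d := by
  rw [← Perm.closure_three_cycles_eq_alternating] at hπ
  induction hπ using Subgroup.closure_induction generalizing a b c d with
  | mem σ hσ =>
    rw [eps, ← cyc_conj, ← cyc_conj, ← h.conj hσ (cyc_three hab hbc hac),
      ← h.conj hσ (cyc_three hab hbd had), conj_mul, conj_pow]
    have := (h.eps_commute hab hac had hbc hbd hcd hσ).symm.eq
    rw [eps] at this
    rw [this, mul_inv_cancel_right]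
    rfl
  | one => rfl
  | mul p q _ _ hp hq =>
    simp only [Perm.mul_apply]
    rw [hp (q.injective.ne hab) (q.injective.ne hac) (q.injective.ne had) (q.injective.ne hbc)
      (q.injective.ne hbd) (q.injective.ne hcd), hq hab hac had hbc hbd hcd]
  | inv p _ hp =>
    have := hp (a := p⁻¹ a) (b := p⁻¹ b) (c := p⁻¹ c) (d := p⁻¹ d) (p⁻¹.injective.ne hab)
      (p⁻¹.injective.ne hac) (p⁻¹.injective.ne had) (p⁻¹.injective.ne hbc) (p⁻¹.injective.ne hbd)
      (p⁻¹.injective.ne hcd)
    simpa using this.symm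

include h in
/-- All values of `eps` agree. -/
lemma eps_eq (hn : 6 ≤ Fintype.card α) {q q' : Fin 4 ↪ α} :
    eps t (q 0) (q 1) (q 2) (q 3) = eps t (q' 0) (q' 1) (q' 2) (q' 3) := by
  obtain ⟨π, hπ, hq⟩ := exists_even_map q q' (by omega)
  simp only [← hq]
  exact (h.eps_map hπ (q.injective.ne (by decide)) (q.injective.ne (by decide))
    (q.injective.ne (by decide)) (q.injective.ne (by decide)) (q.injective.ne (by decide))
    (q.injective.ne (by decide))).symm

include h in
lemma eps_sq {a b c d : α} (hab : a ≠ b) (hac : a ≠ c) (had : a ≠ d) (hbc : b ≠ c)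
    (hbd : b ≠ d) (hcd : c ≠ d) : eps t a b c d ^ 2 = 1 := by
  have hπ : swap a b * swap c d ∈ alternatingGroup α := by
    rw [Perm.mem_alternatingGroup]; simp [Perm.sign_swap hab, Perm.sign_swap hcd]
  have := h.eps_map hπ hab hac had hbc hbd hcd
  simp only [Perm.mul_apply, swap_apply_left, swap_apply_right,
    swap_apply_of_ne_of_ne hac had, swap_apply_of_ne_of_ne hbc hbd,
    swap_apply_of_ne_of_ne hac.symm hbc.symm, swap_apply_of_ne_of_ne had.symm hbd.symm] at this
  have e : eps t b a d c = (eps t a b c d)⁻¹ := by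
    simp only [eps, ← inv_pow, mul_inv_rev]
    rw [← h.inv (cyc_three hab hbd had), ← h.inv (cyc_three hab hbc hac), cyc_inv, cyc_inv,
      cyc_rot hbd.symm hab.symm had.symm, cyc_rot hbc.symm hab.symm hac.symm]
  rw [e] at this
  rw [pow_two]
  nth_rw 1 [← this]
  rw [inv_mul_cancel]

end Family

end

end Vale.Agent.P196.Pres
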