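import Vale.Agent.P196.Pres.Windows
import Vale.Agent.P196.Pres.Join

/-!
P196, module B: in a rigid subshift every finite set of cells carries an algebra.
-/

namespace Vale.Agent.P196.Pres

open scoped Classical commutatorElement
open Equiv Simple

noncomputable section

variable {S : SFT} {k : ℕ} (hk : 12 ≤ k)

/-- An algebra on the patterns of `U` extending the cell elements. -/
structure IsCtx (U : Finset V) (T : Finset (Pat S U) → Perm (Fin k) → Cov S k) : Prop where
  alg : Alg (world hk) T
  cell : ∀ {u : V} (hu : u ∈ U) (c : S.A) {σ : Perm (Fin k)}, σ.IsThreeCycle →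
    T (ev u hu c) σ = Pres.cell hk u c σ

/-- A set of cells with an algebra. -/
def Good (U : Finset V) : Prop :=
  ∃ T : Finset (Pat S U) → Perm (Fin k) → Cov S k, IsCtx hk U T

variable {hk}

lemma IsCtx.unique {U : Finset V} {T T' : Finset (Pat S U) → Perm (Fin k) → Cov S k}
    (h : IsCtx hk U T) (h' : IsCtx hk U T') (p : Finset (Pat S U)) {σ : Perm (Fin k)}
    (hσ : σ.IsThreeCycle) : T p σ = T' p σ := by
  refine h.alg.ext_gen h'.alg (cellEvents U) (fun e he τ hτ => ?_) p (fun a b hab => ?_) hσ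
  · obtain ⟨⟨u, c⟩, -, rfl⟩ := List.mem_map.1 he
    rw [h.cell u.2 c hτ, h'.cell u.2 c hτ]
  · rw [eq_of_cellEvents hab]

lemma IsCtx.res {R U : Finset V} (h : R ⊆ U) {T : Finset (Pat S U) → Perm (Fin k) → Cov S k}
    (hT : IsCtx hk U T) : IsCtx hk R (pull (Pres.res h) T) where
  alg := hT.alg.pull _
  cell hu c σ hσ := by
    rw [← hT.cell (h hu) c hσ, ← pre_ev h hu c]
    rfl

lemma Good.mono {R U : Finset V} (h : R ⊆ U) (hU : Good (S := S) hk U) : Good (S := S) hk R := by
  obtain ⟨T, hT⟩ := hU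
  exact ⟨_, hT.res h⟩

/-- The algebra of a good set. -/
def ctx {U : Finset V} (hU : Good (S := S) hk U) :
    Finset (Pat S U) → Perm (Fin k) → Cov S k := hU.choose

lemma isCtx {U : Finset V} (hU : Good (S := S) hk U) : IsCtx hk U (ctx hU) := hU.choose_spec

lemma ctx_pre {R U : Finset V} (h : R ⊆ U) (hU : Good (S := S) hk U) (hR : Good (S := S) hk R)
    (p : Finset (Pat S R)) {σ : Perm (Fin k)} (hσ : σ.IsThreeCycle) :
    ctx hU (pre h p) σ = ctx hR p σ :=
  ((isCtx hU).res h).unique (isCtx hR) p hσ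

lemma isCtx_Tw (v : V) : IsCtx hk (win S v) (Tw hk v) where
  alg := alg_Tw hk v
  cell hu c _ hσ := Tw_cell hk hu c hσ

lemma good_win (v : V) : Good (S := S) hk (win S v) := ⟨_, isCtx_Tw v⟩

/-- Separation of two events given on possibly different sets, read on larger sets. -/
lemma sep_pre_iff {R U R' W : Finset V} (h : R ⊆ U) (h' : R' ⊆ W) (hU : Good (S := S) hk U)
    (hW : Good (S := S) hk W) (hR : Good (S := S) hk R) (hR' : Good (S := S) hk R')
    (p : Finset (Pat S R)) (q : Finset (Pat S R')) :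
    Sep (ctx hU) (ctx hW) (pre h p) (pre h' q) ↔ Sep (ctx hR) (ctx hR') p q := by
  constructor <;> intro hs <;> constructor <;> intro a b c ha hb hc <;>
    have := hs.comm ha hb hc
  · rwa [← pre_compl, ctx_pre h hU hR p ha, ctx_pre h hU hR pᶜ hc,
      ctx_pre h' hW hR' q hb] at this
  · rwa [← pre_compl, ctx_pre h hU hR p ha, ctx_pre h hU hR pᶜ hc, ctx_pre h' hW hR' q hb]

/-- The event of an observable on its support. -/
def oev (o : S.Obs) : Finset (Pat S o.supp) :=
  Finset.univ.filter fun p => o.val (ext o.supp p) = true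

lemma mem_pre_oev {U : Finset V} (o : S.Obs) (h : o.supp ⊆ U) (p : Pat S U) :
    p ∈ pre h (oev o) ↔ o.val (ext U p) = true := by
  simp only [mem_pre, oev, Finset.mem_filter, Finset.mem_univ, true_and]
  rw [o.dep (ext o.supp (res h p)) (ext U p) fun u hu => ?_]
  have h1 := ext_apply (res h p) ⟨u, hu⟩
  have h2 := ext_apply p ⟨u, h hu⟩
  exact h1.trans h2.symm

lemma oev_cell (u : V) (c : S.A) :
    oev (S.cellObs u c) = ev u (Finset.mem_singleton_self u) c := by
  ext p
  simp only [oev, Finset.mem_filter, Finset.mem_univ, true_and]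
  show decide (ext _ p u = c) = true ↔ _
  rw [decide_eq_true_iff]
  have e := ext_apply p (⟨u, Finset.mem_singleton_self u⟩ : ({u} : Finset V))
  exact ⟨fun h => mem_ev.2 (e.symm.trans h), fun h => e.trans (mem_ev.1 h)⟩

variable (hk) in
/-- The observables are separated. -/
def OSep (o o' : S.Obs) : Prop :=
  ∃ (h : Good hk o.supp) (h' : Good hk o'.supp), Sep (ctx h) (ctx h') (oev o) (oev o')

/-- Adding a cell separated from all cells of a good set. -/
theorem Good.insert {U : Finset V} (hU : Good (S := S) hk U) {v : V}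
    (hsep : ∀ u ∈ U, ∀ c d : S.A, OSep hk (S.cellObs u c) (S.cellObs v d)) :
    Good (S := S) hk (insert v U) := by
  have hUs : U ⊆ Insert.insert v U := Finset.subset_insert v U
  have hvs : ({v} : Finset V) ⊆ Insert.insert v U :=
    Finset.singleton_subset_iff.2 (Finset.mem_insert_self v U)
  have hv : Good (S := S) hk {v} :=
    (good_win v).mono (Finset.singleton_subset_iff.2 (self_mem_win v))
  have hatom : ∀ (p : Pat S U) (d : Pat S {v}), Sep (ctx hU) (ctx hv) {p} {d} := by
    intro p d
    have ed : ({d} : Finset (Pat S {v})) =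
        ev v (Finset.mem_singleton_self v) (d.1 ⟨v, Finset.mem_singleton_self v⟩) := by
      ext e
      simp only [Finset.mem_singleton, mem_ev]
      refine ⟨fun h => by rw [h], fun h => Subtype.ext (funext fun u => ?_)⟩
      obtain rfl : u = ⟨v, Finset.mem_singleton_self v⟩ :=
        Subtype.ext (Finset.mem_singleton.1 u.2)
      exact h
    refine Sep.of_measurable (isCtx hU).alg (isCtx hv).alg (cellEvents U) (fun e he => ?_) _
      fun a b hab => by rw [eq_of_cellEvents hab]
    obtain ⟨⟨u, c⟩, -, rfl⟩ := List.mem_map.1 he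
    obtain ⟨h1, h2, h3⟩ := hsep u.1 u.2 c (d.1 ⟨v, Finset.mem_singleton_self v⟩)
    rw [oev_cell, oev_cell] at h3
    have h4 := (sep_pre_iff (Finset.singleton_subset_iff.2 u.2) (subset_refl _) hU hv h1 h2
      _ _).2 h3
    rw [pre_ev, pre_ev] at h4
    rw [ed]
    exact h4
  obtain ⟨J, hJ, hJ1, hJ2⟩ := join (isCtx hU).alg (isCtx hv).alg hatom
  let f : Pat S (Insert.insert v U) ↪ Pat S U × Pat S {v} :=
    ⟨fun p => (res hUs p, res hvs p), fun p q hpq => by
      apply Subtype.ext
      funext u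
      obtain ⟨hp1, hp2⟩ := Prod.mk.inj hpq
      rcases Finset.mem_insert.1 u.2 with hu | hu
      · exact congrFun (congrArg Subtype.val hp2) ⟨u.1, Finset.mem_singleton.2 hu⟩
      · exact congrFun (congrArg Subtype.val hp1) ⟨u.1, hu⟩⟩
  have hz : ∀ a, a ∉ Set.range f → ∀ {σ : Perm (Fin k)}, σ.IsThreeCycle → J {a} σ = 1 := by
    rintro ⟨p, d⟩ hnot σ hσ
    have hvv : v ∈ ({v} : Finset V) := Finset.mem_singleton_self v
    let a : V → S.A := fun u =>
      if hu : u ∈ U then p.1 ⟨u, hu⟩ else if u = v then d.1 ⟨v, hvv⟩ else ext U p u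
    by_cases hvU : v ∈ U
    · -- the pattern disagrees with itself at `v`
      have hne : p.1 ⟨v, hvU⟩ ≠ d.1 ⟨v, hvv⟩ := by
        intro heq
        refine hnot ⟨⟨fun u => ext U p u, ext U p, ?_, fun _ => rfl⟩, Prod.ext ?_ ?_⟩
        · rw [Finset.insert_eq_of_mem hvU]; exact ext_admissible p
        · exact Subtype.ext (funext fun u => ext_apply p u)
        · refine Subtype.ext (funext fun u => ?_)
          obtain rfl : u = ⟨v, hvv⟩ := Subtype.ext (Finset.mem_singleton.1 u.2)
          exact (ext_apply p ⟨v, hvU⟩).trans heq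
      refine hJ.zero_of_commutator (p := ev v hvU (p.1 ⟨v, hvU⟩) ×ˢ Finset.univ)
        (q := Finset.univ ×ˢ ev v hvv (d.1 ⟨v, hvv⟩)) (by simp) (fun w => ?_) hσ
      rw [hJ1 _ (ql_three w), hJ2 _ (qr_three w), (isCtx hU).cell hvU _ (ql_three w),
        (isCtx hv).cell hvv _ (qr_three w), ← Tw_cell hk (self_mem_win v) _ (ql_three w),
        ← Tw_cell hk (self_mem_win v) _ (qr_three w), commutatorElement_eq_one_iff_commute]
      refine (alg_Tw hk v).commute (ql_three w) (qr_three w) (Finset.disjoint_left.2 fun z h1 h2 => ?_)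
      exact hne ((mem_ev.1 h1).symm.trans (mem_ev.1 h2))
    have hnadm : ¬ S.Admissible (Insert.insert v U) a := by
      intro hadm
      refine hnot ⟨⟨fun u => a u, a, hadm, fun _ => rfl⟩, Prod.ext ?_ ?_⟩
      · exact Subtype.ext (funext fun u => show a u = p.1 u by simp only [a, dif_pos u.2])
      · refine Subtype.ext (funext fun u => ?_)
        obtain rfl : u = ⟨v, hvv⟩ := Subtype.ext (Finset.mem_singleton.1 u.2)
        show a v = _
        simp only [a, dif_neg hvU, if_true]
    simp only [SFT.Admissible, not_forall, exists_prop] at hnadm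
    obtain ⟨v0, hv0, hbad⟩ := hnadm
    have hsubW : win S v0 ⊆ Insert.insert v U := fun u hu => by
      have hb := (mem_win S).1 hu
      obtain ⟨i, hi⟩ : ∃ i : ℕ, u.1 = v0.1 + i := ⟨(u.1 - v0.1).toNat, by omega⟩
      obtain ⟨j, hj⟩ : ∃ j : ℕ, u.2 = v0.2 + j := ⟨(u.2 - v0.2).toNat, by omega⟩
      have := hv0 (⟨i, by omega⟩, ⟨j, by omega⟩)
      simpa [← hi, ← hj] using this
    have hvW : v ∈ win S v0 := by
      by_contra hn
      apply hbad
      have hq : ∀ q : Fin (S.w + 1) × Fin (S.w + 1),
          (v0.1 + (q.1 : ℕ), v0.2 + (q.2 : ℕ)) ∈ U := fun q => by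
        refine (Finset.mem_insert.1 (hv0 q)).resolve_left fun e => hn ?_
        rw [← e, mem_win]
        have := q.1.2
        have := q.2.2
        simp only
        omega
      have e : S.window a v0 = S.window (ext U p) v0 := funext fun q => by
        show a _ = ext U p _
        simp only [a, dif_pos (hq q)]
        exact (ext_apply p ⟨_, hq q⟩).symm
      rw [e]
      exact ext_admissible p v0 hq
    let R := (win S v0).erase v
    have hRU : R ⊆ U := fun u hu =>
      (Finset.mem_insert.1 (hsubW (Finset.mem_of_mem_erase hu))).resolve_left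
        (Finset.ne_of_mem_erase hu)
    have hRW : R ⊆ win S v0 := Finset.erase_subset _ _
    have hW := good_win (S := S) (hk := hk) v0
    have hR := hW.mono hRW
    have hvW' : ({v} : Finset V) ⊆ win S v0 := Finset.singleton_subset_iff.2 hvW
    refine hJ.zero_of_commutator (p := pre hRU {res hRU p} ×ˢ Finset.univ)
      (q := Finset.univ ×ˢ ({d} : Finset (Pat S {v}))) (by simp) (fun w => ?_) hσ
    rw [hJ1 _ (ql_three w), hJ2 _ (qr_three w), ctx_pre hRU hU hR _ (ql_three w),
      ← ctx_pre hRW hW hR _ (ql_three w), ← ctx_pre hvW' hW hv _ (qr_three w),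
      commutatorElement_eq_one_iff_commute]
    refine (isCtx hW).alg.commute (ql_three w) (qr_three w) (Finset.disjoint_left.2 ?_)
    intro z hz1 hz2
    simp only [mem_pre, Finset.mem_singleton] at hz1 hz2
    apply hbad
    have hwin : ∀ q : Fin (S.w + 1) × Fin (S.w + 1),
        (v0.1 + (q.1 : ℕ), v0.2 + (q.2 : ℕ)) ∈ win S v0 := fun q => by
      have := q.1.2
      have := q.2.2
      rw [mem_win]; simp only; omega
    have e : S.window a v0 = S.window (ext (win S v0) z) v0 := funext fun q => by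
      set u : V := (v0.1 + (q.1 : ℕ), v0.2 + (q.2 : ℕ))
      show a u = ext (win S v0) z u
      rw [show ext (win S v0) z u = z.1 ⟨u, hwin q⟩ from ext_apply z ⟨u, hwin q⟩]
      by_cases huv : u = v
      · rw [show z.1 ⟨u, hwin q⟩ = z.1 ⟨v, hvW⟩ from congrArg z.1 (Subtype.ext huv)]
        have := congrFun (congrArg Subtype.val hz2) ⟨v, hvv⟩
        rw [huv]
        simp only [a, dif_neg hvU, if_true]
        exact this.symm
      · have huR : u ∈ R := Finset.mem_erase.2 ⟨huv, hwin q⟩
        have := congrFun (congrArg Subtype.val hz1) ⟨u, huR⟩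
        simp only [a, dif_pos (hRU huR)]
        exact this.symm
    rw [e]
    exact ext_admissible z v0 hwin
  refine ⟨restrict f J, hJ.restrict f hz, fun {u} hu c σ hσ => ?_⟩
  have key : ∀ (s : Finset (Pat S U × Pat S {v})) (s' : Finset (Pat S (Insert.insert v U))),
      (∀ p, p ∈ s' ↔ f p ∈ s) → J (s'.map f) σ = J s σ := by
    intro s s' hs'
    have hsub : s'.map f ⊆ s := fun a ha => by
      obtain ⟨p, hp, rfl⟩ := Finset.mem_map.1 ha
      exact (hs' p).1 hp
    have hrest : ∀ t : Finset (Pat S U × Pat S {v}), (∀ a ∈ t, a ∉ Set.range f) → J t σ = 1 := by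
      intro t
      induction t using Finset.induction_on with
      | empty => exact fun _ => hJ.empty hσ
      | insert a t ha ih =>
        intro h
        rw [Finset.insert_eq, hJ.union hσ (Finset.disjoint_singleton_left.2 ha),
          hz a (h a (Finset.mem_insert_self a t)) hσ,
          ih fun b hb => h b (Finset.mem_insert_of_mem hb), mul_one]
    conv_rhs => rw [← Finset.union_sdiff_of_subset hsub]
    rw [hJ.union hσ Finset.disjoint_sdiff, hrest (s \ s'.map f) fun a ha ⟨p, hp⟩ => ?_, mul_one]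
    obtain ⟨h1, h2⟩ := Finset.mem_sdiff.1 ha
    exact h2 (hp ▸ Finset.mem_map_of_mem f ((hs' p).2 (hp ▸ h1)))
  show J _ σ = _
  rcases Finset.mem_insert.1 hu with rfl | huU
  · rw [key (Finset.univ ×ˢ ev u (Finset.mem_singleton_self u) c), hJ2 _ hσ,
      (isCtx hv).cell _ c hσ]
    intro p
    simp only [Finset.mem_product, Finset.mem_univ, true_and, mem_ev]
    rfl
  · rw [key (ev u huU c ×ˢ Finset.univ), hJ1 _ hσ, (isCtx hU).cell _ c hσ]
    intro p
    simp only [Finset.mem_product, Finset.mem_univ, and_true, mem_ev]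
    rfl

lemma good_empty : Good (S := S) hk ∅ := (good_win 0).mono (Finset.empty_subset _)

/-- A set of cells all of whose pairs are separated is good. -/
lemma good_of_pairs {U : Finset V}
    (h : ∀ a ∈ U, ∀ b ∈ U, ∀ c d : S.A, OSep hk (S.cellObs a c) (S.cellObs b d)) :
    Good (S := S) hk U := by
  induction U using Finset.induction_on with
  | empty => exact good_empty
  | insert v U hv ih =>
    refine Good.insert (ih fun a ha b hb => h a (Finset.mem_insert_of_mem ha) b
      (Finset.mem_insert_of_mem hb)) fun u hu c d => ?_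
    exact h u (Finset.mem_insert_of_mem hu) v (Finset.mem_insert_self v U) c d

variable (hk) in
/-- The observables are the same event. -/
def OEq (o o' : S.Obs) : Prop :=
  ∃ (h : Good hk o.supp) (h' : Good hk o'.supp),
    ∀ {σ : Perm (Fin k)}, σ.IsThreeCycle → ctx h (oev o) σ = ctx h' (oev o') σ

/-- The same event has the same complement. -/
lemma oEq_compl {o o' : S.Obs} (h : Good hk o.supp) (h' : Good hk o'.supp)
    (he : ∀ {σ : Perm (Fin k)}, σ.IsThreeCycle → ctx h (oev o) σ = ctx h' (oev o') σ)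
    {σ : Perm (Fin k)} (hσ : σ.IsThreeCycle) : ctx h (oev o)ᶜ σ = ctx h' (oev o')ᶜ σ := by
  have e := (isCtx h).alg.split_univ (oev o) hσ
  rw [(isCtx h').alg.split_univ (oev o') hσ, he hσ] at e
  exact (mul_left_cancel e).symm

/-- Separation passes to the same event. -/
lemma OSep.transport {o o₁ o' : S.Obs} (he : OEq hk o o₁) (hs : OSep hk o₁ o') :
    OSep hk o o' := by
  obtain ⟨h, h₁, he⟩ := he
  obtain ⟨g₁, h', hsep⟩ := hs
  refine ⟨h, h', ⟨fun {a b c} ha hb hc => ?_⟩⟩
  rw [he ha, oEq_compl h h₁ he hc]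
  exact hsep.comm ha hb hc

/-- The same function of the same events is the same event. -/
lemma oEq_combine {o o' : S.Obs} (ms : List (S.Obs × S.Obs)) (F : List Bool → Bool) {U W : Finset V}
    (hU : Good (S := S) hk U) (hW : Good (S := S) hk W) (ho : o.supp ⊆ U) (ho' : o'.supp ⊆ W)
    (h1 : ∀ m ∈ ms, m.1.supp ⊆ U) (h2 : ∀ m ∈ ms, m.2.supp ⊆ W)
    (hoU : ∀ a : V → S.A, S.Admissible U a → o.val a = F (ms.map fun m => m.1.val a))
    (hoW : ∀ a : V → S.A, S.Admissible W a → o'.val a = F (ms.map fun m => m.2.val a))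
    (hm : ∀ m ∈ ms, OEq hk m.1 m.2) : OEq hk o o' := by
  let f : Pat S U → (Fin ms.length → Bool) := fun p i => (ms[i]).1.val (ext U p)
  let g : Pat S W → (Fin ms.length → Bool) := fun p i => (ms[i]).2.val (ext W p)
  let G : Finset (Fin ms.length → Bool) :=
    Finset.univ.filter fun v => F (List.ofFn v) = true
  have eF : ∀ p, F (List.ofFn (f p)) = o.val (ext U p) := fun p => by
    rw [hoU _ (ext_admissible p)]
    exact congrArg F (List.ext_getElem (by simp) (by simp [f]))
  have eG : ∀ p, F (List.ofFn (g p)) = o'.val (ext W p) := fun p => by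
    rw [hoW _ (ext_admissible p)]
    exact congrArg F (List.ext_getElem (by simp) (by simp [g]))
  refine ⟨hU.mono ho, hW.mono ho', fun {σ} hσ => ?_⟩
  rw [← ctx_pre ho hU (hU.mono ho) _ hσ, ← ctx_pre ho' hW (hW.mono ho') _ hσ]
  have e1 : pre ho (oev o) = Finset.univ.filter fun p => f p ∈ G := by
    ext p
    rw [mem_pre_oev]
    simp [G, eF]
  have e2 : pre ho' (oev o') = Finset.univ.filter fun p => g p ∈ G := by
    ext p
    rw [mem_pre_oev]
    simp [G, eG]
  rw [e1, e2]
  refine ((isCtx hU).alg.pull f).ext_gen ((isCtx hW).alg.pull g)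
    ((List.finRange ms.length).map fun i => Finset.univ.filter fun v => v i = true)
    (fun e he τ hτ => ?_) G (fun a b hab => ?_) hσ
  · obtain ⟨i, -, rfl⟩ := List.mem_map.1 he
    have hi : ms[i] ∈ ms := List.getElem_mem _
    obtain ⟨g1, g2, h⟩ := hm _ hi
    have q1 := ctx_pre (h1 _ hi) hU g1 (oev (ms[i]).1) hτ
    have q2 := ctx_pre (h2 _ hi) hW g2 (oev (ms[i]).2) hτ
    rw [h hτ, ← q2] at q1
    unfold Pres.pull
    convert q1 using 2 <;> (ext p; rw [mem_pre_oev]; simp [f, g])
  · have : a = b := funext fun i => Bool.eq_iff_iff.2 (by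
      simpa using hab _ (List.mem_map.2 ⟨i, List.mem_finRange i, rfl⟩))
    rw [this]

variable (hk) in
/-- The meaning of a forced relation. -/
def Meaning : Bool → S.Obs → S.Obs → Prop
  | false => OSep hk
  | true => OEq hk

/-- Commuting observables are separated, linked ones are the same event. -/
theorem meaning_of_rel {r : Bool} {o o' : S.Obs} (h : S.Rel r o o') : Meaning hk r o o' := by
  induction h with
  | base o o' v hv =>
    have hsub : o.supp ∪ o'.supp ⊆ win S v := fun u hu => (mem_win S).2 (hv u hu)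
    have h1 := (Finset.union_subset_iff.1 hsub).1
    have h2 := (Finset.union_subset_iff.1 hsub).2
    have hW := good_win (S := S) (hk := hk) v
    refine ⟨hW.mono h1, hW.mono h2, ?_⟩
    have hp := Sep.of_pull (isCtx hW).alg (res h1) (res h2) (oev o) (oev o')
    constructor
    intro a b c ha hb hc
    have := hp.comm ha hb hc
    rwa [((isCtx hW).res h1).unique (isCtx (hW.mono h1)) _ ha,
      ((isCtx hW).res h1).unique (isCtx (hW.mono h1)) _ hc,
      ((isCtx hW).res h2).unique (isCtx (hW.mono h2)) _ hb] at this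
  | symm r o o' _ ih =>
    cases r with
    | false =>
      obtain ⟨h1, h2, hs⟩ := ih
      exact ⟨h2, h1, hs.symm (isCtx h1).alg (isCtx h2).alg⟩
    | true =>
      obtain ⟨h1, h2, he⟩ := ih
      exact ⟨h2, h1, fun hσ => (he hσ).symm⟩
  | derived o o' ms U ho hms _ _ hdet _ ihU ihV ihm =>
    have hU := good_of_pairs ihU
    have hW := good_of_pairs ihV
    refine ⟨hU.mono ho, hW, (sep_pre_iff ho (subset_refl _) hU hW (hU.mono ho) hW _ _).1 ?_⟩
    refine Sep.of_measurable (isCtx hU).alg (isCtx hW).alg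
      (ms.attach.map fun m => pre (hms m.1 m.2) (oev m.1)) (fun e he => ?_) _ fun a b hab => ?_
    · obtain ⟨⟨m, hm⟩, -, rfl⟩ := List.mem_map.1 he
      obtain ⟨g1, g2, g3⟩ := ihm m hm
      exact (sep_pre_iff (hms m hm) (subset_refl _) hU hW g1 g2 _ _).2 g3
    · rw [mem_pre_oev, mem_pre_oev,
        hdet (ext U a) (ext U b) (ext_admissible a) (ext_admissible b) fun m hm => ?_]
      have := hab _ (List.mem_map.2 ⟨⟨m, hm⟩, List.mem_attach _ _, rfl⟩)
      rw [mem_pre_oev, mem_pre_oev] at this
      exact Bool.eq_iff_iff.2 this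
  | exclusive o o' c c' U W ho hcU ho' hcW _ _ hin hout _ ihU ihV ihc =>
    have hU := good_of_pairs ihU
    have hW := good_of_pairs ihV
    obtain ⟨g1, g2, he⟩ := ihc
    refine ⟨hU.mono ho, hW.mono ho', (sep_pre_iff ho ho' hU hW _ _ _ _).1 ?_⟩
    refine Sep.of_exclusive (pc := pre hcU (oev c)) (qc' := pre hcW (oev c')) (isCtx hU).alg
      (isCtx hW).alg (fun p hp => ?_) (fun q hq => ?_) fun hσ => ?_
    · rw [mem_pre_oev] at hp ⊢
      exact hin _ (ext_admissible p) hp
    · rw [mem_pre_oev] at hq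
      rw [Finset.mem_compl, mem_pre_oev, hout _ (ext_admissible q) hq]
      simp
    · rw [ctx_pre hcU hU g1 _ hσ, ctx_pre hcW hW g2 _ hσ, he hσ]
  | transport o o₁ o' _ _ ih1 ih2 => exact OSep.transport ih1 ih2
  | same o o' U ho ho' _ heq ihU =>
    have hU := good_of_pairs ihU
    refine ⟨hU.mono ho, hU.mono ho', fun hσ => ?_⟩
    rw [← ctx_pre ho hU (hU.mono ho) _ hσ, ← ctx_pre ho' hU (hU.mono ho') _ hσ]
    congr 1
    ext p
    rw [mem_pre_oev, mem_pre_oev, heq _ (ext_admissible p)]
  | combine o o' ms F U W ho ho' h1 h2 _ _ hoU hoW _ ihU ihV ihm =>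
    exact oEq_combine ms F (good_of_pairs ihU) (good_of_pairs ihV) ho ho' h1 h2 hoU hoW ihm
  | trans o o₁ o' _ _ ih1 ih2 =>
    obtain ⟨h1, h2, he⟩ := ih1
    obtain ⟨h3, h4, he'⟩ := ih2
    exact ⟨h1, h4, fun hσ => (he hσ).trans (he' hσ)⟩

/-- Commuting observables are separated. -/
theorem oSep_of_com {o o' : S.Obs} (h : S.Com o o') : OSep hk o o' := meaning_of_rel h

/-- In a rigid subshift every finite set is good. -/
theorem good_all (hr : S.Rigid) (U : Finset V) : Good (S := S) hk U :=
  good_of_pairs fun a _ b _ c d => oSep_of_com (hr a b c d)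

end

end Vale.Agent.P196.Pres
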