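import Vale.Agent.P196.B.Interface

/-!
P196, module B: admissible patterns on finite sets of cells.
-/

namespace Vale.Agent.P196.Pres

open scoped Classical

noncomputable section

variable (S : SFT)

/-- The window with lower left corner `v`. -/
def win (v : V) : Finset V := Finset.Icc v (v.1 + (S.w : ℤ), v.2 + (S.w : ℤ))

lemma mem_win {v u : V} : u ∈ win S v ↔
    v.1 ≤ u.1 ∧ u.1 ≤ v.1 + S.w ∧ v.2 ≤ u.2 ∧ u.2 ≤ v.2 + S.w := by
  simp only [win, Finset.mem_Icc, Prod.le_def]
  tauto

/-- The admissible patterns on a finite set of cells. -/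
def Pat (U : Finset V) : Type :=
  {p : U → S.A // ∃ a : V → S.A, S.Admissible U a ∧ ∀ u : U, p u = a u}

instance (U : Finset V) : Fintype (Pat S U) := by unfold Pat; infer_instance

instance (U : Finset V) : DecidableEq (Pat S U) := by unfold Pat; infer_instance

variable {S}

lemma admissible_mono {R U : Finset V} (h : R ⊆ U) {a : V → S.A} (ha : S.Admissible U a) :
    S.Admissible R a :=
  fun v hv => ha v fun q => h (hv q)

lemma admissible_congr {U : Finset V} {a b : V → S.A} (h : ∀ u ∈ U, a u = b u)
    (ha : S.Admissible U a) : S.Admissible U b := by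
  intro v hv
  have e : S.window b v = S.window a v := funext fun q => (h _ (hv q)).symm
  rw [e]
  exact ha v hv

/-- A configuration restricted to a finite set. -/
def patX (U : Finset V) (x : S.X) : Pat S U :=
  ⟨fun u => x.1 u, x.1, fun v _ => x.2 v, fun _ => rfl⟩

/-- A pattern restricted to a smaller set. -/
def res {R U : Finset V} (h : R ⊆ U) (p : Pat S U) : Pat S R :=
  ⟨fun r => p.1 ⟨r.1, h r.2⟩, by
    obtain ⟨a, ha, hp⟩ := p.2
    exact ⟨a, admissible_mono h ha, fun r => hp ⟨r.1, h r.2⟩⟩⟩

lemma res_res {R U W : Finset V} (h : R ⊆ U) (h' : U ⊆ W) (p : Pat S W) :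
    res h (res h' p) = res (h.trans h') p := rfl

@[simp] lemma res_self {U : Finset V} (p : Pat S U) : res (subset_refl U) p = p := rfl

lemma res_patX {R U : Finset V} (h : R ⊆ U) (x : S.X) : res h (patX U x) = patX R x := rfl

/-- A witness of admissibility. -/
def ext (U : Finset V) (p : Pat S U) : V → S.A := p.2.choose

lemma ext_admissible {U : Finset V} (p : Pat S U) : S.Admissible U (ext U p) :=
  p.2.choose_spec.1

lemma ext_apply {U : Finset V} (p : Pat S U) (u : U) : ext U p u = p.1 u :=
  (p.2.choose_spec.2 u).symm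

/-- The event that the cell `u` carries the letter `c`. -/
def ev {U : Finset V} (u : V) (hu : u ∈ U) (c : S.A) : Finset (Pat S U) :=
  Finset.univ.filter fun p => p.1 ⟨u, hu⟩ = c

@[simp] lemma mem_ev {U : Finset V} {u : V} {hu : u ∈ U} {c : S.A} {p : Pat S U} :
    p ∈ ev u hu c ↔ p.1 ⟨u, hu⟩ = c := by simp [ev]

/-- The preimage of an event on a smaller set. -/
def pre {R U : Finset V} (h : R ⊆ U) (s : Finset (Pat S R)) : Finset (Pat S U) :=
  Finset.univ.filter fun p => res h p ∈ s

@[simp] lemma mem_pre {R U : Finset V} {h : R ⊆ U} {s : Finset (Pat S R)} {p : Pat S U} :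
    p ∈ pre h s ↔ res h p ∈ s := by simp [pre]

lemma pre_compl {R U : Finset V} (h : R ⊆ U) (s : Finset (Pat S R)) :
    pre h sᶜ = (pre h s)ᶜ := by ext; simp

lemma pre_inter {R U : Finset V} (h : R ⊆ U) (s t : Finset (Pat S R)) :
    pre h (s ∩ t) = pre h s ∩ pre h t := by ext; simp

lemma pre_union {R U : Finset V} (h : R ⊆ U) (s t : Finset (Pat S R)) :
    pre h (s ∪ t) = pre h s ∪ pre h t := by ext; simp

lemma pre_ev {R U : Finset V} (h : R ⊆ U) {u : V} (hu : u ∈ R) (c : S.A) :
    pre h (ev u hu c) = ev u (h hu) c := by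
  ext
  rw [mem_pre, mem_ev, mem_ev]
  exact Iff.rfl

lemma pre_pre {R U W : Finset V} (h : R ⊆ U) (h' : U ⊆ W) (s : Finset (Pat S R)) :
    pre h' (pre h s) = pre (h.trans h') s := by ext; simp [res_res]

/-- The list of all cell events. -/
def cellEvents (U : Finset V) : List (Finset (Pat S U)) :=
  (Finset.univ : Finset (U × S.A)).toList.map fun x => ev x.1.1 x.1.2 x.2

lemma eq_of_cellEvents {U : Finset V} {p q : Pat S U}
    (h : ∀ e ∈ cellEvents U, p ∈ e ↔ q ∈ e) : p = q := by
  apply Subtype.ext
  funext u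
  have := h (ev u.1 u.2 (q.1 u))
    (List.mem_map.2 ⟨(u, q.1 u), Finset.mem_toList.2 (Finset.mem_univ _), rfl⟩)
  simp only [mem_ev] at this
  exact this.2 (by trivial)

/-- The set of configurations whose pattern lies in an event. -/
def evSet {U : Finset V} (s : Finset (Pat S U)) : Set S.X := {x | patX U x ∈ s}

@[simp] lemma mem_evSet {U : Finset V} {s : Finset (Pat S U)} {x : S.X} :
    x ∈ evSet s ↔ patX U x ∈ s := Iff.rfl

lemma isClopen_evSet {U : Finset V} (s : Finset (Pat S U)) : IsClopen (evSet s) := by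
  have hloc : IsLocallyConstant (patX (S := S) U) := by
    refine (IsLocallyConstant.iff_exists_open _).2 fun x =>
      ⟨⋂ u ∈ U, (fun y : S.X => y.1 u) ⁻¹' {x.1 u}, ?_, by simp, fun y hy => ?_⟩
    · exact isOpen_biInter_finset fun u _ =>
        (isOpen_discrete {x.1 u}).preimage ((continuous_apply u).comp continuous_subtype_val)
    · simp only [Set.mem_iInter, Set.mem_preimage, Set.mem_singleton_iff] at hy
      exact Subtype.ext (funext fun u => hy u.1 u.2)
  exact ⟨⟨(hloc ((↑s : Set (Pat S U))ᶜ))⟩, hloc (↑s)⟩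

lemma evSet_pre {R U : Finset V} (h : R ⊆ U) (s : Finset (Pat S R)) :
    evSet (pre h s) = evSet s := by ext; simp [res_patX]

/-- A pattern on the window at the origin, moved to `v`. -/
def moveWin (v : V) (p : Pat S (win S 0)) : Pat S (win S v) :=
  ⟨fun u => p.1 ⟨u.1 - v, by
      have := (mem_win S).1 u.2
      rw [mem_win]
      simp only [Prod.fst_sub, Prod.snd_sub, Prod.fst_zero, Prod.snd_zero]
      omega⟩, fun u => ext (win S 0) p (u - v), by
    refine ⟨fun v' hv' => ?_, fun u => ((ext_apply p _)).symm⟩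
    have h00 := (mem_win S).1 (hv' (⟨0, by omega⟩, ⟨0, by omega⟩))
    have hww := (mem_win S).1 (hv' (⟨S.w, by omega⟩, ⟨S.w, by omega⟩))
    simp only [Nat.cast_zero, add_zero] at h00
    have hv : v' = v := by
      refine Prod.ext ?_ ?_ <;> simp only at * <;> omega
    subst hv
    have hadm := ext_admissible p 0 fun q => by
      have h1 := q.1.2
      have h2 := q.2.2
      rw [mem_win]
      simp only [Prod.fst_zero, Prod.snd_zero, zero_add]
      omega
    have e : S.window (fun u => ext (win S 0) p (u - v')) v' = S.window (ext (win S 0) p) 0 := by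
      funext q
      simp only [SFT.window, Prod.fst_zero, Prod.snd_zero, zero_add]
      congr 1
      ext <;> simp
    rw [e]; exact hadm⟩

lemma moveWin_patX (v : V) (x : S.X) :
    moveWin v (patX (win S 0) (S.act v x)) = patX (win S v) x := by
  apply Subtype.ext
  funext u
  show x.1 (u.1 - v + v) = x.1 u.1
  rw [sub_add_cancel]

end

end Vale.Agent.P196.Pres
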