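import Vale.Agent.P196.Pres.Context
import Vale.Agent.P196.Pres.Patterns

/-!
P196, module B: the presented group. The generators are the colourings on one window and the unit
translations; the relators are all relations of length at most 24 among them.
-/

namespace Vale.Agent.P196.Pres

open scoped Classical
open Equiv

noncomputable section

variable (S : SFT) (k : ℕ)

/-- The two unit vectors. -/
def unit (i : Fin 2) : V := if i = 0 then (1, 0) else (0, 1)

/-- An even permutation on a set of points, the identity elsewhere. -/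
def ind (s : Set S.X) (σ : Perm (Fin k)) : Perm (Fin k × S.X) :=
  S.colouring fun x => if x ∈ s then σ else 1

variable {S k}

lemma ind_apply (s : Set S.X) (σ : Perm (Fin k)) (i : Fin k) (x : S.X) :
    ind S k s σ (i, x) = ((if x ∈ s then σ else 1) i, x) := rfl

lemma ind_inv_apply (s : Set S.X) (σ : Perm (Fin k)) (i : Fin k) (x : S.X) :
    (ind S k s σ)⁻¹ (i, x) = ((if x ∈ s then σ else 1)⁻¹ i, x) := rfl

lemma ind_eq_mul {s : Set S.X} {σ τ : Perm (Fin k)} :
    ind S k s (σ * τ) = ind S k s σ * ind S k s τ := by
  refine Equiv.ext fun ⟨i, x⟩ => ?_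
  by_cases hx : x ∈ s <;> simp [ind_apply, Perm.mul_apply, hx]

lemma ind_inv (s : Set S.X) (σ : Perm (Fin k)) : (ind S k s σ)⁻¹ = ind S k s σ⁻¹ := by
  refine Equiv.ext fun ⟨i, x⟩ => ?_
  rw [ind_inv_apply, ind_apply]
  by_cases hx : x ∈ s <;> simp [hx]

lemma translation_apply (t : Fin k → V) (i : Fin k) (x : S.X) :
    S.translation t (i, x) = (i, S.act (t i) x) := rfl

lemma act_add (v w : V) (x : S.X) : S.act (v + w) x = S.act v (S.act w x) := by
  apply Subtype.ext
  funext u
  show x.1 (u + (v + w)) = x.1 (u + v + w)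
  rw [add_assoc]

lemma act_zero (x : S.X) : S.act 0 x = x := by
  apply Subtype.ext
  funext u
  show x.1 (u + 0) = x.1 u
  rw [add_zero]

lemma translation_add (s t : Fin k → V) :
    S.translation (s + t) = S.translation s * S.translation t :=
  Equiv.ext fun ⟨i, x⟩ => by simp [translation_apply, Perm.mul_apply, act_add]

lemma translation_zero : S.translation (0 : Fin k → V) = 1 :=
  Equiv.ext fun ⟨i, x⟩ => by simp [translation_apply, act_zero]

lemma translation_inv (t : Fin k → V) : (S.translation t)⁻¹ = S.translation (-t) := by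
  rw [inv_eq_iff_mul_eq_one, ← translation_add, add_neg_cancel, translation_zero]

/-- Conjugating a colouring by a translation constant on the moved colours. -/
lemma translation_conj_ind {t : Fin k → V} {e : V} {σ : Perm (Fin k)} (s : Set S.X)
    (h : ∀ i, σ i ≠ i → t i = e) :
    S.translation t * ind S k s σ * (S.translation t)⁻¹ =
      ind S k {x | S.act (-e) x ∈ s} σ := by
  refine Equiv.ext fun ⟨i, x⟩ => ?_
  rw [translation_inv]
  simp only [Perm.mul_apply, translation_apply, ind_apply, Pi.neg_apply, Set.mem_ofPred_eq]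
  by_cases hi : σ i = i
  · have e1 : ∀ (P : Prop) [Decidable P], (if P then σ else 1) i = i := fun P _ => by
      split_ifs
      · exact hi
      · rfl
    rw [e1, e1, ← act_add, add_neg_cancel, act_zero]
  · have hi' : σ (σ i) ≠ σ i := fun h' => hi (σ.injective h')
    rw [h i hi]
    by_cases hx : S.act (-e) x ∈ s
    · rw [if_pos hx, h _ hi', ← act_add, add_neg_cancel, act_zero]
    · rw [if_neg hx, Perm.one_apply, h i hi, ← act_add, add_neg_cancel, act_zero]

variable (S k)

/-- The generators: a colouring on the window at the origin, or a unit translation. -/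
abbrev Gen : Type :=
  (Finset (Pat S (win S 0)) × Perm (Fin k)) ⊕ (Fin k × Fin k × Fin 2)

/-- The permutation of a generator. -/
def val : Gen S k → Perm (Fin k × S.X)
  | Sum.inl (P, σ) => if σ.IsThreeCycle then ind S k (evSet P) σ else 1
  | Sum.inr (a, b, i) => S.translation (Pi.single a (unit i) - Pi.single b (unit i))

/-- All short relations. -/
def rels : Set (FreeGroup (Gen S k)) :=
  {w | w.norm ≤ 24 ∧ FreeGroup.lift (val S k) w = 1}

lemma rels_finite : (rels S k).Finite := by
  refine ((List.finite_length_le (Gen S k × Bool) 24).preimage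
    (FreeGroup.toWord_injective.injOn)).subset ?_
  exact fun w hw => hw.1

instance : Finite (rels S k) := (rels_finite S k).to_subtype

/-- The presented group. -/
abbrev Cov : Type := PresentedGroup (rels S k)

/-- The permutation of an element. -/
def proj : Cov S k →* Perm (Fin k × S.X) :=
  PresentedGroup.toGroup (f := val S k) fun _ hw => hw.2

variable {S k}

lemma proj_mk (w : FreeGroup (Gen S k)) :
    proj S k (PresentedGroup.mk (rels S k) w) = FreeGroup.lift (val S k) w := rfl

/-- An element written with at most `n` generators. -/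
def Short (n : ℕ) (x : Cov S k) : Prop :=
  ∃ w : FreeGroup (Gen S k), PresentedGroup.mk (rels S k) w = x ∧ w.norm ≤ n

lemma Short.mul {m n : ℕ} {x y : Cov S k} (hx : Short m x) (hy : Short n y) :
    Short (m + n) (x * y) := by
  obtain ⟨u, rfl, hu⟩ := hx
  obtain ⟨w, rfl, hw⟩ := hy
  exact ⟨u * w, map_mul _ _ _, (FreeGroup.norm_mul_le u w).trans (by omega)⟩

lemma Short.inv {n : ℕ} {x : Cov S k} (hx : Short n x) : Short n x⁻¹ := by
  obtain ⟨u, rfl, hu⟩ := hx
  exact ⟨u⁻¹, map_inv _ _, by rwa [FreeGroup.norm_inv_eq]⟩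

lemma short_one : Short 0 (1 : Cov S k) := ⟨1, map_one _, by simp [FreeGroup.norm_one]⟩

lemma short_of (g : Gen S k) : Short 1 (PresentedGroup.of g : Cov S k) :=
  ⟨FreeGroup.of g, rfl, by simp [FreeGroup.norm_of]⟩

lemma Short.eq {m n : ℕ} {x y : Cov S k} (hx : Short m x) (hy : Short n y) (hmn : m + n ≤ 24)
    (h : proj S k x = proj S k y) : x = y := by
  obtain ⟨u, rfl, hu⟩ := hx
  obtain ⟨w, rfl, hw⟩ := hy
  refine PresentedGroup.mk_eq_mk_of_mul_inv_mem ⟨?_, ?_⟩
  · refine (FreeGroup.norm_mul_le _ _).trans ?_
    rw [FreeGroup.norm_inv_eq]; omega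
  · rw [map_mul, map_inv, mul_inv_eq_one]; exact h

/-- The generator of a colouring on the window at the origin. -/
def ε (P : Finset (Pat S (win S 0))) (σ : Perm (Fin k)) : Cov S k :=
  PresentedGroup.of (Sum.inl (P, σ))

/-- The generator of a unit translation. -/
def tau (a b : Fin k) (i : Fin 2) : Cov S k := PresentedGroup.of (Sum.inr (a, b, i))

lemma proj_of (g : Gen S k) : proj S k (PresentedGroup.of g) = val S k g := by
  show FreeGroup.lift (val S k) (FreeGroup.of g) = val S k g
  simp

lemma proj_ε (P : Finset (Pat S (win S 0))) {σ : Perm (Fin k)} (hσ : σ.IsThreeCycle) :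
    proj S k (ε P σ) = ind S k (evSet P) σ := by
  rw [ε, proj_of, val, if_pos hσ]

lemma proj_tau (a b : Fin k) (i : Fin 2) :
    proj S k (tau a b i) = S.translation (Pi.single a (unit i) - Pi.single b (unit i)) := by
  rw [tau, proj_of, val]

lemma tau_commute (a b c d : Fin k) (i j : Fin 2) :
    Commute (tau (S := S) a b i) (tau c d j) :=
  Short.eq ((short_of _).mul (short_of _)) ((short_of _).mul (short_of _)) (by norm_num) (by
    simp only [map_mul]
    show proj S k (tau a b i) * proj S k (tau c d j) = proj S k (tau c d j) * proj S k (tau a b i)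
    simp only [proj_tau, ← translation_add, add_comm])

/-! ### Translations -/

variable (hk : 12 ≤ k)

/-- A fixed colour. -/
def base : Fin k := ⟨0, by omega⟩

/-- The translation of the colour `a` by `x`, compensated on the fixed colour. -/
def oneTr (a : Fin k) (x : V) : Cov S k :=
  tau a (base hk) 0 ^ x.1 * tau a (base hk) 1 ^ x.2

lemma oneTr_add (a : Fin k) (x y : V) :
    oneTr (S := S) hk a (x + y) = oneTr hk a x * oneTr hk a y := by
  simp only [oneTr, Prod.fst_add, Prod.snd_add, zpow_add, mul_assoc]
  rw [← mul_assoc (tau a (base hk) 0 ^ y.1), ((tau_commute _ _ _ _ _ _).zpow_zpow _ _).eq]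
  simp only [mul_assoc]

lemma oneTr_commute (a b : Fin k) (x y : V) :
    Commute (oneTr (S := S) hk a x) (oneTr hk b y) := by
  have h : ∀ i j, ∀ m n : ℤ, Commute (tau (S := S) a (base hk) i ^ m) (tau b (base hk) j ^ n) :=
    fun i j m n => (tau_commute _ _ _ _ _ _).zpow_zpow m n
  unfold oneTr
  exact ((h 0 0 x.1 y.1).mul_right (h 0 1 x.1 y.2)).mul_left
    ((h 1 0 x.2 y.1).mul_right (h 1 1 x.2 y.2))

lemma oneTr_pairwise (t : Fin k → V) :
    ((Finset.univ : Finset (Fin k)) : Set (Fin k)).Pairwise
      (Function.onFun Commute fun a => oneTr (S := S) hk a (t a)) :=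
  fun _ _ _ _ _ => oneTr_commute hk _ _ _ _

/-- The translations. -/
def tr (t : Fin k → V) : Cov S k :=
  Finset.univ.noncommProd (fun a => oneTr hk a (t a)) (oneTr_pairwise hk t)

lemma tr_add (s t : Fin k → V) : tr (S := S) hk (s + t) = tr hk s * tr hk t := by
  simp only [tr, Pi.add_apply, oneTr_add]
  exact Finset.noncommProd_mul_distrib (s := (Finset.univ : Finset (Fin k)))
    (fun a => oneTr hk a (s a)) (fun a => oneTr hk a (t a)) _ _
    (fun _ _ _ _ _ => oneTr_commute hk _ _ _ _)

lemma tr_zero : tr (S := S) hk 0 = 1 := by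
  have := tr_add (S := S) hk 0 0
  rw [add_zero] at this
  exact left_eq_mul.1 this

lemma tr_neg (t : Fin k → V) : tr (S := S) hk (-t) = (tr hk t)⁻¹ := by
  rw [eq_inv_iff_mul_eq_one, ← tr_add, neg_add_cancel, tr_zero]

lemma tr_single (a : Fin k) (x : V) : tr (S := S) hk (Pi.single a x) = oneTr hk a x := by
  have h0 : ∀ b, oneTr (S := S) hk b 0 = 1 := fun b => by simp [oneTr]
  unfold tr
  rw [← Finset.mul_noncommProd_erase Finset.univ (Finset.mem_univ a) _ (oneTr_pairwise hk _)]
  rw [Pi.single_eq_same]
  refine mul_eq_left.2 ((Finset.noncommProd_eq_pow_card _ _ _ (1 : Cov S k) fun b hb => ?_).trans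
    (one_pow _))
  rw [Pi.single_eq_of_ne (Finset.ne_of_mem_erase hb)]
  exact h0 b

lemma tr_unit (a : Fin k) (i : Fin 2) :
    tr (S := S) hk (Pi.single a (unit i)) = tau a (base hk) i := by
  rw [tr_single]
  fin_cases i <;> simp [oneTr, unit]

lemma tau_eq (a b : Fin k) (i : Fin 2) :
    tau (S := S) a b i = tr hk (Pi.single a (unit i) - Pi.single b (unit i)) := by
  rw [sub_eq_add_neg, tr_add, tr_neg, tr_unit, tr_unit]
  refine Short.eq (short_of _) ((short_of _).mul (short_of _).inv) (by norm_num) ?_
  show proj S k (tau a b i) = proj S k (tau a (base hk) i * (tau b (base hk) i)⁻¹)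
  rw [map_mul, map_inv, proj_tau, proj_tau, proj_tau, translation_inv, ← translation_add]
  congr 1
  abel

/-- Additive properties of translations follow from the units. -/
lemma tr_induction {F : Finset (Fin k)} (H : AddSubgroup (Fin k → V))
    (hH : ∀ a b, a ∉ F → b ∉ F → ∀ i, Pi.single a (unit i) - Pi.single b (unit i) ∈ H)
    {t : Fin k → V} (hs : ∑ a, t a = 0) (ht : ∀ a ∈ F, t a = 0) : t ∈ H := by
  by_cases hF : ∃ o, o ∉ F
  · obtain ⟨o, ho⟩ := hF
    have e : t = ∑ a, (Pi.single a (t a) - Pi.single o (t a)) := by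
      rw [Finset.sum_sub_distrib, Finset.univ_sum_single,
        show ∑ a, Pi.single (M := fun _ => V) o (t a) = 0 by
          funext m
          by_cases hm : m = o <;> simp [Finset.sum_apply, hm, hs], sub_zero]
    rw [e]
    refine H.sum_mem fun a _ => ?_
    by_cases ha : a ∈ F
    · rw [ht a ha, Pi.single_zero, Pi.single_zero, sub_zero]
      exact H.zero_mem
    · have ex : t a = (t a).1 • unit 0 + (t a).2 • unit 1 := by
        ext <;> simp [unit]
      have e2 : Pi.single a (t a) - Pi.single o (t a) =
          (t a).1 • (Pi.single a (unit 0) - Pi.single o (unit 0)) +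
            (t a).2 • (Pi.single a (unit 1) - Pi.single (M := fun _ => V) o (unit 1)) := by
        conv_lhs => rw [ex]
        simp only [Pi.single_add, Pi.single_smul, smul_sub]
        abel
      rw [e2]
      exact add_mem (H.zsmul_mem (hH a o ha ho 0) _) (H.zsmul_mem (hH a o ha ho 1) _)
  · push Not at hF
    rw [show t = 0 from funext fun a => ht a (hF a)]
    exact H.zero_mem

lemma proj_tr {t : Fin k → V} (hs : ∑ a, t a = 0) :
    proj S k (tr hk t) = S.translation t := by
  let H : AddSubgroup (Fin k → V) :=
    { carrier := {u | proj S k (tr hk u) = S.translation u}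
      zero_mem' := by simp [tr_zero, translation_zero]
      add_mem' := fun {a b} ha hb => by
        simp only [Set.mem_ofPred_eq] at ha hb ⊢
        rw [tr_add, map_mul, ha, hb, translation_add]
      neg_mem' := fun {a} ha => by
        simp only [Set.mem_ofPred_eq] at ha ⊢
        rw [tr_neg, map_inv, ha, translation_inv] }
  refine tr_induction (F := ∅) H (fun a b _ _ i => ?_) hs (by simp)
  show proj S k (tr hk _) = _
  rw [← tau_eq, proj_tau]

end

end Vale.Agent.P196.Pres
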