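import Vale.Agent.P196.Pres.Family

/-!
P196, module B: normalised lifts of three-cycles through a central extension.
-/

namespace Vale.Agent.P196.Pres

open scoped Classical commutatorElement
open Equiv Simple

noncomputable section

variable {α : Type*} [Fintype α] [DecidableEq α] {Γ : Type*} [Group Γ]

/-- The three-cycle of five points. -/
def qc (q : Fin 5 ↪ α) : Perm α := cyc (q 0) (q 1) (q 2)

/-- The first factor of the commutator giving `qc`. -/
def ql (q : Fin 5 ↪ α) : Perm α := cyc (q 0) (q 1) (q 3)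

/-- The second factor of the commutator giving `qc`. -/
def qr (q : Fin 5 ↪ α) : Perm α := cyc (q 0) (q 2) (q 4)

omit [Fintype α] [DecidableEq α] in
lemma qne (q : Fin 5 ↪ α) {i j : Fin 5} (h : i ≠ j) : q i ≠ q j := q.injective.ne h

lemma qc_three (q : Fin 5 ↪ α) : (qc q).IsThreeCycle :=
  cyc_three (qne q (by decide)) (qne q (by decide)) (qne q (by decide))

lemma ql_three (q : Fin 5 ↪ α) : (ql q).IsThreeCycle :=
  cyc_three (qne q (by decide)) (qne q (by decide)) (qne q (by decide))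

lemma qr_three (q : Fin 5 ↪ α) : (qr q).IsThreeCycle :=
  cyc_three (qne q (by decide)) (qne q (by decide)) (qne q (by decide))

omit [Fintype α] in
lemma qc_eq (q : Fin 5 ↪ α) : qc q = ⁅ql q, qr q⁆ := by
  obtain ⟨h1, h2, h3, h4⟩ := cyc_apply (qne q (i := 0) (j := 1) (by decide))
    (qne q (i := 1) (j := 3) (by decide)) (qne q (i := 0) (j := 3) (by decide))
  have e : ql q * qr q * (ql q)⁻¹ = cyc (q 1) (q 2) (q 4) := by
    rw [qr, cyc_conj]
    rw [ql, h1, h4 (q 2) (qne q (by decide)) (qne q (by decide)) (qne q (by decide)),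
      h4 (q 4) (qne q (by decide)) (qne q (by decide)) (qne q (by decide))]
  rw [commutatorElement_def, e, qr, cyc_inv, qc]
  obtain ⟨a1, a2, a3, a4⟩ := cyc_apply (qne q (i := 0) (j := 1) (by decide))
    (qne q (i := 1) (j := 2) (by decide)) (qne q (i := 0) (j := 2) (by decide))
  obtain ⟨b1, b2, b3, b4⟩ := cyc_apply (qne q (i := 1) (j := 2) (by decide))
    (qne q (i := 2) (j := 4) (by decide)) (qne q (i := 1) (j := 4) (by decide))
  obtain ⟨c1, c2, c3, c4⟩ := cyc_apply (qne q (i := 4) (j := 2) (by decide))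
    (qne q (i := 2) (j := 0) (by decide)) (qne q (i := 4) (j := 0) (by decide))
  ext x
  simp only [Perm.mul_apply]
  have d01 := qne q (i := 0) (j := 1) (by decide)
  have d02 := qne q (i := 0) (j := 2) (by decide)
  have d04 := qne q (i := 0) (j := 4) (by decide)
  have d12 := qne q (i := 1) (j := 2) (by decide)
  have d14 := qne q (i := 1) (j := 4) (by decide)
  have d24 := qne q (i := 2) (j := 4) (by decide)
  by_cases e0 : x = q 0 <;> by_cases e1 : x = q 1 <;> by_cases e2 : x = q 2 <;>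
    by_cases e4 : x = q 4 <;> grind

/-- The five points moved by a permutation. -/
def qmap (π : Perm α) (q : Fin 5 ↪ α) : Fin 5 ↪ α := q.trans π.toEmbedding

omit [Fintype α] [DecidableEq α] in
lemma qmap_apply (π : Perm α) (q : Fin 5 ↪ α) (i : Fin 5) : qmap π q i = π (q i) := rfl

omit [Fintype α] [DecidableEq α] in
lemma qmap_mul (π ρ : Perm α) (q : Fin 5 ↪ α) : qmap (π * ρ) q = qmap π (qmap ρ q) := rfl

omit [Fintype α] in
lemma qc_map (π : Perm α) (q : Fin 5 ↪ α) : qc (qmap π q) = π * qc q * π⁻¹ :=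
  (cyc_conj π _ _ _).symm

omit [Fintype α] in
lemma ql_map (π : Perm α) (q : Fin 5 ↪ α) : ql (qmap π q) = π * ql q * π⁻¹ :=
  (cyc_conj π _ _ _).symm

omit [Fintype α] in
lemma qr_map (π : Perm α) (q : Fin 5 ↪ α) : qr (qmap π q) = π * qr q * π⁻¹ :=
  (cyc_conj π _ _ _).symm

/-- Every three-cycle is the three-cycle of some five points inside a given set. -/
lemma exists_quint {σ : Perm α} (hσ : σ.IsThreeCycle) {F : Finset α} (hF : σ.support ⊆ F)
    (h5 : 5 ≤ F.card) : ∃ q : Fin 5 ↪ α, qc q = σ ∧ ∀ i, q i ∈ F := by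
  obtain ⟨a, b, c, hab, hbc, hac, rfl⟩ := exists_cyc hσ
  obtain ⟨h1, h2, h3, h4⟩ := cyc_apply hab hbc hac
  have ha : a ∈ F := hF (Perm.mem_support.2 (h1.symm ▸ hab.symm))
  have hb : b ∈ F := hF (Perm.mem_support.2 (h2.symm ▸ hbc.symm))
  have hc : c ∈ F := hF (Perm.mem_support.2 (h3.symm ▸ hac))
  have hcard : 2 ≤ (F \ {a, b, c}).card := by
    have := Finset.le_card_sdiff {a, b, c} F
    have : ({a, b, c} : Finset α).card ≤ 3 := Finset.card_le_three
    omega
  obtain ⟨d, hd, e, he, hde⟩ := Finset.one_lt_card.1 hcard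
  simp only [Finset.mem_sdiff, Finset.mem_insert, Finset.mem_singleton, not_or] at hd he
  refine ⟨⟨![a, b, c, d, e], fun i j hij => ?_⟩, rfl, fun i => ?_⟩
  · fin_cases i <;> fin_cases j <;> simp at hij ⊢ <;> grind
  · show ![a, b, c, d, e] i ∈ F
    fin_cases i <;> simp [ha, hb, hc, hd.1, he.1]

/-- The support of the cycles of five points. -/
lemma support_q_subset (q : Fin 5 ↪ α) {F : Finset α} (hF : ∀ i, q i ∈ F) :
    (qc q).support ⊆ F ∧ (ql q).support ⊆ F ∧ (qr q).support ⊆ F :=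
  ⟨Family.support_cyc_subset (qne q (by decide)) (qne q (by decide)) (qne q (by decide))
      (hF _) (hF _) (hF _),
    Family.support_cyc_subset (qne q (by decide)) (qne q (by decide)) (qne q (by decide))
      (hF _) (hF _) (hF _),
    Family.support_cyc_subset (qne q (by decide)) (qne q (by decide)) (qne q (by decide))
      (hF _) (hF _) (hF _)⟩

lemma mul_pow_of_center {x c : Γ} (hc : c ∈ Subgroup.center Γ) (n : ℕ) :
    (x * c) ^ n = x ^ n * c ^ n :=
  Commute.mul_pow (Subgroup.mem_center_iff.1 hc x) n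

lemma conj_mul_center {x y c : Γ} (hc : c ∈ Subgroup.center Γ) :
    x * c * y * (x * c)⁻¹ = x * y * x⁻¹ := by
  rw [mul_assoc x c, ← Subgroup.mem_center_iff.1 hc y]
  group

lemma inv_mul_conj_center {x y z : Γ} (h : x⁻¹ * y ∈ Subgroup.center Γ) :
    (z * x * z⁻¹)⁻¹ * (z * y * z⁻¹) ∈ Subgroup.center Γ := by
  have e : (z * x * z⁻¹)⁻¹ * (z * y * z⁻¹) = z * (x⁻¹ * y) * z⁻¹ := by group
  rw [e, Subgroup.mem_center_iff.1 h z, mul_inv_cancel_right]
  exact h

lemma inv_mul_trans {x y z : Γ} (h : x⁻¹ * y ∈ Subgroup.center Γ)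
    (h' : y⁻¹ * z ∈ Subgroup.center Γ) : x⁻¹ * z ∈ Subgroup.center Γ := by
  have e : x⁻¹ * z = (x⁻¹ * y) * (y⁻¹ * z) := by group
  rw [e]; exact mul_mem h h'

lemma inv_mul_symm {x y : Γ} (h : x⁻¹ * y ∈ Subgroup.center Γ) :
    y⁻¹ * x ∈ Subgroup.center Γ := by
  have e : y⁻¹ * x = (x⁻¹ * y)⁻¹ := by group
  rw [e]; exact inv_mem h

/-- Normalised lifts: a map which is a homomorphism on three-cycles modulo the centre yields a
family, given by fourth powers of commutators. -/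
theorem exists_lift (hn : 10 ≤ Fintype.card α) (ℓ : Perm α → Γ)
    (hconj : ∀ {σ τ : Perm α}, σ.IsThreeCycle → τ.IsThreeCycle →
      (ℓ (σ * τ * σ⁻¹))⁻¹ * (ℓ σ * ℓ τ * (ℓ σ)⁻¹) ∈ Subgroup.center Γ)
    (hcube : ∀ {σ : Perm α}, σ.IsThreeCycle → ℓ σ ^ 3 ∈ Subgroup.center Γ)
    (hquint : ∀ q : Fin 5 ↪ α,
      (ℓ (qc q))⁻¹ * ⁅ℓ (ql q), ℓ (qr q)⁆ ∈ Subgroup.center Γ) :
    ∃ t : Perm α → Γ, Family t ∧
      (∀ {σ : Perm α}, σ.IsThreeCycle → (ℓ σ)⁻¹ * t σ ∈ Subgroup.center Γ) ∧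
      ∀ q : Fin 5 ↪ α, t (qc q) = ⁅ℓ (ql q), ℓ (qr q)⁆ ^ 4 := by
  let s : (Fin 5 ↪ α) → Γ := fun q => ⁅ℓ (ql q), ℓ (qr q)⁆
  -- the commutators are equivariant
  have hmap3 : ∀ {σ : Perm α}, σ.IsThreeCycle → ∀ q, ℓ σ * s q * (ℓ σ)⁻¹ = s (qmap σ q) := by
    intro σ hσ q
    have e : ℓ σ * s q * (ℓ σ)⁻¹ =
        ⁅ℓ σ * ℓ (ql q) * (ℓ σ)⁻¹, ℓ σ * ℓ (qr q) * (ℓ σ)⁻¹⁆ := by
      simp [s, commutatorElement_def, mul_assoc]
    rw [e]
    simp only [s, ql_map, qr_map]
    exact commutator_congr_center (hconj hσ (ql_three q)) (hconj hσ (qr_three q))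
  have hmap : ∀ π ∈ alternatingGroup α, ∃ z : Γ, ∀ q, z * s q * z⁻¹ = s (qmap π q) := by
    intro π hπ
    rw [← Perm.closure_three_cycles_eq_alternating] at hπ
    induction hπ using Subgroup.closure_induction with
    | mem σ hσ => exact ⟨ℓ σ, hmap3 hσ⟩
    | one => exact ⟨1, fun q => by simp; rfl⟩
    | mul p r _ _ hp hr =>
      obtain ⟨z, hz⟩ := hp
      obtain ⟨w, hw⟩ := hr
      exact ⟨z * w, fun q => by rw [qmap_mul, ← hz, ← hw]; group⟩
    | inv p _ hp =>
      obtain ⟨z, hz⟩ := hp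
      refine ⟨z⁻¹, fun q => ?_⟩
      have e : qmap p (qmap p⁻¹ q) = q := by
        rw [← qmap_mul, mul_inv_cancel]; rfl
      conv_lhs => rw [← e, ← hz]
      group
  -- three-cycles fixing the first three points fix the commutator
  have hfix : ∀ {π : Perm α}, π.IsThreeCycle → ∀ q : Fin 5 ↪ α, π (q 0) = q 0 → π (q 1) = q 1 →
      π (q 2) = q 2 → s (qmap π q) = s q := by
    intro π hπ q h0 h1 h2
    have hF : π.support ⊆ Finset.univ \ {q 0, q 1, q 2} := fun x hx => by
      simp only [Finset.mem_sdiff, Finset.mem_univ, Finset.mem_insert, Finset.mem_singleton,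
        not_or, true_and]
      refine ⟨?_, ?_, ?_⟩ <;> rintro rfl <;> exact Perm.mem_support.1 hx ‹_›
    have h5 : 5 ≤ (Finset.univ \ {q 0, q 1, q 2}).card := by
      have := Finset.le_card_sdiff {q 0, q 1, q 2} (Finset.univ : Finset α)
      have : ({q 0, q 1, q 2} : Finset α).card ≤ 3 := Finset.card_le_three
      rw [Finset.card_univ] at *
      omega
    obtain ⟨p, hp, hpF⟩ := exists_quint hπ hF h5
    have hcomm : ∀ {ρ : Perm α}, ρ.IsThreeCycle → ρ (q 0) = q 0 → ρ (q 1) = q 1 →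
        ρ (q 2) = q 2 → ⁅ℓ ρ, s q⁆ ∈ Subgroup.center Γ := by
      intro ρ hρ e0 e1 e2
      have ec : qc (qmap ρ q) = qc q := by simp [qc, qmap_apply, e0, e1, e2]
      have h := inv_mul_trans (inv_mul_symm (hquint q))
        (ec ▸ hquint (qmap ρ q) : (ℓ (qc q))⁻¹ * s (qmap ρ q) ∈ Subgroup.center Γ)
      rw [← hmap3 hρ] at h
      have e : (s q)⁻¹ * (ℓ ρ * s q * (ℓ ρ)⁻¹) = (s q)⁻¹ * ⁅ℓ ρ, s q⁆ * s q := by
        rw [commutatorElement_def]; group
      rw [e] at h
      exact Subgroup.Normal.mem_comm (inferInstance : (Subgroup.center Γ).Normal)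
        (by simpa [mul_assoc] using h : (s q)⁻¹ * (⁅ℓ ρ, s q⁆ * s q) ∈ _) |> fun h' => by
          simpa [mul_assoc] using h'
    have hpfix : ∀ {ρ : Perm α}, ρ.support ⊆ Finset.univ \ {q 0, q 1, q 2} → ∀ i : Fin 5,
        i = 0 ∨ i = 1 ∨ i = 2 → ρ (q i) = q i := by
      intro ρ hρ i hi
      refine Perm.notMem_support.1 fun hx => ?_
      have := hρ hx
      simp only [Finset.mem_sdiff, Finset.mem_insert, Finset.mem_singleton, not_or] at this
      rcases hi with rfl | rfl | rfl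
      exacts [this.2.1 rfl, this.2.2.1 rfl, this.2.2.2 rfl]
    obtain ⟨-, hlF, hrF⟩ := support_q_subset p hpF
    have key : Commute (s p) (s q) := commute_commutator
      (hcomm (ql_three p) (hpfix hlF 0 (by simp)) (hpfix hlF 1 (by simp)) (hpfix hlF 2 (by simp)))
      (hcomm (qr_three p) (hpfix hrF 0 (by simp)) (hpfix hrF 1 (by simp)) (hpfix hrF 2 (by simp)))
    have hc : (ℓ π)⁻¹ * s p ∈ Subgroup.center Γ := hp ▸ hquint p
    rw [← hmap3 hπ]
    have e : ℓ π = s p * ((ℓ π)⁻¹ * s p)⁻¹ := by group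
    rw [e, conj_mul_center (inv_mem hc), key.eq, mul_inv_cancel_right]
  -- the commutator depends only on the three-cycle
  have hfresh : ∀ (q : Fin 5 ↪ α) (i : Fin 5), i = 3 ∨ i = 4 → ∀ x, (∀ j, q j ≠ x) →
      ∃ q' : Fin 5 ↪ α, s q' = s q ∧ q' i = x ∧ ∀ j, j ≠ i → q' j = q j := by
    intro q i hi x hx
    obtain ⟨f, hf⟩ : ∃ f, f ∉ insert x (Finset.univ.map q) := by
      by_contra! hall
      have := Finset.card_le_card (fun y _ => hall y :
        (Finset.univ : Finset α) ⊆ insert x (Finset.univ.map q))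
      have := Finset.card_insert_le x (Finset.univ.map q)
      simp at *
      omega
    simp only [Finset.mem_insert, Finset.mem_map, Finset.mem_univ, true_and, not_or,
      not_exists] at hf
    obtain ⟨c1, c2, c3, c4⟩ := cyc_apply (hx i) (Ne.symm hf.1) (hf.2 i)
    have hne : ∀ j, j ≠ i → cyc (q i) x f (q j) = q j := fun j hj =>
      c4 _ (q.injective.ne hj) (hx j) (hf.2 j)
    refine ⟨qmap (cyc (q i) x f) q, hfix (cyc_three (hx i) (Ne.symm hf.1) (hf.2 i)) q ?_ ?_ ?_,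
      c1, hne⟩
    all_goals apply hne; rcases hi with rfl | rfl <;> decide
  have hind : ∀ q q' : Fin 5 ↪ α, qc q = qc q' → q 0 = q' 0 → q 1 = q' 1 → q 2 = q' 2 →
      s q = s q' := by
    intro q q' _ h0 h1 h2
    have hbig : 2 ≤ (Finset.univ \ (Finset.univ.map q ∪ Finset.univ.map q')).card := by
      have := Finset.le_card_sdiff (Finset.univ.map q ∪ Finset.univ.map q')
        (Finset.univ : Finset α)
      have hsub : Finset.univ.map q ∪ Finset.univ.map q' ⊆
          Finset.univ.map q ∪ {q' 3, q' 4} := by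
        intro y hy
        simp only [Finset.mem_union, Finset.mem_map, Finset.mem_univ, true_and,
          Finset.mem_insert, Finset.mem_singleton] at hy ⊢
        rcases hy with hy | ⟨j, rfl⟩
        · exact Or.inl hy
        · fin_cases j
          exacts [Or.inl ⟨0, h0⟩, Or.inl ⟨1, h1⟩, Or.inl ⟨2, h2⟩, Or.inr (Or.inl rfl),
            Or.inr (Or.inr rfl)]
      have := Finset.card_le_card hsub
      have := Finset.card_union_le (Finset.univ.map q) {q' 3, q' 4}
      have : ({q' 3, q' 4} : Finset α).card ≤ 2 := Finset.card_le_two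
      simp at *
      omega
    obtain ⟨d, hd, e, he, hde⟩ := Finset.one_lt_card.1 hbig
    simp only [Finset.mem_sdiff, Finset.mem_union, Finset.mem_map, Finset.mem_univ, true_and,
      not_or, not_exists] at hd he
    have hcan : ∀ r : Fin 5 ↪ α, (∀ j, r j ≠ d) → (∀ j, r j ≠ e) → ∃ r' : Fin 5 ↪ α,
        s r' = s r ∧ r' 0 = r 0 ∧ r' 1 = r 1 ∧ r' 2 = r 2 ∧ r' 3 = d ∧ r' 4 = e := by
      intro r hrd hre
      obtain ⟨r1, hs1, hd1, ho1⟩ := hfresh r 3 (Or.inl rfl) d hrd
      obtain ⟨r2, hs2, he2, ho2⟩ := hfresh r1 4 (Or.inr rfl) e fun j => by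
        by_cases hj : j = 3
        · subst hj; rw [hd1]; exact hde
        · rw [ho1 j hj]; exact hre j
      refine ⟨r2, hs2.trans hs1, ?_, ?_, ?_, ?_, he2⟩
      · rw [ho2 0 (by decide), ho1 0 (by decide)]
      · rw [ho2 1 (by decide), ho1 1 (by decide)]
      · rw [ho2 2 (by decide), ho1 2 (by decide)]
      · rw [ho2 3 (by decide), hd1]
    obtain ⟨r, hr, a0, a1, a2, a3, a4⟩ := hcan q hd.1 he.1
    obtain ⟨r', hr', b0, b1, b2, b3, b4⟩ := hcan q' hd.2 he.2
    have : r = r' := by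
      ext j
      fin_cases j
      exacts [(a0.trans h0).trans b0.symm, (a1.trans h1).trans b1.symm,
        (a2.trans h2).trans b2.symm, a3.trans b3.symm, a4.trans b4.symm]
    rw [← hr, ← hr', this]
  have hrot : ∀ q : Fin 5 ↪ α, s (qmap (qc q) q) = s q := by
    intro q
    have hc := hquint q
    rw [← hmap3 (qc_three q)]
    have e : ℓ (qc q) = s q * ((ℓ (qc q))⁻¹ * s q)⁻¹ := by group
    rw [e, conj_mul_center (inv_mem hc)]
    exact mul_inv_cancel_right _ _
  have huniq : ∀ q q' : Fin 5 ↪ α, qc q = qc q' → s q = s q' := by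
    intro q q' h
    obtain ⟨c1, c2, c3, -⟩ := cyc_apply (qne q (i := 0) (j := 1) (by decide))
      (qne q (i := 1) (j := 2) (by decide)) (qne q (i := 0) (j := 2) (by decide))
    have hrot' : qc (qmap (qc q) q) = qc q := by rw [qc_map, mul_inv_cancel_right]
    rcases cyc_eq_cases (qne q (by decide)) (qne q (by decide)) (qne q (by decide))
      (qne q' (by decide)) (qne q' (by decide)) (qne q' (by decide)) h with
      ⟨e0, e1, e2⟩ | ⟨e0, e1, e2⟩ | ⟨e0, e1, e2⟩
    · exact hind q q' h e0.symm e1.symm e2.symm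
    · rw [← hrot q]
      exact hind _ q' (hrot'.trans h) (c1.trans e0.symm) (c2.trans e1.symm) (c3.trans e2.symm)
    · have h2 : qc (qmap (qc q) (qmap (qc q) q)) = qc q := by
        rw [qc_map, hrot', mul_inv_cancel_right]
      have hs2 : s (qmap (qc q) (qmap (qc q) q)) = s q := by
        conv_lhs => rw [show qmap (qc q) (qmap (qc q) q) =
          qmap (qc (qmap (qc q) q)) (qmap (qc q) q) by rw [hrot']]
        rw [hrot, hrot]
      rw [← hs2]
      refine hind _ q' (h2.trans h) ?_ ?_ ?_ <;> simp only [qmap_apply]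
      · exact (congrArg (qc q) c1).trans (c2.trans e0.symm)
      · exact (congrArg (qc q) c2).trans (c3.trans e1.symm)
      · exact (congrArg (qc q) c3).trans (c1.trans e2.symm)
  let t : Perm α → Γ := fun σ =>
    if h : ∃ q : Fin 5 ↪ α, qc q = σ then s h.choose ^ 4 else 1
  have ht : ∀ q, t (qc q) = s q ^ 4 := fun q => by
    simp only [t, dif_pos (show ∃ p : Fin 5 ↪ α, qc p = qc q from ⟨q, rfl⟩)]
    rw [huniq _ q (Exists.choose_spec (show ∃ p : Fin 5 ↪ α, qc p = qc q from ⟨q, rfl⟩))]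
  have hrep : ∀ {σ : Perm α}, σ.IsThreeCycle → ∃ q, qc q = σ := fun hσ =>
    (exists_quint hσ (Finset.subset_univ _) (by rw [Finset.card_univ]; omega)).imp fun _ h => h.1
  -- the swap of the two factors
  have hswap : ∀ q : Fin 5 ↪ α, ∃ π ∈ alternatingGroup α, qc (qmap π q) = (qc q)⁻¹ ∧
      s (qmap π q) = (s q)⁻¹ := by
    intro q
    refine ⟨swap (q 1) (q 2) * swap (q 3) (q 4), ?_, ?_, ?_⟩
    · rw [Perm.mem_alternatingGroup]
      simp [Perm.sign_swap (qne q (show (1 : Fin 5) ≠ 2 by decide)),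
        Perm.sign_swap (qne q (show (3 : Fin 5) ≠ 4 by decide))]
    all_goals
      have f : ∀ i : Fin 5, qmap (swap (q 1) (q 2) * swap (q 3) (q 4)) q i =
          q ((swap (1 : Fin 5) 2 * swap 3 4 : Perm (Fin 5)) i) := fun i => by
        simp only [qmap_apply, Perm.mul_apply, ← q.injective.map_swap]
    · rw [qc, qc, cyc_inv, f 0, f 1, f 2]
      exact cyc_rot (qne q (by decide)) (qne q (by decide)) (qne q (by decide))
    · simp only [s, ql, qr, f 0, f 1, f 2, f 3, f 4, commutatorElement_inv]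
      rfl
  have hcong : ∀ {σ : Perm α}, σ.IsThreeCycle → (ℓ σ)⁻¹ * t σ ∈ Subgroup.center Γ := by
    intro σ hσ
    obtain ⟨q, rfl⟩ := hrep hσ
    have hc3 : s q ^ 3 ∈ Subgroup.center Γ := by
      have e : s q = ℓ (qc q) * ((ℓ (qc q))⁻¹ * s q) := by group
      rw [e, mul_pow_of_center (hquint q)]
      exact mul_mem (hcube (qc_three q)) (pow_mem (hquint q) 3)
    rw [ht, show (4 : ℕ) = 1 + 3 from rfl, pow_add, pow_one, ← mul_assoc]
    exact mul_mem (hquint q) hc3
  refine ⟨t, ⟨?_, ?_, ?_⟩, fun h => hcong h, ht⟩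
  · intro σ τ hσ hτ
    obtain ⟨q, rfl⟩ := hrep hτ
    have hz : t σ = ℓ σ * ((ℓ σ)⁻¹ * t σ) := by group
    rw [hz, conj_mul_center (hcong hσ), ← qc_map, ht, ht, ← conj_pow, hmap3 hσ]
  · intro σ hσ
    obtain ⟨q, rfl⟩ := hrep hσ
    obtain ⟨π, -, hc, hs⟩ := hswap q
    rw [← hc, ht, ht, hs, inv_pow]
  · intro σ hσ
    obtain ⟨q, rfl⟩ := hrep hσ
    obtain ⟨π, hπ, -, hs⟩ := hswap q
    obtain ⟨z, hz⟩ := hmap π hπ
    have hc3 : s q ^ 3 ∈ Subgroup.center Γ := by
      have e : s q = ℓ (qc q) * ((ℓ (qc q))⁻¹ * s q) := by group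
      rw [e, mul_pow_of_center (hquint q)]
      exact mul_mem (hcube (qc_three q)) (pow_mem (hquint q) 3)
    have h := hz q
    rw [hs] at h
    have h3 : s q ^ 3 = (s q ^ 3)⁻¹ := by
      conv_lhs => rw [← mul_inv_cancel_right (s q ^ 3) z,
        ← Subgroup.mem_center_iff.1 hc3 z, ← conj_pow, h, inv_pow]
    rw [ht, ← pow_mul, show 4 * 3 = 3 * 4 from rfl, pow_mul,
      show (4 : ℕ) = 2 * 2 from rfl, pow_mul, pow_two (s q ^ 3)]
    conv_lhs => rw [show s q ^ 3 * s q ^ 3 = 1 by nth_rw 2 [h3]; rw [mul_inv_cancel]]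
    rw [one_pow]

end

end Vale.Agent.P196.Pres
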