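import Vale.Agent.P196.Pres.Group

/-!
P196, module B: colourings on translated windows in the presented group.
-/

namespace Vale.Agent.P196.Pres

open scoped Classical
open Equiv Simple

noncomputable section

variable {S : SFT} {k : ℕ}

/-- Prescribed values on a set of colours, with zero sum. -/
lemma exists_tr (F : Finset (Fin k)) (hF : F.card < k) (f : Fin k → V) :
    ∃ t : Fin k → V, ∑ a, t a = 0 ∧ ∀ a ∈ F, t a = f a := by
  obtain ⟨d, hd⟩ : ∃ d, d ∉ F := by
    by_contra! h
    rw [show F = Finset.univ from Finset.eq_univ_of_forall h, Finset.card_univ,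
      Fintype.card_fin] at hF
    omega
  refine ⟨fun a => if a ∈ F then f a else if a = d then -∑ b ∈ F, f b else 0, ?_,
    fun a ha => if_pos ha⟩
  rw [← Finset.sum_add_sum_compl F, Finset.sum_congr rfl (fun a ha => if_pos ha),
    Finset.sum_eq_single_of_mem d (Finset.mem_compl.2 hd)
      (fun a ha hne => by rw [if_neg (Finset.mem_compl.1 ha), if_neg hne]),
    if_neg hd, if_pos rfl, add_neg_cancel]

lemma card_support_lt (hk : 12 ≤ k) {σ : Perm (Fin k)} (hσ : σ.IsThreeCycle) :
    σ.support.card < k := by rw [hσ.card_support]; omega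

variable (hk : 12 ≤ k)

lemma tr_commute_ε {t : Fin k → V} (hs : ∑ a, t a = 0) {σ : Perm (Fin k)} (hσ : σ.IsThreeCycle)
    (ht : ∀ a ∈ σ.support, t a = 0) (P : Finset (Pat S (win S 0))) :
    Commute (tr hk t) (ε P σ) := by
  let H : AddSubgroup (Fin k → V) :=
    { carrier := {u | Commute (tr (S := S) hk u) (ε P σ)}
      zero_mem' := by simp [tr_zero]
      add_mem' := fun {a b} ha hb => by
        simp only [Set.mem_ofPred_eq] at ha hb ⊢
        rw [tr_add]; exact ha.mul_left hb
      neg_mem' := fun {a} ha => by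
        simp only [Set.mem_ofPred_eq] at ha ⊢
        rw [tr_neg]; exact ha.inv_left }
  refine tr_induction H (fun a b ha hb i => ?_) hs ht
  show Commute (tr hk _) _
  rw [← tau_eq]
  refine Short.eq ((short_of _).mul (short_of _)) ((short_of _).mul (short_of _)) (by norm_num) ?_
  show proj S k (tau a b i * ε P σ) = proj S k (ε P σ * tau a b i)
  rw [map_mul, map_mul, proj_tau, proj_ε P hσ]
  have e := translation_conj_ind (t := Pi.single a (unit i) - Pi.single b (unit i)) (e := (0 : V))
    (σ := σ) (evSet P) fun j hj => by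
      have h1 : j ≠ a := fun e => ha (e ▸ Perm.mem_support.2 hj)
      have h2 : j ≠ b := fun e => hb (e ▸ Perm.mem_support.2 hj)
      simp [h1, h2]
  simp only [neg_zero, act_zero, Set.ofPred_mem_eq] at e
  exact mul_inv_eq_iff_eq_mul.1 e

/-- The colouring `σ` over the window at `v` with pattern in `P`. -/
def Xv (v : V) (P : Finset (Pat S (win S 0))) (σ : Perm (Fin k)) : Cov S k :=
  if h : σ.IsThreeCycle then
    tr hk (exists_tr σ.support (card_support_lt hk h) fun _ => -v).choose * ε P σ *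
      (tr hk (exists_tr σ.support (card_support_lt hk h) fun _ => -v).choose)⁻¹
  else 1

lemma Xv_eq {v : V} {P : Finset (Pat S (win S 0))} {σ : Perm (Fin k)} (hσ : σ.IsThreeCycle)
    {t : Fin k → V} (hs : ∑ a, t a = 0) (ht : ∀ a ∈ σ.support, t a = -v) :
    Xv hk v P σ = tr hk t * ε P σ * (tr hk t)⁻¹ := by
  rw [Xv, dif_pos hσ]
  obtain ⟨hs0, ht0⟩ := (exists_tr σ.support (card_support_lt hk hσ) fun _ => -v).choose_spec
  set t₀ := (exists_tr σ.support (card_support_lt hk hσ) fun _ => -v).choose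
  have e : t = t₀ + (t - t₀) := by abel
  have hc : Commute (tr hk (t - t₀)) (ε P σ) := tr_commute_ε hk
    (by simp [Finset.sum_sub_distrib, hs, hs0]) hσ
    (fun a ha => by simp [ht a ha, ht0 a ha]) P
  rw [e, tr_add, mul_assoc (tr hk t₀) (tr hk (t - t₀)), hc.eq]
  group

lemma Xv_zero (P : Finset (Pat S (win S 0))) {σ : Perm (Fin k)} (hσ : σ.IsThreeCycle) :
    Xv hk 0 P σ = ε P σ := by
  rw [Xv_eq hk hσ (t := 0) (by simp) (by simp), tr_zero]
  group

lemma proj_Xv (v : V) (P : Finset (Pat S (win S 0))) {σ : Perm (Fin k)} (hσ : σ.IsThreeCycle) :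
    proj S k (Xv hk v P σ) = ind S k {x | S.act v x ∈ evSet P} σ := by
  obtain ⟨t, hs, ht⟩ := exists_tr σ.support (card_support_lt hk hσ) fun _ => -v
  rw [Xv_eq hk hσ hs ht, map_mul, map_mul, map_inv, proj_tr hk hs, proj_ε P hσ,
    translation_conj_ind (e := -v) _ fun i hi => ht i (Perm.mem_support.2 hi), neg_neg]

/-- Shifting by a unit vector. -/
lemma Xv_unit (v : V) (i : Fin 2) {P Q : Finset (Pat S (win S 0))}
    (hPQ : {x : S.X | S.act (-unit i) x ∈ evSet P} = evSet Q) {σ : Perm (Fin k)}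
    (hσ : σ.IsThreeCycle) : Xv hk v Q σ = Xv hk (v - unit i) P σ := by
  obtain ⟨a, b, c, hab, hbc, hac, rfl⟩ := exists_cyc hσ
  obtain ⟨d, hd⟩ := exists_fresh (k := k) (by omega) {a, b, c} (by
    have : ({a, b, c} : Finset (Fin k)).card ≤ 3 := Finset.card_le_three
    omega)
  simp only [Finset.mem_insert, Finset.mem_singleton, not_or] at hd
  obtain ⟨c1, c2, c3, c4⟩ := cyc_apply hab hbc hac
  set u : Fin k → V := (Pi.single a (unit i) - Pi.single d (unit i)) +
    (Pi.single b (unit i) - Pi.single d (unit i)) + (Pi.single c (unit i) - Pi.single d (unit i))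
  have hu : ∀ j, cyc a b c j ≠ j → u j = unit i := by
    intro j hj
    have : j = a ∨ j = b ∨ j = c := by
      by_contra! h
      exact hj (c4 j h.1 h.2.1 h.2.2)
    rcases this with rfl | rfl | rfl
    · simp [u, hab, hac, Ne.symm hd.1]
    · simp [u, Ne.symm hab, hbc, Ne.symm hd.2.1]
    · simp [u, Ne.symm hbc, Ne.symm hac, Ne.symm hd.2.2]
  have hus : ∑ j, u j = 0 := by simp [u, Finset.sum_add_distrib, Finset.sum_sub_distrib]
  have etr : tr (S := S) hk u = tau a d i * tau b d i * tau c d i := by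
    simp only [u, tr_add, ← tau_eq]
  have hsu : Short 3 (tr (S := S) hk u) := by
    rw [etr]; exact ((short_of _).mul (short_of _)).mul (short_of _)
  have key : tr hk u * ε P (cyc a b c) * (tr hk u)⁻¹ = ε Q (cyc a b c) := by
    refine Short.eq ((hsu.mul (short_of _)).mul hsu.inv) (short_of _) (by norm_num) ?_
    show proj S k (tr hk u * ε P (cyc a b c) * (tr hk u)⁻¹) = proj S k (ε Q (cyc a b c))
    rw [map_mul, map_mul, map_inv, proj_tr hk hus, proj_ε P hσ, proj_ε Q hσ,
      translation_conj_ind _ hu, hPQ]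
  obtain ⟨t, hs, ht⟩ := exists_tr (cyc a b c).support (card_support_lt hk hσ) fun _ => -v
  rw [Xv_eq hk hσ hs ht, Xv_eq hk hσ (t := t + u) (by simp [Finset.sum_add_distrib, hs, hus])
    (fun j hj => by
      rw [Pi.add_apply, ht j hj, hu j (Perm.mem_support.1 hj)]; abel),
    tr_add, ← key]
  group

lemma unit_induction {Φ : V → Prop} (h0 : Φ 0) (hstep : ∀ v i, Φ v ↔ Φ (v - unit i)) (v : V) :
    Φ v := by
  obtain ⟨a, b⟩ := v
  have hb : Φ (0, b) := by
    induction b using Int.induction_on with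
    | zero => exact h0
    | succ n ih =>
      refine (hstep _ 1).2 ?_
      simpa [unit] using ih
    | pred n ih =>
      have := (hstep (0, -(n : ℤ)) 1).1 ih
      simpa [unit] using this
  induction a using Int.induction_on with
  | zero => exact hb
  | succ n ih =>
    refine (hstep _ 0).2 ?_
    simpa [unit] using ih
  | pred n ih =>
    have := (hstep (-(n : ℤ), b) 0).1 ih
    simpa [unit] using this

lemma Xv_univ (v : V) {σ : Perm (Fin k)} (hσ : σ.IsThreeCycle) :
    Xv (S := S) hk v Finset.univ σ = ε Finset.univ σ := by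
  induction v using unit_induction with
  | h0 => exact Xv_zero hk _ hσ
  | hstep v i =>
    rw [Xv_unit hk v i (P := Finset.univ) (Q := Finset.univ) (by ext x; simp) hσ]

/-! ### The local subgroups -/

/-- The subgroup generated by the colourings on windows with colours in `F`. -/
def locGroup (F : Finset (Fin k)) : Subgroup (Cov S k) :=
  Subgroup.closure {x | ∃ (v : V) (P : Finset (Pat S (win S 0))) (σ : Perm (Fin k)),
    σ.IsThreeCycle ∧ σ.support ⊆ F ∧ x = Xv hk v P σ}

lemma ind_mul_apply {s : Set S.X} (σ : Perm (Fin k)) (x : S.X) (i : Fin k) :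
    ind S k s σ (i, x) = (if x ∈ s then σ i else i, x) := by
  rw [ind_apply]; split_ifs <;> rfl

lemma Xv_commute {v w : V} {P Q : Finset (Pat S (win S 0))} {σ τ : Perm (Fin k)}
    (hσ : σ.IsThreeCycle) (hτ : τ.IsThreeCycle) (hd : Disjoint σ.support τ.support) :
    Commute (Xv hk v P σ) (Xv hk w Q τ) := by
  obtain ⟨t, hs, ht⟩ := exists_tr (σ.support ∪ τ.support)
    (by
      have := Finset.card_union_le σ.support τ.support
      rw [hσ.card_support, hτ.card_support] at this
      omega)
    fun a => if a ∈ σ.support then -v else -w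
  rw [Xv_eq hk hσ hs (fun a ha => by rw [ht a (Finset.mem_union_left _ ha), if_pos ha]),
    Xv_eq hk hτ hs (fun a ha => by
      rw [ht a (Finset.mem_union_right _ ha), if_neg (Finset.disjoint_right.1 hd ha)])]
  refine Commute.map ?_ (MulAut.conj (tr hk t)).toMonoidHom
  refine Short.eq ((short_of _).mul (short_of _)) ((short_of _).mul (short_of _)) (by norm_num) ?_
  show proj S k (ε P σ * ε Q τ) = proj S k (ε Q τ * ε P σ)
  rw [map_mul, map_mul, proj_ε P hσ, proj_ε Q hτ]
  have hc : Commute σ τ := (Perm.disjoint_iff_disjoint_support.2 hd).commute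
  refine Equiv.ext fun ⟨i, x⟩ => ?_
  simp only [Perm.mul_apply, ind_mul_apply]
  split_ifs <;> first
    | rfl
    | exact Prod.ext (congrArg (fun π : Perm (Fin k) => π i) hc.eq) rfl

lemma window_conj (v : V) (P Q : Finset (Pat S (win S 0))) {σ τ : Perm (Fin k)}
    (hσ : σ.IsThreeCycle) (hτ : τ.IsThreeCycle) :
    Xv hk v P σ * Xv hk v Q τ * (Xv hk v P σ)⁻¹ =
      Xv hk v (Q ∩ P) (σ * τ * σ⁻¹) * Xv hk v (Q \ P) τ := by
  obtain ⟨t, hs, ht⟩ := exists_tr (σ.support ∪ τ.support)
    (by
      have := Finset.card_union_le σ.support τ.support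
      rw [hσ.card_support, hτ.card_support] at this
      omega)
    fun _ => -v
  have hsub : ∀ a ∈ (σ * τ * σ⁻¹).support, t a = -v := fun a ha => by
    refine ht a (Finset.mem_union.2 ?_)
    by_contra! hn
    rw [Perm.mem_support] at ha
    apply ha
    have e1 : σ⁻¹ a = a := by
      rw [Perm.inv_eq_iff_eq]; exact (Perm.notMem_support.1 hn.1).symm
    rw [Perm.mul_apply, Perm.mul_apply, e1, Perm.notMem_support.1 hn.2,
      Perm.notMem_support.1 hn.1]
  rw [Xv_eq hk hσ hs fun a ha => ht a (Finset.mem_union_left _ ha),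
    Xv_eq hk hτ hs fun a ha => ht a (Finset.mem_union_right _ ha),
    Xv_eq hk hτ hs fun a ha => ht a (Finset.mem_union_right _ ha),
    Xv_eq hk (isThreeCycle_conj hτ σ) hs hsub]
  have key : ε P σ * ε Q τ * (ε P σ)⁻¹ = ε (Q ∩ P) (σ * τ * σ⁻¹) * ε (Q \ P) τ := by
    refine Short.eq (((short_of _).mul (short_of _)).mul (short_of _).inv)
      ((short_of _).mul (short_of _)) (by norm_num) ?_
    show proj S k (ε P σ * ε Q τ * (ε P σ)⁻¹) = proj S k (ε (Q ∩ P) _ * ε (Q \ P) τ)
    rw [map_mul, map_mul, map_mul, map_inv, proj_ε P hσ, proj_ε Q hτ,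
      proj_ε _ (isThreeCycle_conj hτ σ), proj_ε _ hτ, ind_inv]
    refine Equiv.ext fun ⟨i, x⟩ => ?_
    simp only [Perm.mul_apply, ind_mul_apply, mem_evSet, Finset.mem_inter, Finset.mem_sdiff]
    by_cases h1 : patX (win S 0) x ∈ P <;> by_cases h2 : patX (win S 0) x ∈ Q <;> simp [h1, h2]
  calc tr hk t * ε P σ * (tr hk t)⁻¹ * (tr hk t * ε Q τ * (tr hk t)⁻¹) *
        (tr hk t * ε P σ * (tr hk t)⁻¹)⁻¹
      = tr hk t * (ε P σ * ε Q τ * (ε P σ)⁻¹) * (tr hk t)⁻¹ := by group
    _ = _ := by rw [key]; group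

/-- The world of the presented group. -/
def world : World (Fin k) (Cov S k) where
  K σ := ε Finset.univ σ
  Loc := locGroup hk
  card := by rw [Fintype.card_fin]; exact hk
  mono h := Subgroup.closure_mono fun _ ⟨v, P, σ, h1, h2, h3⟩ => ⟨v, P, σ, h1, h2.trans h, h3⟩
  comm {F G} hFG x hx y hy := by
    have h1 : locGroup (S := S) hk G ≤ Subgroup.centralizer (locGroup (S := S) hk F : Set _) := by
      rw [locGroup, locGroup, Subgroup.closure_le]
      rintro _ ⟨w, Q, τ, hτ, hτG, rfl⟩
      rw [SetLike.mem_coe, Subgroup.centralizer_closure, Subgroup.mem_centralizer_iff]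
      rintro _ ⟨v, P, σ, hσ, hσF, rfl⟩
      exact (Xv_commute hk hσ hτ (hFG.mono hσF hτG)).eq
    exact Subgroup.mem_centralizer_iff.1 (h1 hy) x hx
  conj {σ F x} hσ hx := by
    have h1 : locGroup (S := S) hk F ≤ (locGroup hk (F.map σ.toEmbedding)).comap
        (MulAut.conj (ε Finset.univ σ)).toMonoidHom := by
      rw [locGroup, Subgroup.closure_le]
      rintro _ ⟨v, P, τ, hτ, hτF, rfl⟩
      show ε Finset.univ σ * Xv hk v P τ * (ε Finset.univ σ)⁻¹ ∈ locGroup hk (F.map σ.toEmbedding)
      rw [← Xv_univ hk v hσ, window_conj hk v _ P hσ hτ, Finset.inter_univ,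
        show P \ Finset.univ = ∅ by simp]
      refine mul_mem (Subgroup.subset_closure ⟨v, P, _, isThreeCycle_conj hτ σ, ?_, rfl⟩) ?_
      · rw [Perm.support_conj]; exact Finset.map_subset_map.2 hτF
      · rw [show Xv (S := S) hk v (∅ : Finset (Pat S (win S 0))) τ = 1 from ?_]
        · exact one_mem _
        obtain ⟨t, hs, ht⟩ := exists_tr τ.support (card_support_lt hk hτ) fun _ => -v
        rw [Xv_eq hk hτ hs ht,
          show ε (S := S) (∅ : Finset (Pat S (win S 0))) τ = 1 from
            Short.eq (short_of _) short_one (by norm_num) (by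
              show proj S k (ε ∅ τ) = proj S k 1
              rw [proj_ε _ hτ, map_one]
              exact Equiv.ext fun ⟨i, y⟩ => by simp [ind_mul_apply])]
        group
    exact h1 hx

lemma alg_Xv (v : V) : Alg (world (S := S) hk) (Xv hk v) where
  conj P Q _ _ hσ hτ := window_conj hk v P Q hσ hτ
  univ hσ := Xv_univ hk v hσ
  loc P σ F hσ hF _ := Subgroup.subset_closure ⟨v, P, σ, hσ, hF, rfl⟩
  inv P σ hσ := by
    obtain ⟨t, hs, ht⟩ := exists_tr σ.support (card_support_lt hk hσ) fun _ => -v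
    rw [Xv_eq hk hσ.inv hs (by rwa [Perm.support_inv]), Xv_eq hk hσ hs ht]
    have key : ε P σ⁻¹ = (ε P σ)⁻¹ := by
      refine Short.eq (short_of _) (short_of _).inv (by norm_num) ?_
      show proj S k (ε P σ⁻¹) = proj S k (ε P σ)⁻¹
      rw [map_inv, proj_ε _ hσ.inv, proj_ε _ hσ, ind_inv]
    rw [key]; group
  cube P σ hσ := by
    obtain ⟨t, hs, ht⟩ := exists_tr σ.support (card_support_lt hk hσ) fun _ => -v
    have h3 : σ * σ * σ = 1 := by
      rw [← pow_two, ← pow_succ]
      show σ ^ 3 = 1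
      rw [← hσ.orderOf]; exact pow_orderOf_eq_one _
    have key : ε P σ ^ 3 = 1 := by
      rw [pow_succ, pow_two]
      refine Short.eq (((short_of _).mul (short_of _)).mul (short_of _)) short_one (by norm_num) ?_
      show proj S k (ε P σ * ε P σ * ε P σ) = proj S k 1
      rw [map_mul, map_mul, map_one, proj_ε _ hσ, ← ind_eq_mul, ← ind_eq_mul, h3]
      exact Equiv.ext fun ⟨i, x⟩ => by simp [ind_mul_apply]
    rw [Xv_eq hk hσ hs ht, conj_pow, key]
    group
  union {P Q σ} hσ hd := by
    obtain ⟨t, hs, ht⟩ := exists_tr σ.support (card_support_lt hk hσ) fun _ => -v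
    rw [Xv_eq hk hσ hs ht, Xv_eq hk hσ hs ht, Xv_eq hk hσ hs ht]
    have key : ε (P ∪ Q) σ = ε P σ * ε Q σ := by
      refine Short.eq (short_of _) ((short_of _).mul (short_of _)) (by norm_num) ?_
      show proj S k (ε (P ∪ Q) σ) = proj S k (ε P σ * ε Q σ)
      rw [map_mul, proj_ε _ hσ, proj_ε _ hσ, proj_ε _ hσ]
      refine Equiv.ext fun ⟨i, x⟩ => ?_
      simp only [Perm.mul_apply, ind_mul_apply, mem_evSet, Finset.mem_union]
      have : patX (win S 0) x ∈ P → patX (win S 0) x ∉ Q := fun h => Finset.disjoint_left.1 hd h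
      by_cases h1 : patX (win S 0) x ∈ P <;> by_cases h2 : patX (win S 0) x ∈ Q <;>
        simp_all
    rw [key]; group

/-! ### Windows as sets of cells -/

/-- The algebra of a window. -/
def Tw (v : V) : Finset (Pat S (win S v)) → Perm (Fin k) → Cov S k :=
  pull (moveWin v) (Xv hk v)

lemma alg_Tw (v : V) : Alg (world (S := S) hk) (Tw hk v) := (alg_Xv hk v).pull _

lemma proj_Tw (v : V) (P : Finset (Pat S (win S v))) {σ : Perm (Fin k)} (hσ : σ.IsThreeCycle) :
    proj S k (Tw hk v P σ) = ind S k (evSet P) σ := by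
  unfold Tw pull
  rw [proj_Xv hk v _ hσ]
  have e : {x : S.X | S.act v x ∈ evSet (Finset.univ.filter fun p => moveWin v p ∈ P)} = evSet P := by
    ext x
    rw [Set.mem_ofPred_eq, mem_evSet, Finset.mem_filter, moveWin_patX]
    simp
  rw [e]

lemma self_mem_win (v : V) : v ∈ win S v := by rw [mem_win]; omega

/-- The element of a cell. -/
def cell (u : V) (c : S.A) (σ : Perm (Fin k)) : Cov S k := Tw hk u (ev u (self_mem_win u) c) σ

lemma Tw_step (v : V) (i : Fin 2) {u : V} (h1 : u ∈ win S v) (h2 : u ∈ win S (v + unit i))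
    (c : S.A) {σ : Perm (Fin k)} (hσ : σ.IsThreeCycle) :
    Tw hk v (ev u h1 c) σ = Tw hk (v + unit i) (ev u h2 c) σ := by
  unfold Tw pull
  rw [Xv_unit hk (v + unit i) i
    (P := Finset.univ.filter fun p => moveWin v p ∈ ev u h1 c) ?_ hσ, add_sub_cancel_right]
  ext x
  simp only [Set.mem_ofPred_eq, mem_evSet, Finset.mem_filter, Finset.mem_univ, true_and, mem_ev]
  show (S.act (-unit i) x).1 (u - v) = c ↔ x.1 (u - (v + unit i)) = c
  rw [show (S.act (-unit i) x).1 (u - v) = x.1 (u - v + -unit i) from rfl,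
    show u - v + -unit i = u - (v + unit i) by abel]

lemma Tw_cell {v u : V} (h : u ∈ win S v) (c : S.A) {σ : Perm (Fin k)} (hσ : σ.IsThreeCycle) :
    Tw hk v (ev u h c) σ = cell hk u c σ := by
  obtain ⟨a, ha⟩ : ∃ n : ℕ, u.1 = v.1 + n :=
    ⟨(u.1 - v.1).toNat, by have := (mem_win S).1 h; omega⟩
  obtain ⟨b, hb⟩ : ∃ n : ℕ, u.2 = v.2 + n :=
    ⟨(u.2 - v.2).toNat, by have := (mem_win S).1 h; omega⟩
  induction a generalizing v with
  | zero =>
    induction b generalizing v with
    | zero =>
      have e : v = u := by ext <;> omega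
      subst e; rfl
    | succ b ih =>
      have h' : u ∈ win S (v + unit 1) := by
        have := (mem_win S).1 h
        rw [mem_win]; simp [unit]; omega
      rw [Tw_step hk v 1 h h' c hσ]
      exact ih h' (by simp [unit]; omega) (by simp [unit]; omega)
  | succ a ih =>
    have h' : u ∈ win S (v + unit 0) := by
      have := (mem_win S).1 h
      rw [mem_win]; simp [unit]; omega
    rw [Tw_step hk v 0 h h' c hσ]
    exact ih h' (by simp [unit]; omega) (by simp [unit]; omega)

end

end Vale.Agent.P196.Pres
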